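import Vale.Agent.P017.H185.QF

/-!
# The imaginary quadratic fields as subfields of `ℂ`
-/

open Complex

namespace Vale.Agent.P014.H70

open Vale.Agent.P017.H185

/-- `√-n` -/
noncomputable def th (n : ℕ) : ℂ := (√(n : ℝ) : ℝ) * I

theorem th_sq (n : ℕ) : th n ^ 2 = -(n : ℂ) := by
  unfold th
  rw [mul_pow, I_sq, ← Complex.ofReal_pow, Real.sq_sqrt (by positivity)]
  simp

theorem conj_th (n : ℕ) : (starRingEnd ℂ) (th n) = -th n := by
  unfold th
  simp

/-- the field `ℚ(√-n)` -/
noncomputable def Kn (n : ℕ) : IntermediateField ℚ ℂ := IntermediateField.adjoin ℚ {th n}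

theorem th_mem (n : ℕ) : th n ∈ Kn n := IntermediateField.mem_adjoin_simple_self ℚ (th n)

theorem span_Kn (n : ℕ) {z : ℂ} (hz : z ∈ Kn n) : ∃ u v : ℚ, z = u + v * th n := by
  unfold Kn at hz
  induction hz using IntermediateField.adjoin_induction with
  | mem x hx =>
    rw [Set.mem_singleton_iff] at hx
    exact ⟨0, 1, by rw [hx]; simp⟩
  | algebraMap x => exact ⟨x, 0, by simp⟩
  | add x y _ _ hx hy =>
    obtain ⟨u, v, rfl⟩ := hx
    obtain ⟨u', v', rfl⟩ := hy
    exact ⟨u + u', v + v', by push_cast; ring⟩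
  | inv x _ hx =>
    obtain ⟨u, v, rfl⟩ := hx
    refine ⟨u / (u ^ 2 + n * v ^ 2), -v / (u ^ 2 + n * v ^ 2), ?_⟩
    by_cases h0 : (u : ℂ) + v * th n = 0
    · rw [h0, inv_zero]
      have h1 : ((u ^ 2 + n * v ^ 2 : ℚ) : ℂ) = 0 := by
        push_cast
        have := th_sq n
        linear_combination ((u : ℂ) - v * th n) * h0 + (v : ℂ) ^ 2 * this
      have h2 : (u ^ 2 + n * v ^ 2 : ℚ) = 0 := by exact_mod_cast h1
      rw [h2]
      simp
    · by_cases h1 : ((u : ℂ) ^ 2 + n * v ^ 2) = 0
      · exfalso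
        apply h0
        have h2 : ((u ^ 2 + n * v ^ 2 : ℚ)) = 0 := by exact_mod_cast h1
        have h3 : u ^ 2 = 0 := by
          have a1 : 0 ≤ u ^ 2 := by positivity
          have a2 : 0 ≤ (n : ℚ) * v ^ 2 := by positivity
          linarith
        have h4 : (n : ℚ) * v ^ 2 = 0 := by
          rw [h3] at h2
          linarith
        have h5 : u = 0 := by simpa using h3
        have h6 : ((v : ℂ) * th n) ^ 2 = 0 := by
          rw [mul_pow, th_sq]
          have : (((n : ℚ) * v ^ 2 : ℚ) : ℂ) = 0 := by rw [h4]; simp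
          push_cast at this
          linear_combination -this
        rw [h5, pow_eq_zero_iff two_ne_zero |>.mp h6]
        simp
      · rw [inv_eq_iff_eq_inv]
        have h2 : (((u / (u ^ 2 + n * v ^ 2) : ℚ) : ℂ) + ((-v / (u ^ 2 + n * v ^ 2) : ℚ) : ℂ) * th n) *
            ((u : ℂ) + v * th n) = 1 := by
          push_cast
          field_simp
          have := th_sq n
          linear_combination (-(v : ℂ) ^ 2) * this
        exact (eq_inv_of_mul_eq_one_right h2)
  | mul x y _ _ hx hy =>
    obtain ⟨u, v, rfl⟩ := hx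
    obtain ⟨u', v', rfl⟩ := hy
    refine ⟨u * u' - n * v * v', u * v' + v * u', ?_⟩
    have := th_sq n
    push_cast
    linear_combination (v : ℂ) * v' * this

theorem rat_mem (n : ℕ) (r : ℚ) : (r : ℂ) ∈ Kn n := by
  have := (Kn n).algebraMap_mem r
  simpa using this

theorem conj_mem (n : ℕ) {z : ℂ} (hz : z ∈ Kn n) : (starRingEnd ℂ) z ∈ Kn n := by
  obtain ⟨u, v, rfl⟩ := span_Kn n hz
  rw [map_add, map_mul, conj_th]
  rw [map_ratCast, map_ratCast]
  exact (Kn n).add_mem (rat_mem n u) ((Kn n).mul_mem (rat_mem n v) ((Kn n).neg_mem (th_mem n)))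

instance numberField_Kn (n : ℕ) : NumberField (Kn n) := by
  have h : IsIntegral ℚ (th n) := by
    refine ⟨Polynomial.X ^ 2 + Polynomial.C (n : ℚ), ?_, ?_⟩
    · exact Polynomial.monic_X_pow_add (by
        exact lt_of_le_of_lt Polynomial.degree_C_le (by norm_num))
    · simp [th_sq]
  have h2 : FiniteDimensional ℚ (Kn n) := IntermediateField.adjoin.finiteDimensional h
  exact { to_charZero := inferInstance, to_finiteDimensional := h2 }

/-- conjugation on `ℚ(√-n)` -/
noncomputable def sg (n : ℕ) : Kn n ≃ₐ[ℚ] Kn n where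
  toFun z := ⟨(starRingEnd ℂ) z, conj_mem n z.2⟩
  invFun z := ⟨(starRingEnd ℂ) z, conj_mem n z.2⟩
  left_inv z := by ext; simp
  right_inv z := by ext; simp
  map_mul' z w := by ext; simp
  map_add' z w := by ext; simp
  commutes' r := by ext; simp

/-- the quadratic field `ℚ(√-n)` -/
noncomputable def qf (n : ℕ) (hn : Squarefree n) : QF (Kn n) n where
  θ := ⟨th n, th_mem n⟩
  hθ := by
    apply Subtype.ext
    have := th_sq n
    simpa using this
  hd := hn
  σ := sg n
  hσ := by
    apply Subtype.ext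
    exact conj_th n
  hspan := by
    intro z
    obtain ⟨u, v, h⟩ := span_Kn n z.2
    refine ⟨u, v, ?_⟩
    apply Subtype.ext
    simpa using h

end Vale.Agent.P014.H70
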