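import Vale.Agent.P014.H70.IdeLat2
import Vale.Agent.P014.H70.Fld

/-!
# The theta series of the maximal order with six units
-/

open NumberField Complex
open UpperHalfPlane hiding I
open MatrixGroups ModularForm CongruenceSubgroup
open Matrix.SpecialLinearGroup (mapGL)

namespace Vale.Agent.P014.H70

/-- the integral points -/
noncomputable def S3 (m : ℕ) : Finset V :=
  ((Finset.Icc (-9) 9 ×ˢ Finset.Icc (-5) 5) ×ˢ (Finset.Icc (-2) 2 ×ˢ Finset.Icc (-1) 1)).filter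
    fun v => 2 ∣ v.1.1 - v.1.2 ∧ 2 ∣ v.2.1 - v.2.2 ∧ 3 ∣ v.1.1 + 17 * v.2.1 ∧
      (v.1.1 * v.1.1 + 3 * (v.1.2 * v.1.2)) + 17 * (v.2.1 * v.2.1 + 3 * (v.2.2 * v.2.2)) = 12 * m

theorem S3_card : (S3 1).card = 6 ∧ (S3 2).card = 0 ∧ (S3 3).card = 6 ∧ (S3 5).card = 0 ∧
    (S3 7).card = 30 := by
  decide +kernel


open scoped Classical

open Vale.Agent.P017.H185

namespace Lat

variable (A : Lat)

theorem thL_mob {a b c d : ℤ} (h : a * d - b * (17 * c) = 1) {z : ℂ} (hz : 0 < z.im) :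
    A.thL ((a * z + b) / ((17 * c : ℤ) * z + d)) = ((17 * c : ℤ) * z + d) ^ 2 * A.thL z := by
  obtain ⟨g, g00, g01, g10, g11⟩ : ∃ g : SL(2, ℤ), g 0 0 = a ∧ g 0 1 = b ∧ g 1 0 = 17 * c ∧
      g 1 1 = d :=
    ⟨⟨!![a, b; 17 * c, d], by rw [Matrix.det_fin_two_of]; exact h⟩, by simp, by simp, by simp,
      by simp⟩
  have hg : g ∈ Gamma0 17 := by
    rw [Gamma0_mem, g10]
    push_cast
    have : (17 : ZMod 17) = 0 := rfl
    rw [this, zero_mul]
  have h1 := congrFun (A.thL_inv_Gamma g hg) ⟨z, hz⟩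
  rw [ModularForm.SL_slash_apply] at h1
  have h2 : ((g • (⟨z, hz⟩ : ℍ) : ℍ) : ℂ) = (a * z + b) / ((17 * c : ℤ) * z + d) := by
    rw [UpperHalfPlane.specialLinearGroup_apply]
    simp [g00, g01, g10, g11]
  have h3 : UpperHalfPlane.denom g (⟨z, hz⟩ : ℍ) = (17 * c : ℤ) * z + d := by
    simp [UpperHalfPlane.denom, g10, g11]
  have h4 : UpperHalfPlane.denom g (⟨z, hz⟩ : ℍ) ≠ 0 := UpperHalfPlane.denom_ne_zero _ _
  simp only [h2, h3] at h1
  rw [h3] at h4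
  have h5 : (((17 * c : ℤ) : ℂ) * z + d) ^ (-2 : ℤ) = ((((17 * c : ℤ) : ℂ) * z + d) ^ 2)⁻¹ := by
    rw [zpow_neg]; rfl
  rw [h5, ← div_eq_mul_inv, div_eq_iff (pow_ne_zero 2 h4)] at h1
  rw [h1]
  show A.thL z * _ = _
  ring

theorem thL_sum {z : ℂ} (hz : 0 < z.im) :
    HasSum (fun m : ℕ => (A.rn m : ℂ) * cexp (2 * Real.pi * I * z) ^ m) (A.thL z) := by
  have h := A.hasSum_mf ⟨z, hz⟩
  have e : Function.Periodic.qParam 1 ((⟨z, hz⟩ : ℍ) : ℂ) = cexp (2 * Real.pi * I * z) := by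
    unfold Function.Periodic.qParam
    congr 1
    push_cast
    show 2 * (Real.pi : ℂ) * I * z / 1 = _
    rw [div_one]
  rw [e] at h
  exact h

theorem rn_even {m : ℕ} (hm : m ≠ 0) : 2 ∣ A.rn m := by
  have hfin := A.fin_rn m
  have := Fintype.ofFinite {v : V // v ∈ A.L ∧ A.q v = 17 * m}
  have hneg : ∀ v : {v : V // v ∈ A.L ∧ A.q v = 17 * m}, -v.1 ∈ A.L ∧ A.q (-v.1) = 17 * m := by
    rintro ⟨v, hv, hq⟩
    refine ⟨A.L.neg_mem hv, ?_⟩
    have h1 := A.q_zsmul (A.hLD hv) (-1)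
    rw [neg_one_zsmul] at h1
    rw [h1, hq]
    ring
  let f : Function.End {v : V // v ∈ A.L ∧ A.q v = 17 * m} := fun v => ⟨-v.1, hneg v⟩
  have hf : f ^ 2 ^ 1 = 1 := by
    rw [pow_one, sq]
    funext v
    apply Subtype.ext
    show - -v.1 = v.1
    rw [neg_neg]
  have h1 := Equiv.Perm.card_fixedPoints_modEq (p := 2) hf
  have h2 : Fintype.card (Function.fixedPoints f) = 0 := by
    rw [Fintype.card_eq_zero_iff]
    refine ⟨fun x => ?_⟩
    obtain ⟨⟨v, hv, hq⟩, hx⟩ := x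
    have h3 : -v = v := congrArg Subtype.val hx
    have h4 : v = 0 := by
      have h5 : v + v = 0 := by
        nth_rewrite 1 [← h3]
        simp
      refine vext ?_ ?_ ?_ ?_
      · have := congrArg (fun x : V => x.1.1) h5
        simp only [Prod.fst_add, Prod.fst_zero] at this ⊢
        omega
      · have := congrArg (fun x : V => x.1.2) h5
        simp only [Prod.fst_add, Prod.snd_add, Prod.fst_zero, Prod.snd_zero] at this ⊢
        omega
      · have := congrArg (fun x : V => x.2.1) h5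
        simp only [Prod.fst_add, Prod.snd_add, Prod.fst_zero, Prod.snd_zero] at this ⊢
        omega
      · have := congrArg (fun x : V => x.2.2) h5
        simp only [Prod.snd_add, Prod.snd_zero] at this ⊢
        omega
    rw [h4, A.q_zero] at hq
    apply hm
    omega
  rw [h2] at h1
  unfold rn
  rw [Nat.card_eq_fintype_card]
  exact (Nat.modEq_zero_iff_dvd).mp h1

end Lat

/-! ### divisibility by `θ` in coordinates -/

theorem theta_dvd_iff {K : Type*} [Field K] [NumberField K] {n : ℕ} (q : QF K n) (hn4 : n % 4 = 3)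
    (z : 𝓞 K) : q.t ∣ z ↔ (n : ℤ) ∣ (crd q z).1 := by
  constructor
  · rintro ⟨w, rfl⟩
    have h : crd q (q.t * w) = (-(n * (crd q w).2), (crd q w).1) := by
      apply crd_eq
      have h1 := crd_spec q w
      rw [map_mul, QF.coe_t]
      push_cast
      have h2 := q.hθ
      linear_combination q.θ * h1 + ((crd q w).2 : K) * h2
    rw [h]
    exact (dvd_neg).mpr (dvd_mul_right _ _)
  · rintro ⟨k, hk⟩
    obtain ⟨e, he⟩ : ∃ e : ℤ, (n : ℤ) = 4 * e + 3 := ⟨n / 4, by omega⟩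
    have h1 := two_N q z
    have h0 := crd_spec q z
    rw [hk] at h1 h0
    have hodd : ((crd q z).2 - k) % 2 = 0 := by
      rcases Int.even_or_odd' k with ⟨x, hx | hx⟩ <;>
        rcases Int.even_or_odd' (crd q z).2 with ⟨y, hy | hy⟩ <;> rw [hx, hy] at h1 ⊢
      · omega
      · exfalso
        rw [he] at h1
        ring_nf at h1
        omega
      · exfalso
        rw [he] at h1
        ring_nf at h1
        omega
      · omega
    obtain ⟨c, hc⟩ : ∃ c, (crd q z).2 = k + 2 * c := ⟨((crd q z).2 - k) / 2, by omega⟩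
    obtain ⟨y, hy, hy2⟩ := q.of_coords (a := (crd q z).2) (b := -k) (by
      rw [hc, he]
      exact ⟨k ^ 2 * (1 + e) + k * c + c ^ 2, by ring⟩)
    obtain ⟨y', hy'⟩ := QF.exists_of_isInt hy
    refine ⟨y', ?_⟩
    apply QF.ext'
    rw [map_mul, QF.coe_t, hy']
    apply mul_left_cancel₀ (two_ne_zero (α := K))
    push_cast at h0 hy2
    have h2 := q.hθ
    linear_combination h0 - q.θ * hy2 + (k : K) * h2

/-! ### the order with six units -/

theorem sq3 : Squarefree 3 := (Nat.prime_iff.mp Nat.prime_three).squarefree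

/-- the field `ℚ(√-3)` -/
noncomputable def q3 : QF (Kn 3) 3 := qf 3 sq3

theorem hasN_top {K : Type*} [Field K] [NumberField K] {n : ℕ} (q : QF K n) :
    q.HasN (⊤ : Ideal (𝓞 K)) 1 := by
  unfold QF.HasN
  have h1 : (⊤ : Ideal (𝓞 K)).map q.s = ⊤ := by
    rw [Ideal.eq_top_iff_one, mem_map_iff, map_one]
    trivial
  rw [h1, Ideal.mul_top]
  symm
  rw [Ideal.eq_top_iff_one, Nat.cast_one]
  exact Ideal.mem_span_singleton_self 1

/-- the data -/
noncomputable def E3 : Dat q3 where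
  X := ⊤
  Y := ⊤
  a := 1
  b := 1
  ha := one_pos
  hb := one_pos
  hX := hasN_top q3
  hY := hasN_top q3
  hn4 := rfl
  hn17 := by decide
  han := by norm_num
  hbn := by norm_num
  hb17 := by norm_num
  hab := by norm_num

/-- the theta series -/
noncomputable def Th3 (z : ℂ) : ℂ := E3.lat.thL z

/-- the representation numbers -/
noncomputable def r3 (m : ℕ) : ℤ := E3.lat.rn m

theorem mem_S3 {m : ℕ} {v : V} : v ∈ S3 m ↔ (((-9 ≤ v.1.1 ∧ v.1.1 ≤ 9) ∧ (-5 ≤ v.1.2 ∧ v.1.2 ≤ 5)) ∧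
    ((-2 ≤ v.2.1 ∧ v.2.1 ≤ 2) ∧ (-1 ≤ v.2.2 ∧ v.2.2 ≤ 1))) ∧
    (2 ∣ v.1.1 - v.1.2 ∧ 2 ∣ v.2.1 - v.2.2 ∧ 3 ∣ v.1.1 + 17 * v.2.1 ∧
      (v.1.1 * v.1.1 + 3 * (v.1.2 * v.1.2)) + 17 * (v.2.1 * v.2.1 + 3 * (v.2.2 * v.2.2)) = 12 * m) := by
  unfold S3
  simp only [Finset.mem_filter, Finset.mem_product, Finset.mem_Icc]

attribute [irreducible] S3

theorem sq_bd {x B C : ℤ} (h : x * x ≤ C) (hB : C < (B + 1) * (B + 1)) (hB0 : 0 ≤ B) :
    -B ≤ x ∧ x ≤ B := by
  constructor <;> nlinarith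

theorem par_of {x1 x2 N : ℤ} (h : 2 * (2 * N) = x1 * x1 + 3 * (x2 * x2)) : 2 ∣ x1 - x2 := by
  rcases Int.even_or_odd' x1 with ⟨x, hx | hx⟩ <;>
    rcases Int.even_or_odd' x2 with ⟨y, hy | hy⟩ <;> rw [hx, hy] at h ⊢ <;> ring_nf at h <;> omega

theorem exists_of_par {x1 x2 : ℤ} (h : 2 ∣ x1 - x2) : ∃ z : 𝓞 (Kn 3), crd q3 z = (x1, x2) := by
  obtain ⟨c, hc⟩ := h
  obtain ⟨y, hy, hy2⟩ := q3.of_coords (a := x1) (b := x2) (by
    have : x1 = x2 + 2 * c := by omega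
    rw [this]
    push_cast
    exact ⟨x2 ^ 2 + x2 * c + c ^ 2, by ring⟩)
  obtain ⟨y', hy'⟩ := QF.exists_of_isInt hy
  exact ⟨y', crd_eq q3 (by rw [hy', hy2])⟩

theorem mem_RN3 {m : ℕ} {p : 𝓞 (Kn 3) × 𝓞 (Kn 3)} : p ∈ E3.RN m ↔
    (3 : ℤ) ∣ (crd q3 p.1).1 + 17 * (crd q3 p.2).1 ∧
    ((crd q3 p.1).1 * (crd q3 p.1).1 + 3 * ((crd q3 p.1).2 * (crd q3 p.1).2)) +
      17 * ((crd q3 p.2).1 * (crd q3 p.2).1 + 3 * ((crd q3 p.2).2 * (crd q3 p.2).2)) = 12 * m := by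
  have h1 := two_N q3 p.1
  have h2 := two_N q3 p.2
  have h3 := theta_dvd_iff q3 (by norm_num) (p.1 + 17 * p.2)
  have h4 : (crd q3 (p.1 + 17 * p.2)).1 = (crd q3 p.1).1 + 17 * (crd q3 p.2).1 := by
    have c3 := crd_int q3 17 p.2
    push_cast at c3
    rw [crd_add, c3]
    rfl
  rw [h4] at h3
  push_cast at h1 h2 h3
  unfold Dat.RN
  constructor
  · rintro ⟨-, -, h5, h6⟩
    refine ⟨h3.mp h5, ?_⟩
    have h7 : ((E3.b * q3.N p.1 + 17 * (E3.a * q3.N p.2) : ℕ) : ℤ) = ((3 * E3.a * E3.b * m : ℕ) : ℤ) := by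
      rw [h6]
    have e1 : E3.a = 1 := rfl
    have e2 : E3.b = 1 := rfl
    rw [e1, e2] at h7
    push_cast at h7
    linarith
  · rintro ⟨h5, h6⟩
    refine ⟨trivial, trivial, h3.mpr h5, ?_⟩
    have e1 : E3.a = 1 := rfl
    have e2 : E3.b = 1 := rfl
    rw [e1, e2]
    have : ((1 * q3.N p.1 + 17 * (1 * q3.N p.2) : ℕ) : ℤ) = ((3 * 1 * 1 * m : ℕ) : ℤ) := by
      push_cast
      linarith
    exact_mod_cast this

theorem r3_eq {m : ℕ} (hm : m ≤ 7) : E3.lat.rn m = (S3 m).card := by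
  rw [Dat.lat_rn, ← Nat.card_eq_finsetCard]
  have hmem : ∀ p ∈ E3.RN m, Dat.vH q3 p ∈ S3 m := by
    intro p hp
    rw [mem_RN3] at hp
    obtain ⟨h1, h2⟩ := hp
    have h3 := two_N q3 p.1
    have h4 := two_N q3 p.2
    push_cast at h3 h4
    have hm' : (m : ℤ) ≤ 7 := by exact_mod_cast hm
    have n1 := mul_self_nonneg (crd q3 p.1).1
    have n2 := mul_self_nonneg (crd q3 p.1).2
    have n3 := mul_self_nonneg (crd q3 p.2).1
    have n4 := mul_self_nonneg (crd q3 p.2).2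
    have b1 := sq_bd (x := (crd q3 p.1).1) (B := 9) (C := 84) (by linarith) (by norm_num) (by norm_num)
    have b2 := sq_bd (x := (crd q3 p.1).2) (B := 5) (C := 28) (by linarith) (by norm_num) (by norm_num)
    have b3 := sq_bd (x := (crd q3 p.2).1) (B := 2) (C := 5) (by linarith) (by norm_num) (by norm_num)
    have b4 := sq_bd (x := (crd q3 p.2).2) (B := 1) (C := 2) (by linarith) (by norm_num) (by norm_num)
    rw [mem_S3]
    exact ⟨⟨⟨b1, b2⟩, b3, b4⟩, par_of h3, par_of h4, h1, h2⟩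
  have hsurj : ∀ v ∈ S3 m, ∃ p ∈ E3.RN m, Dat.vH q3 p = v := by
    intro v hv
    rw [mem_S3] at hv
    obtain ⟨-, h1, h2, h3, h4⟩ := hv
    obtain ⟨x, hx⟩ := exists_of_par h1
    obtain ⟨y, hy⟩ := exists_of_par h2
    refine ⟨(x, y), ?_, ?_⟩
    · rw [mem_RN3]
      simp only [hx, hy]
      exact ⟨h3, h4⟩
    · rw [Dat.vH_apply]
      simp only [hx, hy]
  refine Nat.card_congr (Equiv.ofBijective (fun p => ⟨Dat.vH q3 p.1, hmem p.1 p.2⟩) ⟨?_, ?_⟩)
  · intro p p' h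
    exact Subtype.ext (Dat.vH_inj (congrArg Subtype.val h))
  · intro w
    obtain ⟨p, hp, h⟩ := hsurj w.1 w.2
    exact ⟨⟨p, hp⟩, Subtype.ext h⟩

theorem r3_vals : r3 0 = 1 ∧ r3 1 = 6 ∧ r3 2 = 0 ∧ r3 3 = 6 ∧ r3 5 = 0 ∧ r3 7 = 30 := by
  obtain ⟨h1, h2, h3, h5, h7⟩ := S3_card
  unfold r3
  refine ⟨?_, ?_, ?_, ?_, ?_, ?_⟩
  · rw [E3.lat.rn_zero]; rfl
  · rw [r3_eq (by norm_num), h1]; rfl
  · rw [r3_eq (by norm_num), h2]; rfl
  · rw [r3_eq (by norm_num), h3]; rfl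
  · rw [r3_eq (by norm_num), h5]; rfl
  · rw [r3_eq (by norm_num), h7]; rfl

theorem r3_even (m : ℕ) (hm : m ≠ 0) : 2 ∣ r3 m := by
  unfold r3
  exact_mod_cast E3.lat.rn_even hm

/-! ### the Fricke law -/

/-- the isometry from the big lattice to the small lattice -/
def sw (v : V) : V := (v.2, (-17) • v.1)

theorem sw_inj : Function.Injective sw := by
  intro v w h
  have h1 := congrArg Prod.fst h
  have h2 := congrArg Prod.snd h
  unfold sw at h1 h2
  simp only at h1 h2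
  refine Prod.ext ?_ h1
  have h3 := congrArg Prod.fst h2
  have h4 := congrArg Prod.snd h2
  simp only [Prod.smul_fst, Prod.smul_snd, smul_eq_mul] at h3 h4
  exact Prod.ext (by omega) (by omega)

theorem sw_vH (p : 𝓞 (Kn 3) × 𝓞 (Kn 3)) : sw (Dat.vH q3 p) = Dat.vH q3 (p.2, 17 * (-p.1)) := by
  unfold sw
  rw [Dat.vH_apply, Dat.vH_apply]
  have c3 := crd_int q3 (-17) p.1
  push_cast at c3
  have e : (17 : 𝓞 (Kn 3)) * (-p.1) = -17 * p.1 := by ring
  rw [e, c3]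

theorem three_dvd (x : 𝓞 (Kn 3)) : q3.t ∣ 18 * x := by
  have h := theta_dvd_n q3
  have e : (18 : 𝓞 (Kn 3)) * x = ((3 : ℕ) : 𝓞 (Kn 3)) * (6 * x) := by push_cast; ring
  rw [e]
  exact Dvd.dvd.mul_right h _

theorem sw_mem (v : V) : sw v ∈ E3.lat.L ↔ v ∈ E3.lat.D := by
  constructor
  · intro h
    obtain ⟨p, hp, h2⟩ := E3.mem_LV' h
    obtain ⟨y, hy, h3⟩ := hp.2.1
    have h4 : v = Dat.vH q3 (-y, p.1) := by
      apply sw_inj
      rw [sw_vH, ← h2]
      congr 1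
      refine Prod.ext rfl ?_
      rw [h3]
      simp
    rw [h4]
    refine (E3.mem_DV _).mpr ⟨trivial, trivial, ?_⟩
    have h5 := hp.2.2
    rw [h3] at h5
    have e : -y + p.1 = (p.1 + 17 * y) - 18 * y := by ring
    show q3.t ∣ -y + p.1
    rw [e]
    exact dvd_sub h5 (three_dvd y)
  · intro h
    obtain ⟨p, hp, rfl⟩ := E3.mem_DV' h
    rw [sw_vH]
    refine (E3.mem_LV _).mpr ⟨trivial, ⟨-p.1, trivial, rfl⟩, ?_⟩
    have h5 := hp.2.2
    have e : p.2 + 17 * (-p.1) = (p.1 + p.2) - 18 * p.1 := by ring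
    show q3.t ∣ p.2 + 17 * (-p.1)
    rw [e]
    exact dvd_sub h5 (three_dvd _)

theorem TT_sw (v : V) : TT E3.lat.t (sw v) = 17 * TT E3.lat.t v := by
  have e1 : E3.lat.M = 102 := rfl
  have e2 : E3.lat.l = ((17, 51), (1, 3)) := rfl
  unfold Lat.t TT sw
  rw [e1, e2]
  simp only [Prod.smul_fst, Prod.smul_snd, smul_eq_mul]
  push_cast
  ring

theorem Th3_W {z : ℂ} (hz : 0 < z.im) : Th3 (-1 / (17 * z)) = -17 * z ^ 2 * Th3 z := by
  have h17 : 0 < (17 * z).im := by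
    have : (17 * z).im = 17 * z.im := by simp
    rw [this]
    positivity
  have h1 := E3.lat.inv_L h17
  have h2 : E3.lat.thD 0 (17 * z) = E3.lat.thL z := by
    unfold Lat.thD Lat.thL
    rw [← sw_inj.tsum_eq (f := fun v : V => Lat.ind E3.lat.L v * gg z E3.lat.t v)]
    · refine tsum_congr fun v => ?_
      have e1 : Lat.ind E3.lat.L (sw v) = Lat.ind E3.lat.D v := by
        unfold Lat.ind
        simp only [sw_mem]
      have e2 : gg z E3.lat.t (sw v) = gg (17 * z) E3.lat.t v := by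
        unfold gg
        rw [TT_sw]
        congr 1
        push_cast
        ring
      have e3 : ((0 : ℤ) * E3.lat.q v / 17 : ℝ) = 0 := by simp
      rw [e1, e2, e3, ex_zero, one_mul]
    · intro w hw
      rw [Function.mem_support] at hw
      by_cases h : w ∈ E3.lat.L
      · obtain ⟨p, hp, rfl⟩ := E3.mem_LV' h
        obtain ⟨y, hy, h3⟩ := hp.2.1
        refine ⟨Dat.vH q3 (-y, p.1), ?_⟩
        rw [sw_vH]
        congr 1
        refine Prod.ext rfl ?_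
        rw [h3]
        simp
      · exfalso
        apply hw
        unfold Lat.ind
        rw [if_neg h, zero_mul]
  unfold Th3
  rw [h2] at h1
  linear_combination (-1 / 17 : ℂ) * h1

theorem Th3_mob {a b c d : ℤ} (h : a * d - b * (17 * c) = 1) {z : ℂ} (hz : 0 < z.im) :
    Th3 ((a * z + b) / ((17 * c : ℤ) * z + d)) = ((17 * c : ℤ) * z + d) ^ 2 * Th3 z :=
  E3.lat.thL_mob h hz

theorem Th3_sum {z : ℂ} (hz : 0 < z.im) :
    HasSum (fun m : ℕ => ((r3 m : ℤ) : ℂ) * cexp (2 * Real.pi * I * z) ^ m) (Th3 z) := by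
  have h := E3.lat.thL_sum hz
  unfold r3 Th3
  simpa using h

end Vale.Agent.P014.H70
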