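import Vale.Agent.P014.H70.Fam2

/-!
# The system of lattices attached to a family of ideals: level and ramification
-/

open NumberField ModularForm CongruenceSubgroup
open Matrix.SpecialLinearGroup (mapGL)

set_option linter.unusedSimpArgs false

namespace Vale.Agent.P014.H70

open Vale.Agent.P017.H185

variable {K : Type*} [Field K] [NumberField K] {n : ℕ}

theorem aniso_key : ∀ m : ZMod 17, (∀ t : ZMod 17, t * t ≠ m) → ∀ x y : ZMod 17,
    x * x + m * (y * y) = 0 → x = 0 ∧ y = 0 := by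
  decide +kernel

/-- the form `a² + n b²` is anisotropic modulo `17` -/
theorem aniso {n : ℕ} (hn : ¬ IsSquare ((n : ℕ) : ZMod 17)) {a b : ℤ} (h : (17 : ℤ) ∣ a * a + n * (b * b)) :
    (17 : ℤ) ∣ a ∧ (17 : ℤ) ∣ b := by
  have key : ∀ m : ZMod 17, (∀ t : ZMod 17, t * t ≠ m) → ∀ x y : ZMod 17, x * x + m * (y * y) = 0 →
      x = 0 ∧ y = 0 := aniso_key
  have h1 : ((a * a + n * (b * b) : ℤ) : ZMod 17) = 0 := by
    rw [ZMod.intCast_zmod_eq_zero_iff_dvd]
    exact_mod_cast h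
  push_cast at h1
  obtain ⟨h2, h3⟩ := key (n : ZMod 17) (fun t ht => hn ⟨t, ht.symm⟩) (a : ZMod 17) (b : ZMod 17) h1
  rw [ZMod.intCast_zmod_eq_zero_iff_dvd] at h2 h3
  exact ⟨by exact_mod_cast h2, by exact_mod_cast h3⟩

/-- elements of norm divisible by `17` -/
theorem dvd17_of_N (q : QF K n) (hn : ¬ IsSquare ((n : ℕ) : ZMod 17)) {x : 𝓞 K} (h : 17 ∣ q.N x) :
    ∃ y : 𝓞 K, x = 17 * y := by
  obtain ⟨k, hk⟩ := h
  have h1 := two_N q x
  rw [hk] at h1
  have h2 : (17 : ℤ) ∣ (crd q x).1 * (crd q x).1 + n * ((crd q x).2 * (crd q x).2) := by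
    rw [← h1]
    push_cast
    exact ⟨4 * k, by ring⟩
  obtain ⟨⟨a, ha⟩, ⟨b, hb⟩⟩ := aniso hn h2
  rw [ha, hb] at h1
  obtain ⟨z, hz, hz2⟩ := q.of_coords (a := a) (b := b) (by
    push_cast at h1
    have h3 : (17 : ℤ) * (a ^ 2 + n * b ^ 2) = 4 * k := by
      have : (17 : ℤ) * (17 * (a ^ 2 + n * b ^ 2)) = 17 * (4 * k) := by linarith
      exact mul_left_cancel₀ (by norm_num) this
    have h4 : (4 : ℤ) ∣ 17 * (a ^ 2 + n * b ^ 2) := ⟨k, h3⟩
    have hcop : IsCoprime (4 : ℤ) 17 := ⟨-4, 1, by norm_num⟩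
    exact hcop.dvd_of_dvd_mul_left h4)
  obtain ⟨z', hz'⟩ := QF.exists_of_isInt hz
  refine ⟨z', ?_⟩
  apply QF.ext'
  have h0 := crd_spec q x
  rw [ha, hb] at h0
  rw [map_mul, map_ofNat, hz']
  apply mul_left_cancel₀ (two_ne_zero (α := K))
  push_cast at h0
  linear_combination h0 - 17 * hz2

namespace Fam

variable {q : QF K n} {J : Type*} (F : Fam q J)

include F in
theorem cop17n : IsCoprime (17 : ℤ) n := by
  rw [Prime.coprime_iff_not_dvd Dat.prime17]
  intro h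
  apply F.hn17
  have h1 : ((n : ℤ) : ZMod 17) = 0 := by
    rw [ZMod.intCast_zmod_eq_zero_iff_dvd]
    exact_mod_cast h
  refine ⟨0, ?_⟩
  push_cast at h1
  rw [h1]; ring

theorem cop17 {m : ℕ} (h : ¬ 17 ∣ m) : IsCoprime (17 : ℤ) m := by
  rw [Prime.coprime_iff_not_dvd Dat.prime17]
  intro h1
  exact h (by exact_mod_cast h1)

/-- norms divisible by `17` -/
theorem nr17 {i : J} {p : 𝓞 K × 𝓞 K} (hp : p ∈ F.P i i) :
    (∃ m : ℤ, QA.nr (F.emb i p) = 17 * m) ↔ ∃ y : 𝓞 K, p.1 = 17 * y := by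
  have ha' : (F.na i : ℚ) ≠ 0 := by exact_mod_cast (F.hna i).ne'
  have hl' : (F.l : ℚ) ≠ 0 := by exact_mod_cast F.hl.ne'
  have hn' : (n : ℚ) ≠ 0 := by exact_mod_cast q.d_pos.ne'
  have h0 := F.kn i i p
  rw [div_self ha', one_mul] at h0
  rw [h0]
  have hco : IsCoprime (17 : ℤ) (n * F.l * F.na i * F.na i) :=
    ((F.cop17n.mul_right (cop17 F.hl17)).mul_right (cop17 (F.hcop17 i))).mul_right
      (cop17 (F.hcop17 i))
  constructor
  · rintro ⟨m, hm⟩
    rw [div_eq_iff (by positivity)] at hm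
    have h1 : (F.l : ℤ) * q.N p.1 + 17 * q.N p.2 = 17 * m * (n * F.l * F.na i * F.na i) := by
      exact_mod_cast hm
    apply dvd17_of_N q F.hn17
    have h2 : (17 : ℤ) ∣ F.l * q.N p.1 := ⟨m * (n * F.l * F.na i * F.na i) - q.N p.2, by
      linear_combination h1⟩
    have h3 : (17 : ℤ) ∣ q.N p.1 := (cop17 F.hl17).dvd_of_dvd_mul_left h2
    exact_mod_cast h3
  · rintro ⟨y, hy⟩
    obtain ⟨k, hk⟩ := F.int_form hp
    have h1 : (q.N p.1 : ℤ) = 289 * q.N y := by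
      have := Dat.N_int_mul (q := q) 17 y
      push_cast at this
      rw [hy, this]
    have h2 : (17 : ℤ) ∣ (n * F.l * F.na i * F.na i) * k := by
      rw [← hk, h1]
      exact ⟨17 * (F.l * q.N y) + q.N p.2, by ring⟩
    obtain ⟨m, hm⟩ := hco.dvd_of_dvd_mul_left h2
    refine ⟨m, ?_⟩
    rw [div_eq_iff (by positivity)]
    rw [hm] at hk
    have : (((F.l : ℤ) * q.N p.1 + 17 * q.N p.2 : ℤ) : ℚ) =
        ((n * F.l * F.na i * F.na i * (17 * m) : ℤ) : ℚ) := by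
      rw [hk]
    push_cast at this
    linarith

theorem I_17 {i : J} {u v : F.Q} (hu : u ∈ F.I i i) (hv : v ∈ F.I i i)
    (h1 : ∃ m : ℤ, QA.nr u = 17 * m) (h2 : ∃ m : ℤ, QA.nr v = 17 * m) :
    ∃ m : ℤ, QA.nr (u - v) = 17 * m := by
  rw [mem_I] at hu hv
  obtain ⟨p, hp, rfl⟩ := hu
  obtain ⟨p', hp', rfl⟩ := hv
  rw [F.nr17 hp] at h1
  rw [F.nr17 hp'] at h2
  rw [← map_sub, F.nr17 ((F.P i i).sub_mem hp hp')]
  obtain ⟨y, hy⟩ := h1
  obtain ⟨y', hy'⟩ := h2
  exact ⟨y - y', by rw [Prod.fst_sub, hy, hy']; ring⟩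

/-- the trace form -/
theorem trform (i j : J) (p : 𝓞 K × 𝓞 K) (v : F.Q) :
    (((F.na i : ℚ) / (F.na j : ℚ) * QA.tr (F.emb i p * star v) : ℚ) : K) =
      ((F.na i : K) / F.na j) * (((algebraMap (𝓞 K) K) p.1 / (q.θ * F.na i) * q.σ v.x +
        q.σ ((algebraMap (𝓞 K) K) p.1 / (q.θ * F.na i) * q.σ v.x)) +
      17 * F.l * ((algebraMap (𝓞 K) K) p.2 / (q.θ * F.l * F.na i) * q.σ v.y +
        q.σ ((algebraMap (𝓞 K) K) p.2 / (q.θ * F.l * F.na i) * q.σ v.y))) := by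
  have h1 := QA.add_star (F.emb i p * star v)
  rw [BB.algebraMap_eq] at h1
  have h2 := congrArg BB.x h1
  rw [BB.add_x, BB.star_x, BB.mk_x, BB.mul_x, BB.star_x, BB.star_y, emb_x, emb_y] at h2
  have h3 : ((((F.na i : ℚ) / (F.na j : ℚ)) * QA.tr (F.emb i p * star v) : ℚ) : K) =
      ((F.na i : K) / F.na j) * ((QA.tr (F.emb i p * star v) : ℚ) : K) := by push_cast; rfl
  rw [h3, ← h2]
  congr 1
  simp only [map_sub, map_mul, map_neg, map_natCast, q.σσ]
  push_cast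
  ring

/-- the level of the lattice is `17` -/
theorem I_lev {i j : J} (v : F.Q) (h : ∀ w ∈ F.I i j, ∃ m : ℤ,
    ((F.na i : ℚ) / (F.na j : ℚ)) * QA.tr (w * star v) = m) : (17 : ℤ) • v ∈ F.I i j := by
  have hθ := theta_ne q
  have ha := F.na_ne i
  have hb := F.na_ne j
  have hl := F.l_ne
  have hn : (n : K) ≠ 0 := by exact_mod_cast q.d_pos.ne'
  have hθ2 := q.hθ
  -- the condition in coordinates
  have h' : ∀ p ∈ F.P i j, ∃ m : ℤ, (m : K) = ((F.na i : K) / F.na j) *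
      (((algebraMap (𝓞 K) K) p.1 / (q.θ * F.na i) * q.σ v.x + q.σ ((algebraMap (𝓞 K) K) p.1 / (q.θ * F.na i) * q.σ v.x)) +
      17 * F.l * ((algebraMap (𝓞 K) K) p.2 / (q.θ * F.l * F.na i) * q.σ v.y +
        q.σ ((algebraMap (𝓞 K) K) p.2 / (q.θ * F.l * F.na i) * q.σ v.y))) := by
    intro p hp
    obtain ⟨m, hm⟩ := h _ (F.emb_mem.mpr hp)
    refine ⟨m, ?_⟩
    rw [← F.trform i j p v, hm]
    simp
  -- the coordinates of `v`
  set xx := q.θ * F.na i * v.x with hxx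
  set yy := q.θ * F.l * F.na i * v.y with hyy
  have hvx : v.x = xx / (q.θ * F.na i) := by rw [hxx]; field_simp
  have hvy : v.y = yy / (q.θ * F.l * F.na i) := by rw [hyy]; field_simp
  clear_value xx yy
  have h2 : ∀ p ∈ F.P i j, ∃ m : ℤ, (m : K) * (n * F.l * F.na i * F.na j) =
      F.l * ((algebraMap (𝓞 K) K) p.1 * q.σ xx + q.σ ((algebraMap (𝓞 K) K) p.1) * xx) + 17 * ((algebraMap (𝓞 K) K) p.2 * q.σ yy + q.σ ((algebraMap (𝓞 K) K) p.2) * yy) := by
    intro p hp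
    obtain ⟨m, hm⟩ := h' p hp
    refine ⟨m, ?_⟩
    rw [hm, hvx, hvy]
    simp only [map_mul, map_div₀, q.σσ, map_natCast, q.hσ, map_neg, neg_neg]
    field_simp
    have e4 : q.θ ^ 4 = n ^ 2 := by
      have : q.θ ^ 4 = (q.θ ^ 2) ^ 2 := by ring
      rw [this, hθ2]; ring
    linear_combination (-(F.l * ((algebraMap (𝓞 K) K) p.1 * q.σ xx + q.σ ((algebraMap (𝓞 K) K) p.1) * xx) +
      17 * ((algebraMap (𝓞 K) K) p.2 * q.σ yy + q.σ ((algebraMap (𝓞 K) K) p.2) * yy))) * hθ2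
  -- first test
  obtain ⟨y1, hy1, hy1'⟩ := dual_ideal q F.hn4 (F.hX i j)
    (w := q.θ * q.σ xx / (n * F.na i * F.na j)) (by
    intro x hx
    obtain ⟨m, hm⟩ := h2 (q.t * x, 0) ⟨(F.X i j).mul_mem_left _ hx, (F.Y i j).zero_mem,
      ⟨x, by simp⟩⟩
    refine ⟨m, ?_⟩
    simp only [map_mul, map_div₀, map_natCast, q.σσ, q.hσ, map_zero, QF.coe_t] at hm ⊢
    field_simp
    apply mul_left_cancel₀ hl
    linear_combination -hm)
  obtain ⟨y2, hy2, hy2'⟩ := dual_ideal q F.hn4 (F.hY i j)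
    (w := 17 * q.θ * q.σ yy / (n * F.l * F.na i * F.na j)) (by
    intro y hy
    obtain ⟨m, hm⟩ := h2 (0, q.t * y) ⟨(F.X i j).zero_mem, (F.Y i j).mul_mem_left _ hy,
      ⟨17 * y, by simp; ring⟩⟩
    refine ⟨m, ?_⟩
    simp only [map_mul, map_div₀, map_natCast, q.σσ, q.hσ, map_zero, QF.coe_t, map_ofNat] at hm ⊢
    field_simp
    linear_combination -hm)
  rw [mem_map_iff] at hy1 hy2
  have e1 : q.σ ((algebraMap (𝓞 K) K) y1) = -xx := by
    rw [hy1']
    simp only [map_mul, map_div₀, map_natCast, q.σσ, q.hσ]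
    push_cast
    field_simp
    linear_combination xx * hθ2
  have e2 : q.σ ((algebraMap (𝓞 K) K) y2) = -(17 * yy) := by
    rw [hy2']
    simp only [map_mul, map_div₀, map_natCast, q.σσ, q.hσ, map_ofNat]
    push_cast
    field_simp
    linear_combination yy * hθ2
  rw [mem_I]
  refine ⟨(-(17 * q.s y1), -(q.s y2)), ⟨?_, ?_, ?_⟩, ?_⟩
  · exact (F.X i j).neg_mem ((F.X i j).mul_mem_left _ hy1)
  · exact (F.Y i j).neg_mem hy2
  · -- third test
    obtain ⟨y3, hy3⟩ := dual_one q F.hn4 (w := (17 * F.l * q.σ xx - 17 * q.σ yy) / n) (by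
      intro z
      have hmem : ((17 * (F.l * F.na i * F.na j) * z, -(F.l * F.na i * F.na j * z)) :
          𝓞 K × 𝓞 K) ∈ F.P i j := by
        refine ⟨?_, ?_, ⟨0, by ring⟩⟩
        · have h5 := (F.X i j).mul_mem_left (17 * F.l * z) (a_mem q (F.hX i j))
          have e : 17 * ((F.l : 𝓞 K) * F.na i * F.na j) * z =
              17 * F.l * z * ((F.na i * F.na j : ℕ) : 𝓞 K) := by push_cast; ring
          show 17 * ((F.l : 𝓞 K) * F.na i * F.na j) * z ∈ F.X i j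
          rw [e]
          exact h5
        · have h5 := (F.Y i j).mul_mem_left (-z) (a_mem q (F.hY i j))
          have e : -((F.l : 𝓞 K) * F.na i * F.na j * z) =
              -z * ((F.l * F.na i * F.na j : ℕ) : 𝓞 K) := by push_cast; ring
          show -((F.l : 𝓞 K) * F.na i * F.na j * z) ∈ F.Y i j
          rw [e]
          exact h5
      obtain ⟨m, hm⟩ := h2 _ hmem
      refine ⟨m, ?_⟩
      simp only [map_mul, map_neg, map_natCast, map_ofNat] at hm
      simp only [map_mul, map_div₀, map_sub, map_natCast, map_ofNat, q.σσ]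
      field_simp
      apply mul_left_cancel₀ (mul_ne_zero (mul_ne_zero hl ha) hb)
      linear_combination -hm)
    have e3 : 17 * (F.l : 𝓞 K) * (-(q.s y1)) - (-(q.s y2)) = q.s (-(q.t * y3)) * (-1) * (-1) := by
      apply QF.ext'
      simp only [map_sub, map_mul, map_neg, map_natCast, map_ofNat, QF.coe_s, QF.coe_t, map_one]
      rw [e1, e2, hy3]
      simp only [map_mul, map_div₀, map_sub, map_natCast, map_ofNat, q.σσ, q.hσ]
      field_simp
      linear_combination ((F.l * xx - yy) : K) * hθ2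
    rw [map_neg, map_mul, q.s_t] at e3
    obtain ⟨e, he⟩ := F.l17
    refine ⟨-17 * q.s y3 + 17 * q.t * e * q.s y1, ?_⟩
    show -(17 * q.s y1) + 17 * (-(q.s y2)) = _
    linear_combination (-17 : 𝓞 K) * e3 + (17 * (-(q.s y1))) * he
  · apply BB.ext'
    · have e : ((17 : ℤ) • v).x = 17 * v.x := by
        show (17 : ℤ) • v.x = _
        rw [zsmul_eq_mul]; norm_num
      rw [e, emb_x, hvx]
      simp only [map_mul, map_neg, map_ofNat, QF.coe_s]
      rw [e1]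
      ring
    · have e : ((17 : ℤ) • v).y = 17 * v.y := by
        show (17 : ℤ) • v.y = _
        rw [zsmul_eq_mul]; norm_num
      rw [e, emb_y, hvy]
      simp only [map_mul, map_neg, map_ofNat, QF.coe_s]
      rw [e2]
      ring

/-- the relation between the coefficients of modular forms of weight two and level `17` -/
def Rel17 : Prop := ∀ g : ModularForm ((Gamma0 17).map (mapGL ℝ)) 2,
  (UpperHalfPlane.qExpansion 1 g).coeff 2 =
    6 * (UpperHalfPlane.qExpansion 1 g).coeff 0 - (UpperHalfPlane.qExpansion 1 g).coeff 1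

theorem rel_rn (h : Rel17) (A : Lat) : A.rn 1 + A.rn 2 = 6 := by
  have h1 := h A.mf
  rw [← A.rn_eq, ← A.rn_eq, ← A.rn_eq, A.rn_zero] at h1
  have h2 : ((A.rn 1 + A.rn 2 : ℕ) : ℂ) = ((6 : ℕ) : ℂ) := by
    push_cast
    rw [h1]
    push_cast
    ring
  exact_mod_cast h2

/-- **the system of lattices** -/
noncomputable def sys (h : Rel17) : Sys F.Q J where
  I := F.I
  N i := F.na i
  hN i := by exact_mod_cast F.hna i
  one := F.I_one
  mul := F.I_mul
  conj := F.I_conj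
  hint := F.I_int
  hlev := F.I_lev
  h17 := F.I_17
  fin := F.fin'
  theta i j := by
    rw [F.card', F.card', ← Dat.lat_rn, ← Dat.lat_rn]
    exact rel_rn h _

/-- **the type function** -/
theorem exists_phi (h : Rel17) : ∃ φ : J → ℤ, (∀ i, φ i = 1 ∨ φ i = -3) ∧
    ∀ i j, 2 * (Nat.card ((F.E i j).RN 1) : ℤ) = 3 + φ i * φ j ∧
      2 * (Nat.card ((F.E i j).RN 2) : ℤ) = 9 - φ i * φ j := by
  obtain ⟨φ, h1, h2⟩ := (F.sys h).exists_phi
  refine ⟨φ, h1, fun i j => ?_⟩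
  obtain ⟨h3, h4⟩ := h2 i j
  have e : ∀ m : ℕ, (F.sys h).rep i j m = Nat.card ((F.E i j).RN m) := fun m => F.card' i j m
  rw [e] at h3 h4
  exact ⟨h3, h4⟩

end Fam

end Vale.Agent.P014.H70
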