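import Vale.Agent.P014.H70.Lat
import Vale.Agent.P017.H185.Cl

/-!
# Lattices of level 17 from pairs of ideals of `ℚ(√-n)`
-/

open NumberField Complex
open scoped Classical

namespace Vale.Agent.P014.H70

open Vale.Agent.P017.H185

variable {K : Type*} [Field K] [NumberField K] {n : ℕ} (q : QF K n)

/-! ### coordinates -/

theorem exists_crd (z : 𝓞 K) : ∃ p : ℤ × ℤ, 2 * (algebraMap (𝓞 K) K) z = (p.1 : K) + p.2 * q.θ := by
  obtain ⟨a, b, h, -⟩ := q.int_coords (QF.isInt z)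
  exact ⟨(a, b), h⟩

/-- the coordinates of `2 z` in the basis `1, θ` -/
noncomputable def crd (z : 𝓞 K) : ℤ × ℤ := (exists_crd q z).choose

theorem crd_spec (z : 𝓞 K) : 2 * (algebraMap (𝓞 K) K) z = ((crd q z).1 : K) + (crd q z).2 * q.θ :=
  (exists_crd q z).choose_spec

theorem crd_eq {z : 𝓞 K} {a b : ℤ} (h : 2 * (algebraMap (𝓞 K) K) z = (a : K) + b * q.θ) : crd q z = (a, b) := by
  have h1 := crd_spec q z
  rw [h] at h1
  have h2 : (((a - (crd q z).1 : ℤ) : ℚ) : K) + (((b - (crd q z).2 : ℤ) : ℚ) : K) * q.θ = 0 := by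
    push_cast
    linear_combination h1
  obtain ⟨h3, h4⟩ := q.uniq h2
  have h5 : a - (crd q z).1 = 0 := by exact_mod_cast h3
  have h6 : b - (crd q z).2 = 0 := by exact_mod_cast h4
  ext
  · show (crd q z).1 = a; omega
  · show (crd q z).2 = b; omega

theorem crd_inj {z w : 𝓞 K} (h : crd q z = crd q w) : z = w := by
  apply QF.ext'
  have h1 := crd_spec q z
  have h2 := crd_spec q w
  rw [h] at h1
  exact mul_left_cancel₀ two_ne_zero (h1.trans h2.symm)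

/-- `crd` as a homomorphism -/
noncomputable def crdH : 𝓞 K →+ ℤ × ℤ where
  toFun := crd q
  map_zero' := crd_eq q (by simp)
  map_add' z w := by
    apply crd_eq
    rw [map_add, mul_add, crd_spec q z, crd_spec q w]
    push_cast
    ring

theorem crd_add (z w : 𝓞 K) : crd q (z + w) = crd q z + crd q w := (crdH q).map_add z w

theorem crd_zero : crd q (0 : 𝓞 K) = 0 := (crdH q).map_zero

theorem crd_int (m : ℤ) (z : 𝓞 K) : crd q ((m : 𝓞 K) * z) = m • crd q z := by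
  have := (crdH q).map_zsmul m z
  rw [zsmul_eq_mul] at this
  exact this

/-- the trace -/
noncomputable def tr (z : 𝓞 K) : ℤ := (crd q z).1

theorem add_s (z : 𝓞 K) : z + q.s z = (tr q z : 𝓞 K) := by
  apply QF.ext'
  have h1 := crd_spec q z
  have h2 := congrArg q.σ h1
  rw [map_mul, map_add, map_mul, q.hσ] at h2
  simp only [map_intCast, map_ofNat] at h2
  rw [map_add, QF.coe_s, map_intCast]
  apply mul_left_cancel₀ (two_ne_zero (α := K))
  unfold tr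
  linear_combination h1 + h2

theorem tr_add (z w : 𝓞 K) : tr q (z + w) = tr q z + tr q w := by
  unfold tr
  rw [crd_add]
  rfl

theorem tr_int (m : ℤ) (z : 𝓞 K) : tr q ((m : 𝓞 K) * z) = m * tr q z := by
  unfold tr
  rw [crd_int]
  rfl

theorem tr_eq {z : 𝓞 K} {m : ℤ} (h : z + q.s z = (m : 𝓞 K)) : tr q z = m := by
  rw [add_s] at h
  exact_mod_cast h

/-- the trace form in coordinates -/
theorem two_tr (x y : 𝓞 K) : 2 * tr q (x * q.s y) =
    (crd q x).1 * (crd q y).1 + n * ((crd q x).2 * (crd q y).2) := by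
  have h1 := crd_spec q x
  have h2 := crd_spec q y
  have h3 := congrArg q.σ h1
  have h4 := congrArg q.σ h2
  rw [map_mul, map_add, map_mul, q.hσ] at h3 h4
  simp only [map_intCast, map_ofNat] at h3 h4
  have h5 := congrArg (algebraMap (𝓞 K) K) (add_s q (x * q.s y))
  rw [map_mul, map_add, map_mul, map_mul, q.s_s, map_intCast, QF.coe_s, QF.coe_s] at h5
  have h6 := q.hθ
  have : ((2 * tr q (x * q.s y) : ℤ) : K) = (((crd q x).1 * (crd q y).1 +
      n * ((crd q x).2 * (crd q y).2) : ℤ) : K) := by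
    push_cast
    rw [← h5]
    have e1 : (2 * (algebraMap (𝓞 K) K) x) * (2 * q.σ ((algebraMap (𝓞 K) K) y)) = (((crd q x).1 : K) + (crd q x).2 * q.θ) *
        ((crd q y).1 + (crd q y).2 * -q.θ) := by rw [h1, h4]
    have e2 : (2 * q.σ ((algebraMap (𝓞 K) K) x)) * (2 * (algebraMap (𝓞 K) K) y) = (((crd q x).1 : K) + (crd q x).2 * -q.θ) *
        ((crd q y).1 + (crd q y).2 * q.θ) := by rw [h2, h3]
    linear_combination (1 / 2 : K) * e1 + (1 / 2 : K) * e2 -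
      ((crd q x).2 : K) * (crd q y).2 * h6
  exact_mod_cast this

theorem two_N (x : 𝓞 K) : 2 * (2 * (q.N x : ℤ)) =
    (crd q x).1 * (crd q x).1 + n * ((crd q x).2 * (crd q x).2) := by
  rw [← two_tr]
  congr 1
  symm
  apply tr_eq
  rw [map_mul, q.s_s, mul_comm (q.s x) x, q.mul_s]
  push_cast
  ring

/-! ### divisibility by `θ` -/

theorem theta_dvd_int {m : ℤ} (h : q.t ∣ (m : 𝓞 K)) : (n : ℤ) ∣ m := by
  obtain ⟨w, hw⟩ := h
  have h1 : ((m ^ 2 : ℤ) : 𝓞 K) = ((n * q.N w : ℤ) : 𝓞 K) := by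
    push_cast
    rw [← q.mul_s]
    have e : (m : 𝓞 K) = q.s (q.t * w) := by rw [← hw]; simp
    have e' : (m : 𝓞 K) ^ 2 = (q.t * w) * q.s (q.t * w) := by
      rw [← e, hw.symm, sq]
    rw [e', map_mul, q.s_t]
    have := q.t_sq
    linear_combination (-(w * q.s w)) * this
  have h2 : m ^ 2 = n * q.N w := by exact_mod_cast h1
  have hsq : Squarefree (n : ℤ) := Int.squarefree_natCast.mpr q.hd
  exact (hsq.dvd_pow_iff_dvd two_ne_zero).mp ⟨_, h2⟩

theorem theta_dvd_n : q.t ∣ (n : 𝓞 K) := ⟨-q.t, by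
  have := q.t_sq
  linear_combination this⟩

theorem theta_dvd_of_dvd {m : ℤ} (h : (n : ℤ) ∣ m) : q.t ∣ (m : 𝓞 K) := by
  obtain ⟨k, rfl⟩ := h
  push_cast
  exact Dvd.dvd.mul_right (theta_dvd_n q) _

theorem theta_dvd_sub_s (z : 𝓞 K) : q.t ∣ z - q.s z := by
  -- `z - s z = b θ`
  refine ⟨((crd q z).2 : 𝓞 K), ?_⟩
  apply QF.ext'
  have h1 := crd_spec q z
  have h2 := congrArg q.σ h1
  rw [map_mul, map_add, map_mul, q.hσ] at h2
  simp only [map_intCast, map_ofNat] at h2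
  rw [map_sub, QF.coe_s, map_mul, map_intCast, QF.coe_t]
  apply mul_left_cancel₀ (two_ne_zero (α := K))
  linear_combination h1 - h2

/-! ### the trace dual -/

/-- an integer multiple of `1/n` whose traces against the ring of integers are integral -/
theorem dual_one (hn4 : n % 4 = 3) {w : K} (h : ∀ z : 𝓞 K, ∃ m : ℤ, w * (algebraMap (𝓞 K) K) z + q.σ (w * (algebraMap (𝓞 K) K) z) = m) :
    ∃ y : 𝓞 K, (algebraMap (𝓞 K) K) y = q.θ * w := by
  -- the generator `ω = (1+θ)/2`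
  obtain ⟨e, he⟩ : ∃ e : ℤ, (n : ℤ) = 4 * e + 3 := ⟨n / 4, by omega⟩
  obtain ⟨ω, hω, hω2⟩ := q.of_coords (a := 1) (b := 1) ⟨e + 1, by rw [he]; ring⟩
  obtain ⟨ω', hω'⟩ := QF.exists_of_isInt hω
  obtain ⟨m0, hm0⟩ := h 1
  obtain ⟨m1, hm1⟩ := h ω'
  rw [hω'] at hm1
  rw [map_one, mul_one] at hm0
  have hσω : 2 * q.σ ω = (1 : ℤ) + (1 : ℤ) * (-q.θ) := by
    have := congrArg q.σ hω2
    rw [map_mul, map_add, map_mul, q.hσ] at this
    simpa only [map_intCast, map_ofNat] using this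
  rw [map_mul] at hm1
  have hθ2 := q.hθ
  -- `w + σ w = m0`, `θ (w - σ w) = 2 m1 - m0`
  have k1 : q.θ * (w - q.σ w) = (2 * m1 - m0 : ℤ) := by
    push_cast
    have : 2 * (w * ω + q.σ w * q.σ ω) = 2 * (m1 : K) := by rw [hm1]
    push_cast at hω2 hσω
    linear_combination this - w * hω2 - q.σ w * hσω - hm0
  have k2 : 2 * (q.θ * w) = ((2 * m1 - m0 : ℤ) : K) + (m0 : ℤ) * q.θ := by
    linear_combination k1 + q.θ * hm0
  obtain ⟨y, hy, hy2⟩ := q.of_coords (a := 2 * m1 - m0) (b := m0) (by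
    refine ⟨m1 ^ 2 - m1 * m0 + (e + 1) * m0 ^ 2, ?_⟩
    rw [he]; ring)
  obtain ⟨y', hy'⟩ := QF.exists_of_isInt hy
  refine ⟨y', ?_⟩
  rw [hy']
  apply mul_left_cancel₀ (two_ne_zero (α := K))
  rw [hy2, k2]

theorem s_surj : Function.Surjective q.s := q.s.surjective

theorem s_mem_map {X : Ideal (𝓞 K)} {z : 𝓞 K} : q.s z ∈ X.map q.s ↔ z ∈ X := by
  rw [Ideal.mem_map_iff_of_surjective q.s (s_surj q)]
  constructor
  · rintro ⟨x, hx, h⟩
    rwa [← q.s.injective h]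
  · intro h
    exact ⟨z, h, rfl⟩

theorem mem_map_iff {X : Ideal (𝓞 K)} {z : 𝓞 K} : z ∈ X.map q.s ↔ q.s z ∈ X := by
  rw [← s_mem_map q (z := q.s z), q.s_s]

/-- the trace dual of an ideal -/
theorem dual_ideal (hn4 : n % 4 = 3) {X : Ideal (𝓞 K)} {a : ℕ} (hX : q.HasN X a) {w : K}
    (h : ∀ x ∈ X, ∃ m : ℤ, w * (algebraMap (𝓞 K) K) x + q.σ (w * (algebraMap (𝓞 K) K) x) = m) :
    ∃ y ∈ X.map q.s, (algebraMap (𝓞 K) K) y = q.θ * w * a := by
  have h1 : ∀ x ∈ X, ∃ y : 𝓞 K, (algebraMap (𝓞 K) K) y = q.θ * (w * (algebraMap (𝓞 K) K) x) := by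
    intro x hx
    apply dual_one q hn4
    intro z
    obtain ⟨m, hm⟩ := h (x * z) (Ideal.mul_mem_right _ _ hx)
    refine ⟨m, ?_⟩
    rw [← hm]
    simp only [map_mul, mul_assoc]
  have ha : (a : 𝓞 K) ∈ X * X.map q.s := by
    rw [hX]; exact Ideal.mem_span_singleton_self _
  have h2 : ∀ r ∈ X * X.map q.s, ∃ y ∈ X.map q.s, (algebraMap (𝓞 K) K) y = q.θ * w * (algebraMap (𝓞 K) K) r := by
    intro r hr
    refine Submodule.mul_induction_on hr ?_ ?_
    · intro x hx x' hx'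
      obtain ⟨y, hy⟩ := h1 x hx
      refine ⟨y * x', Ideal.mul_mem_left _ _ hx', ?_⟩
      rw [map_mul, hy, map_mul]
      ring
    · rintro r r' ⟨y, hy, hy2⟩ ⟨y', hy', hy2'⟩
      refine ⟨y + y', Ideal.add_mem _ hy hy', ?_⟩
      rw [map_add, hy2, hy2', map_add]
      ring
  obtain ⟨y, hy, hy2⟩ := h2 _ ha
  exact ⟨y, hy, by rw [hy2, map_natCast]⟩

/-- products with the conjugate -/
theorem mul_s_mem {X : Ideal (𝓞 K)} {a : ℕ} (hX : q.HasN X a) {x y : 𝓞 K} (hx : x ∈ X)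
    (hy : y ∈ X) : ∃ z : 𝓞 K, x * q.s y = (a : 𝓞 K) * z := by
  have h1 : x * q.s y ∈ X * X.map q.s := Ideal.mul_mem_mul hx (Ideal.mem_map_of_mem _ hy)
  rw [hX, Ideal.mem_span_singleton] at h1
  exact h1

theorem a_mem {X : Ideal (𝓞 K)} {a : ℕ} (hX : q.HasN X a) : (a : 𝓞 K) ∈ X := by
  have h1 : (a : 𝓞 K) ∈ Ideal.span {(a : 𝓞 K)} := Ideal.mem_span_singleton_self _
  unfold QF.HasN at hX
  rw [← hX] at h1
  exact (Ideal.mul_le_left (I := X) (J := X.map q.s)) h1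

theorem N_dvd {X : Ideal (𝓞 K)} {a : ℕ} (hX : q.HasN X a) {x : 𝓞 K} (hx : x ∈ X) :
    a ∣ q.N x := by
  obtain ⟨z, hz⟩ := mul_s_mem q hX hx hx
  rw [q.mul_s] at hz
  exact QF.natCast_dvd (K := K) ⟨z, hz⟩

end Vale.Agent.P014.H70
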