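import Vale.Agent.P014.H70.Fam3
import Vale.Agent.P014.H581.Asm
import Vale.Agent.P014.H687.Inst

/-!
# The type function for the representatives of the class group
-/

open NumberField

namespace Vale.Agent.P014.H70

open Vale.Agent.P017.H185
open Vale.Agent.P014.H581 (Rep RNs Theta)

/-- the relation between coefficients is unconditional -/
theorem rel17 : Fam.Rel17 := fun g => H687.M2_rel H687.T3 g

variable {K : Type*} [Field K] [NumberField K] {n : ℕ} {q : QF K n}

/-- the family attached to representatives -/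
def famOf {l : ℕ} (r : Rep q l) (hn4 : n % 4 = 3) (hn17 : ¬ IsSquare ((n : ℕ) : ZMod 17))
    (hl17 : ¬ 17 ∣ l) (h17 : ∀ C, ¬ 17 ∣ r.na C) : Fam q (ClassGroup (𝓞 K)) where
  A := r.a
  na := r.na
  L := r.L
  l := l
  hna C := Nat.pos_of_ne_zero (by
    obtain ⟨m, hm, h1⟩ := q.exists_hasN (r.ha0 C)
    rw [q.hasN_unique (r.hN C) h1]
    exact hm)
  hA := r.hN
  hl := Nat.pos_of_ne_zero r.hl0
  hL := r.hL
  hn4 := hn4
  hn17 := hn17
  hcop := r.hco
  hcop17 := h17
  hl17 := hl17
  hdl := r.hl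

theorem exists_theta (hn : n % 4 = 3) (h17 : jacobiSym n 17 = -1) :
    ∃ (l : ℕ) (r : Rep q l) (phi : ClassGroup (𝓞 K) → ℤ), Theta r phi := by
  obtain ⟨l, r, hlp, hl17, hco⟩ := H581.exists_Rep (q := q) hn h17
  have hsq : ¬ IsSquare ((n : ℕ) : ZMod 17) := by
    have hp : Fact (Nat.Prime 17) := ⟨by norm_num⟩
    have h1 := ZMod.nonsquare_iff_jacobiSym_eq_neg_one (p := 17) (a := (n : ℤ))
    have h2 : ¬ IsSquare (((n : ℤ)) : ZMod 17) := h1.mp (by exact_mod_cast h17)
    simpa using h2
  have hl : ¬ 17 ∣ l := by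
    intro h
    rcases (Nat.dvd_prime hlp).mp h with h | h
    · norm_num at h
    · omega
  have hna : ∀ C, ¬ 17 ∣ r.na C := by
    intro C h
    have h1 := hco C
    have h2 : 17 ∣ Nat.gcd (r.na C) (17 * n) := Nat.dvd_gcd h (Dvd.intro n rfl)
    rw [Nat.Coprime] at h1
    rw [h1] at h2
    norm_num at h2
  set F := famOf r hn hsq hl hna with hF
  obtain ⟨φ, hφ, hφ2⟩ := F.exists_phi rel17
  have key : ∀ A B m, r.cr A B m = Nat.card ((F.E A B).RN m) := by
    intro A B m
    have e : RNs q (r.X A B) (r.Y A B) (r.nX A B) (l * r.nX A B) m = (F.E A B).RN m := by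
      have e1 : (F.E A B).X = r.X A B := rfl
      have e2 : (F.E A B).Y = r.Y A B := by
        show r.L.map q.s * (r.a A).map q.s * (r.a B).map q.s = _
        rw [mul_assoc]
        rfl
      have e3 : (F.E A B).a = r.nX A B := rfl
      have e4 : (F.E A B).b = l * r.nX A B := by
        show l * r.na A * r.na B = _
        rw [mul_assoc]
        rfl
      unfold RNs Dat.RN
      rw [e1, e2, e3, e4]
    unfold Rep.cr
    rw [e]
  refine ⟨l, r, φ, ⟨hφ, ?_, ?_⟩⟩
  · intro A B
    rw [key]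
    have := (hφ2 A B).1
    linarith
  · intro A B
    rw [key, key]
    have h1 := (hφ2 A B).1
    have h2 := (hφ2 A B).2
    linarith

end Vale.Agent.P014.H70
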