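import Vale.Agent.P014.H70.QA
import Vale.Agent.P017.H185.Cl

/-!
# The quaternion algebra `K + K j`, `j² = -c`
-/

open NumberField

set_option linter.unusedSimpArgs false

namespace Vale.Agent.P014.H70

open Vale.Agent.P017.H185

variable {K : Type*} [Field K] [NumberField K] {n : ℕ}

/-- the quaternion algebra -/
def BB (_q : QF K n) (_c : ℕ) : Type _ := K × K

namespace BB

variable {q : QF K n} {c : ℕ}

noncomputable instance : AddCommGroup (BB q c) := inferInstanceAs (AddCommGroup (K × K))

noncomputable instance : Module ℚ (BB q c) := inferInstanceAs (Module ℚ (K × K))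

/-- constructor -/
def mk (x y : K) : BB q c := (x, y)

/-- first coordinate -/
def x (u : BB q c) : K := u.1

/-- second coordinate -/
def y (u : BB q c) : K := u.2

theorem ext' {u v : BB q c} (h1 : u.x = v.x) (h2 : u.y = v.y) : u = v := Prod.ext h1 h2

@[simp] theorem mk_x (a b : K) : (mk a b : BB q c).x = a := rfl
@[simp] theorem mk_y (a b : K) : (mk a b : BB q c).y = b := rfl
@[simp] theorem zero_x : (0 : BB q c).x = 0 := rfl
@[simp] theorem zero_y : (0 : BB q c).y = 0 := rfl
@[simp] theorem add_x (u v : BB q c) : (u + v).x = u.x + v.x := rfl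
@[simp] theorem add_y (u v : BB q c) : (u + v).y = u.y + v.y := rfl
@[simp] theorem neg_x (u : BB q c) : (-u).x = -u.x := rfl
@[simp] theorem neg_y (u : BB q c) : (-u).y = -u.y := rfl
@[simp] theorem sub_x (u v : BB q c) : (u - v).x = u.x - v.x := rfl
@[simp] theorem sub_y (u v : BB q c) : (u - v).y = u.y - v.y := rfl
@[simp] theorem smul_x (r : ℚ) (u : BB q c) : (r • u).x = r • u.x := rfl
@[simp] theorem smul_y (r : ℚ) (u : BB q c) : (r • u).y = r • u.y := rfl

noncomputable instance : Mul (BB q c) :=
  ⟨fun u v => mk (u.x * v.x - c * (u.y * q.σ v.y)) (u.x * v.y + u.y * q.σ v.x)⟩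

noncomputable instance : One (BB q c) := ⟨mk 1 0⟩

@[simp] theorem one_x : (1 : BB q c).x = 1 := rfl
@[simp] theorem one_y : (1 : BB q c).y = 0 := rfl
@[simp] theorem mul_x (u v : BB q c) : (u * v).x = u.x * v.x - c * (u.y * q.σ v.y) := rfl
@[simp] theorem mul_y (u v : BB q c) : (u * v).y = u.x * v.y + u.y * q.σ v.x := rfl

noncomputable instance : Ring (BB q c) :=
  { (inferInstance : AddCommGroup (BB q c)), (inferInstance : Mul (BB q c)),
    (inferInstance : One (BB q c)) with
    left_distrib := fun u v w => by
      apply ext'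
      · simp only [mul_x, add_x, add_y, map_add]; ring
      · simp only [mul_y, add_x, add_y, map_add]; ring
    right_distrib := fun u v w => by
      apply ext'
      · simp only [mul_x, add_x, add_y]; ring
      · simp only [mul_y, add_x, add_y]; ring
    zero_mul := fun u => by
      apply ext'
      · simp only [mul_x, zero_x, zero_y]; ring
      · simp only [mul_y, zero_x, zero_y]; ring
    mul_zero := fun u => by
      apply ext'
      · simp only [mul_x, zero_x, zero_y, map_zero]; ring
      · simp only [mul_y, zero_x, zero_y, map_zero]; ring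
    mul_assoc := fun u v w => by
      apply ext'
      · simp only [mul_x, mul_y, map_add, map_sub, map_mul, q.σσ, map_natCast]; ring
      · simp only [mul_x, mul_y, map_add, map_sub, map_mul, q.σσ, map_natCast]; ring
    one_mul := fun u => by
      apply ext'
      · simp only [mul_x, one_x, one_y]; ring
      · simp only [mul_y, one_x, one_y]; ring
    mul_one := fun u => by
      apply ext'
      · simp only [mul_x, one_x, one_y, map_zero]; ring
      · simp only [mul_y, one_x, one_y, map_one]; ring }

noncomputable instance : Algebra ℚ (BB q c) :=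
  Algebra.ofModule
    (fun r u v => by
      apply ext'
      · simp only [mul_x, smul_x, smul_y, Rat.smul_def]; ring
      · simp only [mul_y, smul_x, smul_y, Rat.smul_def]; ring)
    (fun r u v => by
      apply ext'
      · simp only [mul_x, smul_x, smul_y, Rat.smul_def, map_mul, map_ratCast]; ring
      · simp only [mul_y, smul_x, smul_y, Rat.smul_def, map_mul, map_ratCast]; ring)

theorem algebraMap_eq (r : ℚ) : algebraMap ℚ (BB q c) r = mk (r : K) 0 := by
  rw [Algebra.algebraMap_eq_smul_one]
  apply ext'
  · simp [Rat.smul_def]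
  · simp [Rat.smul_def]

noncomputable instance : StarRing (BB q c) where
  star u := mk (q.σ u.x) (-u.y)
  star_involutive u := by
    apply ext'
    · simp only [mk_x, q.σσ]
    · simp only [mk_y, neg_neg]
  star_mul u v := by
    apply ext'
    · simp only [mk_x, mk_y, mul_x, map_sub, map_mul, map_natCast, q.σσ, map_neg]; ring
    · simp only [mk_x, mk_y, mul_y, q.σσ]; ring
  star_add u v := by
    apply ext'
    · simp only [mk_x, add_x, map_add]
    · simp only [mk_y, add_y, neg_add]

@[simp] theorem star_x (u : BB q c) : (star u).x = q.σ u.x := rfl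
@[simp] theorem star_y (u : BB q c) : (star u).y = -u.y := rfl

instance : Nontrivial (BB q c) := ⟨⟨0, 1, fun h => by
  have := congrArg BB.x h
  simp at this⟩⟩

theorem add_σ (z : K) : z + q.σ z = ((2 * q.re z : ℚ) : K) := by
  rw [q.σ_apply]
  have := q.eq_re_im z
  push_cast
  linear_combination this

noncomputable instance [NeZero c] : QA (BB q c) where
  tr u := 2 * q.re u.x
  nr u := q.nm u.x + c * q.nm u.y
  add_star u := by
    rw [algebraMap_eq]
    apply ext'
    · simp only [add_x, star_x, mk_x]
      exact add_σ u.x
    · simp only [add_y, star_y, mk_y, add_neg_cancel]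
  mul_star u := by
    rw [algebraMap_eq]
    apply ext'
    · simp only [mul_x, star_x, star_y, mk_x, map_neg]
      push_cast
      rw [← q.mul_σ, ← q.mul_σ]
      ring
    · simp only [mul_y, star_x, star_y, mk_y, q.σσ]
      ring
  nr_pos u hu := by
    have h1 := q.nm_nonneg u.x
    have h2 := q.nm_nonneg u.y
    have hc : (0 : ℚ) < c := by exact_mod_cast Nat.pos_of_ne_zero (NeZero.ne c)
    by_contra hcon
    push Not at hcon
    have h3 : 0 ≤ (c : ℚ) * q.nm u.y := mul_nonneg hc.le h2
    have h4 : q.nm u.x = 0 := by linarith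
    have h5 : (c : ℚ) * q.nm u.y = 0 := by linarith
    have h6 : q.nm u.y = 0 := (mul_eq_zero.mp h5).resolve_left hc.ne'
    exact hu (ext' (q.nm_eq_zero h4) (q.nm_eq_zero h6))

theorem tr_def [NeZero c] (u : BB q c) : QA.tr u = 2 * q.re u.x := rfl

theorem nr_def [NeZero c] (u : BB q c) : QA.nr u = q.nm u.x + c * q.nm u.y := rfl

end BB

end Vale.Agent.P014.H70
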