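import Vale.Agent.P014.H70.QA

/-!
# The connecting lemma
-/

namespace Vale.Agent.P014.H70

namespace QA

set_option linter.unusedSectionVars false

variable {B : Type*} [Ring B] [Nontrivial B] [Algebra ℚ B] [StarRing B] [QA B]

/-- rounding in the Euclidean orders of discriminant `-3` and `-7` -/
theorem euclid {k : ℚ} (hk : k = 1 ∨ k = 2) (p q : ℚ) : ∃ p0 q0 : ℤ,
    (p - p0) ^ 2 + (p - p0) * (q - q0) + k * (q - q0) ^ 2 < 1 := by
  refine ⟨round (p + (q - round q) / 2), round q, ?_⟩
  have h1 := abs_sub_round q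
  have h2 := abs_sub_round (p + (q - round q) / 2)
  set q0 := round q
  set p0 := round (p + (q - q0) / 2)
  rw [abs_le] at h1 h2
  obtain ⟨a1, a2⟩ := h1
  obtain ⟨b1, b2⟩ := h2
  have e1 : (q - q0) ^ 2 ≤ 1 / 4 := by nlinarith
  have e2 : (p + (q - q0) / 2 - p0) ^ 2 ≤ 1 / 4 := by nlinarith
  have e3 : (p - p0) ^ 2 + (p - p0) * (q - q0) + k * (q - q0) ^ 2 =
      (p + (q - q0) / 2 - p0) ^ 2 + (k - 1 / 4) * (q - q0) ^ 2 := by ring
  rw [e3]
  rcases hk with rfl | rfl <;> nlinarith

/-- the setting of the connecting lemma -/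
structure Conn (I : AddSubgroup B) (κ : ℚ) (k : ℚ) (xa xb : B) : Prop where
  hκ : 0 < κ
  hk : k = 1 ∨ k = 2
  ta : tr xa = 1
  na : nr xa = k
  tb : tr xb = 1
  nb : nr xb = k
  ha : ∀ v ∈ I, xa * v ∈ I
  hb : ∀ v ∈ I, v * xb ∈ I
  hint : ∀ v ∈ I, ∃ m : ℤ, κ * nr v = m
  hlev : ∀ v : B, (∀ w ∈ I, ∃ m : ℤ, κ * tr (w * star v) = m) → (17 : ℤ) • v ∈ I

namespace Conn

variable {I : AddSubgroup B} {κ k : ℚ} {xa xb : B}

theorem sw (h : Conn I κ k xa xb) : Conn I κ k xa (1 - xb) where
  hκ := h.hκ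
  hk := h.hk
  ta := h.ta
  na := h.na
  tb := by rw [tr_sub, tr_one, h.tb]; norm_num
  nb := by
    have : (1 : B) - xb = star xb := by rw [star_eq, h.tb, map_one]
    rw [this, nr_star, h.nb]
  ha := h.ha
  hb := fun v hv => by
    rw [mul_sub, mul_one]
    exact I.sub_mem hv (h.hb v hv)
  hint := h.hint
  hlev := h.hlev

variable (h : Conn I κ k xa xb)

include h

theorem star_xb : star xb = 1 - xb := by rw [star_eq, h.tb, map_one]

theorem star_xa : star xa = 1 - xa := by rw [star_eq, h.ta, map_one]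

theorem xa2 : xa * xa = xa - (algebraMap ℚ B) k := by rw [sq_eq, h.ta, h.na, map_one, one_mul]

theorem xb2 : xb * xb = xb - (algebraMap ℚ B) k := by rw [sq_eq, h.tb, h.nb, map_one, one_mul]

/-- the projection onto the elements intertwining `xa` and `xb` -/
theorem T_int (w : B) : xa * (xa * w - w * (1 - xb)) = (xa * w - w * (1 - xb)) * xb := by
  have h1 := h.xa2
  have h2 := h.xb2
  have e1 : xa * (xa * w) = xa * w - (algebraMap ℚ B) k * w := by rw [← mul_assoc, h1, sub_mul]
  have e2 : w * xb * xb = w * xb - (algebraMap ℚ B) k * w := by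
    rw [mul_assoc, h2, mul_sub, C_comm]
  simp only [mul_sub, sub_mul, mul_one, e1, e2]
  have e3 : xa * (w * xb) = xa * w * xb := by rw [mul_assoc]
  rw [e3]
  abel

theorem T_mem {w : B} (hw : w ∈ I) : xa * w - w * (1 - xb) ∈ I :=
  I.sub_mem (h.ha w hw) (h.sw.hb w hw)

/-- the trace form against an intertwining element -/
theorem T_tr {v : B} (hv : xa * v = v * xb) (w : B) :
    2 * tr ((xa * w - w * (1 - xb)) * star v * xa) - tr ((xa * w - w * (1 - xb)) * star v) =
      (1 - 4 * k) * tr (w * star v) := by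
  have hs : (1 - xb) * star v = star v * (1 - xa) := by
    have := congrArg star hv
    rw [star_mul, star_mul, h.star_xa, h.star_xb] at this
    exact this.symm
  set y := w * star v with hy
  have e1 : (xa * w - w * (1 - xb)) * star v = xa * y - y * (1 - xa) := by
    rw [sub_mul, mul_assoc, mul_assoc, hs, ← mul_assoc w]
  rw [e1]
  have e2 : (xa * y - y * (1 - xa)) * xa = xa * (y * xa) - (algebraMap ℚ B) k * y := by
    have h1 := h.xa2
    have : (1 - xa) * xa = (algebraMap ℚ B) k := by rw [sub_mul, one_mul, h1]; abel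
    rw [sub_mul, mul_assoc y, this, C_comm, mul_assoc]
  have e3 : tr (xa * (y * xa)) = tr (y * xa) - k * tr y := by
    rw [tr_comm, mul_assoc, h.xa2, mul_sub, ← C_comm, tr_sub, tr_C_mul]
  have e4 : tr (xa * y - y * (1 - xa)) = 2 * tr (y * xa) - tr y := by
    rw [tr_sub, tr_comm xa y, mul_sub, mul_one, tr_sub]; ring
  rw [e2, e4, tr_sub, tr_C_mul, e3]
  ring

/-- an intertwining element of small norm gives one of norm one -/
theorem small {u : B} (hu : u ∈ I) (hu2 : xa * u = u * xb) (hu0 : u ≠ 0) (hu14 : κ * nr u ≤ 14) :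
    ∃ v ∈ I, κ * nr v = 1 := by
  have hκ := h.hκ
  -- the minimal norm
  have hex : ∃ m : ℕ, ∃ v ∈ I, xa * v = v * xb ∧ v ≠ 0 ∧ κ * nr v = m := by
    obtain ⟨m, hm⟩ := h.hint u hu
    have hpos : 0 < κ * nr u := mul_pos hκ (nr_pos u hu0)
    rw [hm] at hpos
    have : 0 < m := by exact_mod_cast hpos
    lift m to ℕ using this.le
    exact ⟨m, u, hu, hu2, hu0, by simpa using hm⟩
  classical
  obtain ⟨v, hv, hv2, hv0, hvc⟩ := Nat.find_spec hex
  have hmin : ∀ w ∈ I, xa * w = w * xb → κ * nr w < κ * nr v → w = 0 := by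
    intro w hw hw2 hlt
    by_contra hw0
    obtain ⟨m, hm⟩ := h.hint w hw
    have hpos : 0 < κ * nr w := mul_pos hκ (nr_pos w hw0)
    rw [hm] at hpos
    have hpos' : 0 < m := by exact_mod_cast hpos
    lift m to ℕ using hpos'.le
    have h1 := Nat.find_min hex (m := m) (by
      rw [hm, hvc] at hlt
      exact_mod_cast hlt)
    exact h1 ⟨w, hw, hw2, hw0, by simpa using hm⟩
  set c := Nat.find hex with hc
  have hnv := nr_pos v hv0
  have hcpos : 0 < c := by
    have : (0 : ℚ) < c := by rw [← hvc]; exact mul_pos hκ hnv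
    exact_mod_cast this
  have hcQ : (0 : ℚ) < c := by exact_mod_cast hcpos
  have hc14 : c ≤ 14 := by
    by_contra hcon
    push Not at hcon
    have h1 : κ * nr u < κ * nr v := by
      rw [hvc]
      have : (14 : ℚ) < c := by exact_mod_cast hcon
      linarith
    exact hu0 (hmin u hu hu2 h1)
  have hD : (1 - 4 * k : ℚ) ≠ 0 := by rcases h.hk with rfl | rfl <;> norm_num
  -- divisibility of the pairing
  have key : ∀ w ∈ I, ∃ q0 : ℤ, tr (w * star v) = q0 * nr v := by
    intro w hw
    set Tw := xa * w - w * (1 - xb) with hTw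
    have hTI : Tw ∈ I := h.T_mem hw
    have hT2 : xa * Tw = Tw * xb := h.T_int w
    have hcomm : (Tw * star v) * xa = xa * (Tw * star v) := by
      have hs : (1 - xb) * star v = star v * (1 - xa) := by
        have := congrArg star hv2
        rw [star_mul, star_mul, h.star_xa, h.star_xb] at this
        exact this.symm
      have hs2 : star v * xa = xb * star v := by
        simp only [sub_mul, mul_sub, one_mul, mul_one] at hs
        exact (sub_right_inj.mp hs).symm
      rw [mul_assoc, hs2, ← mul_assoc, ← hT2, mul_assoc]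
    have h1 := comm_eq h.ta h.na hcomm
    have h2 := h.T_tr hv2 w
    rw [← hTw] at h2
    clear_value Tw
    rw [h2] at h1
    -- multiply by `v` on the right
    set s := tr (Tw * star v * xa)
    set t := tr (Tw * star v)
    set y := tr (w * star v)
    set e := s - t + 2 * t * k
    have h3 : Tw * star v * v = (algebraMap ℚ B) (nr v) * Tw := by
      rw [mul_assoc, star_mul', C_comm]
    have h4 : (algebraMap ℚ B) (1 - 4 * k) * ((algebraMap ℚ B) (nr v) * Tw) = (algebraMap ℚ B) ((1 - 4 * k) * y) * (xa * v) - (algebraMap ℚ B) e * v := by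
      rw [← h3, ← mul_assoc, h1, sub_mul, mul_assoc]
    set D := 1 - 4 * k
    have hp : Tw = (algebraMap ℚ B) (y / nr v) * (xa * v) - (algebraMap ℚ B) (e / (D * nr v)) * v := by
      have h5 : (algebraMap ℚ B) (D * nr v) * (Tw - ((algebraMap ℚ B) (y / nr v) * (xa * v) - (algebraMap ℚ B) (e / (D * nr v)) * v)) = 0 := by
        rw [mul_sub, mul_sub, ← mul_assoc ((algebraMap ℚ B) (D * nr v)) ((algebraMap ℚ B) (y / nr v)),
          ← mul_assoc ((algebraMap ℚ B) (D * nr v)) ((algebraMap ℚ B) (e / (D * nr v))), ← map_mul, ← map_mul, map_mul (algebraMap ℚ B) D (nr v),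
          mul_assoc, h4]
        have e1 : D * nr v * (y / nr v) = D * y := by field_simp
        have e2 : D * nr v * (e / (D * nr v)) = e := by field_simp
        rw [e1, e2, sub_self]
      exact sub_eq_zero.mp (C_mul_eq_zero (mul_ne_zero hD hnv.ne') h5)
    obtain ⟨p0, q0, hpq⟩ := euclid h.hk (-(e / (D * nr v))) (y / nr v)
    set P := -(e / (D * nr v)) - p0 with hP
    set Q := y / nr v - q0 with hQ
    -- the remainder
    have hu1 : Tw - (p0 • v + q0 • (xa * v)) = ((algebraMap ℚ B) P + (algebraMap ℚ B) Q * xa) * v := by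
      rw [hp, hP, hQ]
      have z1 : p0 • v = (algebraMap ℚ B) (p0 : ℚ) * v := by
        rw [map_intCast, zsmul_eq_mul]
      have z2 : q0 • (xa * v) = (algebraMap ℚ B) (q0 : ℚ) * (xa * v) := by
        rw [map_intCast, zsmul_eq_mul]
      rw [z1, z2, map_sub, map_sub, map_neg]
      simp only [add_mul, sub_mul, neg_mul, mul_assoc]
      abel
    have hnr : nr ((algebraMap ℚ B) P + (algebraMap ℚ B) Q * xa) = P ^ 2 + P * Q + k * Q ^ 2 := by
      rw [nr_add, nr_C, nr_C_mul, star_mul, star_C, h.na, h.star_xa, tr_C_mul, ← C_comm,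
        tr_C_mul, tr_sub, tr_one, h.ta]
      ring
    have hmem : Tw - (p0 • v + q0 • (xa * v)) ∈ I :=
      I.sub_mem hTI (I.add_mem (I.zsmul_mem hv p0) (I.zsmul_mem (h.ha v hv) q0))
    have hint2 : xa * (Tw - (p0 • v + q0 • (xa * v))) = (Tw - (p0 • v + q0 • (xa * v))) * xb := by
      have hxv : xa * (xa * v) = (xa * v) * xb := by rw [mul_assoc, ← hv2]
      rw [mul_sub, mul_add, sub_mul, add_mul, hT2, mul_smul_comm, mul_smul_comm, smul_mul_assoc,
        smul_mul_assoc, hxv, hv2]
    have hlt : κ * nr (Tw - (p0 • v + q0 • (xa * v))) < κ * nr v := by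
      rw [hu1, nr_mul, hnr]
      have : (P ^ 2 + P * Q + k * Q ^ 2) * nr v < nr v := by
        nlinarith
      nlinarith
    have hz := hmin _ hmem hint2 hlt
    rw [hu1] at hz
    have hz2 : (algebraMap ℚ B) P + (algebraMap ℚ B) Q * xa = 0 := by
      rcases mul_eq_zero' hz with h | h
      · exact h
      · exact absurd h hv0
    have hz3 : P ^ 2 + P * Q + k * Q ^ 2 = 0 := by rw [← hnr, hz2, nr_zero]
    have hQ0 : Q = 0 := by
      have e1 : (P + Q / 2) ^ 2 + (k - 1 / 4) * Q ^ 2 = 0 := by rw [← hz3]; ring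
      have e2 : Q ^ 2 = 0 := by
        rcases h.hk with hk | hk <;> rw [hk] at e1 <;> nlinarith [sq_nonneg (P + Q / 2), sq_nonneg Q]
      simpa using e2
    refine ⟨q0, ?_⟩
    rw [hQ] at hQ0
    field_simp at hQ0
    linarith
  -- `17 v / c` is in the lattice
  have h17 : (17 : ℤ) • ((algebraMap ℚ B) (1 / c : ℚ) * v) ∈ I := by
    apply h.hlev
    intro w hw
    obtain ⟨q0, hq0⟩ := key w hw
    refine ⟨q0, ?_⟩
    rw [star_mul, star_C, ← C_comm, ← mul_assoc, C_comm (1 / c : ℚ) w |>.symm, mul_assoc, tr_C_mul, hq0]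
    have : κ * (1 / c * (q0 * nr v)) = q0 * ((κ * nr v) / c) := by ring
    rw [this, hvc, div_self hcQ.ne', mul_one]
  -- division with remainder
  have hr := Nat.div_add_mod 17 c
  set r := 17 % c with hrdef
  have hrc : r < c := Nat.mod_lt _ hcpos
  have hmem2 : (17 : ℤ) • ((algebraMap ℚ B) (1 / c : ℚ) * v) - ((17 / c : ℕ) : ℤ) • v ∈ I :=
    I.sub_mem h17 (I.zsmul_mem hv _)
  have hval : (17 : ℤ) • ((algebraMap ℚ B) (1 / c : ℚ) * v) - ((17 / c : ℕ) : ℤ) • v = (algebraMap ℚ B) (r / c : ℚ) * v := by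
    have z1 : (17 : ℤ) • ((algebraMap ℚ B) (1 / c : ℚ) * v) = (algebraMap ℚ B) (17 / c : ℚ) * v := by
      rw [zsmul_eq_mul, ← mul_assoc]
      congr 1
      have : ((17 : ℤ) : B) = (algebraMap ℚ B) (17 : ℚ) := by
        rw [show (17 : ℚ) = ((17 : ℤ) : ℚ) by norm_num, map_intCast]
      rw [this, ← map_mul]
      congr 1
      ring
    have z2 : ((17 / c : ℕ) : ℤ) • v = (algebraMap ℚ B) ((17 / c : ℕ) : ℚ) * v := by
      rw [zsmul_eq_mul, map_natCast, Int.cast_natCast]
    rw [z1, z2, ← sub_mul, ← map_sub]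
    congr 2
    have : ((17 : ℕ) : ℚ) = ((c * (17 / c) + r : ℕ) : ℚ) := by rw [hr]
    push_cast at this
    field_simp
    linarith
  rw [hval] at hmem2
  have hint3 : xa * ((algebraMap ℚ B) (r / c : ℚ) * v) = ((algebraMap ℚ B) (r / c : ℚ) * v) * xb := by
    rw [← mul_assoc, ← C_comm, mul_assoc, hv2, mul_assoc]
  have hlt2 : κ * nr ((algebraMap ℚ B) (r / c : ℚ) * v) < κ * nr v := by
    rw [nr_C_mul]
    have : (r / c : ℚ) ^ 2 < 1 := by
      have h1 : (r / c : ℚ) < 1 := by
        rw [div_lt_one hcQ]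
        exact_mod_cast hrc
      have h2 : 0 ≤ (r / c : ℚ) := by positivity
      nlinarith
    have h3 := mul_pos hκ hnv
    nlinarith
  have hz := hmin _ hmem2 hint3 hlt2
  have hr0 : r = 0 := by
    by_contra hr0
    apply hv0
    apply C_mul_eq_zero _ hz
    have : (r : ℚ) ≠ 0 := by exact_mod_cast hr0
    positivity
  have hdvd : c ∣ 17 := Nat.dvd_of_mod_eq_zero hr0
  have hc1 : c = 1 := by
    rcases (Nat.dvd_prime (by norm_num)).mp hdvd with h | h
    · exact h
    · omega
  exact ⟨v, hv, by rw [hvc, hc1]; simp⟩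

/-- **the connecting lemma** -/
theorem connect {w : B} (hw : w ∈ I) (hw2 : κ * nr w = 2) : ∃ v ∈ I, κ * nr v = 1 := by
  have hκ := h.hκ
  set T1 := xa * w - w * (1 - xb) with hT1
  set T2 := xa * w - w * (1 - (1 - xb)) with hT2
  have hsum : nr T1 + nr T2 = (4 * k - 1) * nr w := by
    have e1 : T1 + T2 = (xa + xa - 1) * w := by
      rw [hT1, hT2]
      simp only [sub_mul, mul_sub, add_mul, mul_one, one_mul]
      abel
    have e2 : T1 - T2 = w * (xb + xb - 1) := by
      rw [hT1, hT2]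
      simp only [mul_sub, mul_add, mul_one]
      abel
    have n1 : nr (xa + xa - 1) = 4 * k - 1 := by
      rw [nr_sub, nr_add, star_one, mul_one, tr_add, nr_one, h.ta, h.na, mul_star, tr_C, h.na]
      ring
    have n2 : nr (xb + xb - 1) = 4 * k - 1 := by
      rw [nr_sub, nr_add, star_one, mul_one, tr_add, nr_one, h.tb, h.nb, mul_star, tr_C, h.nb]
      ring
    have n3 := nr_add T1 T2
    have n4 := nr_sub T1 T2
    rw [e1, nr_mul, n1] at n3
    rw [e2, nr_mul, n2] at n4
    linarith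
  have hle : κ * nr T1 + κ * nr T2 ≤ 14 := by
    have : κ * nr T1 + κ * nr T2 = (4 * k - 1) * (κ * nr w) := by
      rw [← mul_add, hsum]; ring
    rw [this, hw2]
    rcases h.hk with hk | hk <;> rw [hk] <;> norm_num
  have p1 : 0 ≤ κ * nr T1 := mul_nonneg hκ.le (nr_nonneg _)
  have p2 : 0 ≤ κ * nr T2 := mul_nonneg hκ.le (nr_nonneg _)
  by_cases h1 : T1 = 0
  · by_cases h2 : T2 = 0
    · exfalso
      rw [h1, h2, nr_zero] at hsum
      have hw0 : nr w ≠ 0 := by
        intro h0
        rw [h0] at hw2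
        norm_num at hw2
      have : (4 * k - 1 : ℚ) ≠ 0 := by rcases h.hk with hk | hk <;> rw [hk] <;> norm_num
      have h3 : (4 * k - 1) * nr w ≠ 0 := mul_ne_zero this hw0
      apply h3
      rw [← hsum]
      norm_num
    · exact h.sw.small (h.sw.T_mem hw) (h.sw.T_int w) h2 (by linarith)
  · exact h.small (h.T_mem hw) (h.T_int w) h1 (by linarith)

end Conn

end QA

end Vale.Agent.P014.H70
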