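import Vale.Agent.P014.H70.Inv

/-!
# The theta series as a modular form of weight two on `Γ₀(17)`
-/

open UpperHalfPlane hiding I
open Complex Real MatrixGroups ModularForm CongruenceSubgroup Filter Manifold
open Matrix.SpecialLinearGroup (mapGL)
open scoped Topology Classical

namespace Vale.Agent.P014.H70

namespace Lat

variable (A : Lat)

instance : Fact (Nat.Prime 17) := ⟨by norm_num⟩

/-! ### transformation -/

theorem dvd17 {a : ℤ} (h : (a : ZMod 17) = 0) : (17 : ℤ) ∣ a := by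
  have := (ZMod.intCast_zmod_eq_zero_iff_dvd a 17).mp h
  exact_mod_cast this

/-- the eighteen theta functions, indexed by rows modulo `17` -/
noncomputable def Psi (c d : ZMod 17) (z : ℍ) : ℂ :=
  if c = 0 then -17 * A.thL z else A.thD ((d / c).val : ℤ) z

theorem slash_S (f : ℍ → ℂ) (z : ℍ) :
    (f ∣[(2 : ℤ)] ModularGroup.S) z = ((z : ℂ) ^ 2)⁻¹ * f (ModularGroup.S • z) := by
  rw [SL_slash_apply, ModularGroup.denom_apply, mul_comm]
  congr 1
  simp [ModularGroup.coe_S]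

theorem slash_T (f : ℍ → ℂ) (z : ℍ) :
    (f ∣[(2 : ℤ)] ModularGroup.T) z = f (ModularGroup.T • z) := by
  rw [SL_slash_apply, ModularGroup.denom_apply]
  simp [ModularGroup.coe_T]

theorem coe_S_smul (z : ℍ) : ((ModularGroup.S • z : ℍ) : ℂ) = -1 / z := by
  rw [UpperHalfPlane.modular_S_smul]
  show (-(z : ℂ))⁻¹ = _
  rw [neg_div, one_div, inv_neg]

theorem coe_T_smul (z : ℍ) : ((ModularGroup.T • z : ℍ) : ℂ) = z + 1 := by
  rw [UpperHalfPlane.modular_T_smul]
  simp [add_comm]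

theorem Psi_S (c d : ZMod 17) (h : ¬ (c = 0 ∧ d = 0)) :
    A.Psi c d ∣[(2 : ℤ)] ModularGroup.S = A.Psi d (-c) := by
  ext z
  have hz := z.im_pos
  have hz' : 0 < (z : ℂ).im := hz
  have hz0 : (z : ℂ) ≠ 0 := z.ne_zero
  rw [slash_S]
  unfold Psi
  rw [coe_S_smul]
  by_cases hc : c = 0
  · have hd : d ≠ 0 := fun hd => h ⟨hc, hd⟩
    rw [if_pos hc, if_neg hd, A.inv_L hz', hc]
    simp only [neg_zero, zero_div, ZMod.val_zero, Nat.cast_zero]
    field_simp
  · rw [if_neg hc]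
    by_cases hd : d = 0
    · rw [if_pos hd, hd]
      simp only [zero_div, ZMod.val_zero, Nat.cast_zero]
      rw [A.inv_0 hz']
      field_simp
    · rw [if_neg hd]
      have h1 : (17 : ℤ) ∣ ((d / c).val : ℤ) * ((c / d).val : ℤ) - 1 := by
        apply dvd17
        push_cast
        rw [ZMod.natCast_zmod_val, ZMod.natCast_zmod_val]
        field_simp
        ring
      rw [A.inv_a h1 hz']
      have h2 : A.thD (-((c / d).val : ℤ)) = A.thD (((-c / d).val : ℕ) : ℤ) := by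
        apply A.thD_congr
        apply dvd17
        push_cast
        rw [ZMod.natCast_zmod_val, ZMod.natCast_zmod_val]
        ring
      rw [h2]
      field_simp

theorem Psi_T (c d : ZMod 17) :
    A.Psi c d ∣[(2 : ℤ)] ModularGroup.T = A.Psi c (c + d) := by
  ext z
  rw [slash_T]
  unfold Psi
  rw [coe_T_smul]
  by_cases hc : c = 0
  · rw [if_pos hc, if_pos hc, A.shift_L]
  · rw [if_neg hc, if_neg hc, A.shift_D]
    have h2 : A.thD (((d / c).val : ℤ) + 1) = A.thD ((((c + d) / c).val : ℕ) : ℤ) := by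
      apply A.thD_congr
      apply dvd17
      push_cast
      rw [ZMod.natCast_zmod_val, ZMod.natCast_zmod_val]
      field_simp
      ring
    rw [h2]

/-- row vector times matrix, first entry -/
def r0 (c d : ZMod 17) (g : SL(2, ℤ)) : ZMod 17 := c * ((g 0 0 : ℤ) : ZMod 17) + d * ((g 1 0 : ℤ) : ZMod 17)

/-- row vector times matrix, second entry -/
def r1 (c d : ZMod 17) (g : SL(2, ℤ)) : ZMod 17 := c * ((g 0 1 : ℤ) : ZMod 17) + d * ((g 1 1 : ℤ) : ZMod 17)

theorem r0_mul (c d : ZMod 17) (g h : SL(2, ℤ)) : r0 c d (g * h) = r0 (r0 c d g) (r1 c d g) h := by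
  unfold r0 r1
  simp only [Matrix.SpecialLinearGroup.coe_mul, Matrix.mul_apply, Fin.sum_univ_two]
  push_cast
  ring

theorem r1_mul (c d : ZMod 17) (g h : SL(2, ℤ)) : r1 c d (g * h) = r1 (r0 c d g) (r1 c d g) h := by
  unfold r0 r1
  simp only [Matrix.SpecialLinearGroup.coe_mul, Matrix.mul_apply, Fin.sum_univ_two]
  push_cast
  ring

theorem r0_one (c d : ZMod 17) : r0 c d 1 = c := by simp [r0]

theorem r1_one (c d : ZMod 17) : r1 c d 1 = d := by simp [r1]

theorem r_ne {c d : ZMod 17} (h : ¬ (c = 0 ∧ d = 0)) (g : SL(2, ℤ)) :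
    ¬ (r0 c d g = 0 ∧ r1 c d g = 0) := by
  rintro ⟨h1, h2⟩
  apply h
  have e0 := r0_mul c d g g⁻¹
  have e1 := r1_mul c d g g⁻¹
  rw [mul_inv_cancel, h1, h2, r0_one] at e0
  rw [mul_inv_cancel, h1, h2, r1_one] at e1
  constructor
  · rw [e0]; simp [r0]
  · rw [e1]; simp [r1]

theorem Psi_slash (g : SL(2, ℤ)) : ∀ c d : ZMod 17, ¬ (c = 0 ∧ d = 0) →
    A.Psi c d ∣[(2 : ℤ)] g = A.Psi (r0 c d g) (r1 c d g) := by
  have hg : g ∈ Subgroup.closure {ModularGroup.S, ModularGroup.T} := by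
    rw [SpecialLinearGroup.SL2Z_generators]; trivial
  induction hg using Subgroup.closure_induction with
  | mem x hx =>
    intro c d h
    rcases hx with rfl | hx
    · rw [A.Psi_S c d h]
      congr 1 <;> simp [r0, r1, ModularGroup.coe_S]
    · rw [Set.mem_singleton_iff] at hx
      rw [hx, A.Psi_T c d]
      congr 1 <;> simp [r0, r1, ModularGroup.coe_T]
  | one =>
    intro c d h
    rw [SlashAction.slash_one, r0_one, r1_one]
  | mul x y _ _ hx hy =>
    intro c d h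
    rw [SlashAction.slash_mul, hx c d h, hy _ _ (r_ne h x), r0_mul, r1_mul]
  | inv x _ hx =>
    intro c d h
    have h' := r_ne h x⁻¹
    have := hx _ _ h'
    rw [← r0_mul, ← r1_mul, inv_mul_cancel, r0_one, r1_one] at this
    rw [← this, ← SlashAction.slash_mul, mul_inv_cancel, SlashAction.slash_one]

/-! ### boundedness -/

theorem norm_gg (τ : ℂ) (t : W) (v : V) : ‖gg τ t v‖ = Real.exp (-(π * τ.im * TT t v)) := by
  unfold gg
  rw [Complex.norm_exp]
  congr 1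
  have : (π : ℂ) * I * τ * (TT t v : ℝ) = ((π * TT t v : ℝ) : ℂ) * (I * τ) := by push_cast; ring
  rw [this, Complex.re_ofReal_mul, Complex.I_mul_re]
  ring

theorem TT_nonneg {t : W} (ht : Pos t) (v : V) : 0 ≤ TT t v := by
  obtain ⟨⟨h1, h2⟩, h3, h4⟩ := ht
  unfold TT
  positivity

theorem norm_gg_le {t : W} (ht : Pos t) {σ τ : ℂ} (h : σ.im ≤ τ.im) (v : V) :
    ‖gg τ t v‖ ≤ ‖gg σ t v‖ := by
  rw [norm_gg, norm_gg]
  apply Real.exp_le_exp.mpr
  have := TT_nonneg ht v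
  have hpi := Real.pi_pos
  have : π * σ.im * TT t v ≤ π * τ.im * TT t v := by gcongr
  linarith

theorem norm_tsum_le {f : V → ℂ} (hf : ∀ v, ‖f v‖ ≤ 1) {t : W} (ht : Pos t) {τ : ℂ}
    (h : 1 ≤ τ.im) : ‖∑' v : V, f v * gg τ t v‖ ≤ ∑' v : V, ‖gg I t v‖ := by
  have hI : (0 : ℝ) < I.im := by simp
  refine tsum_of_norm_bounded (summable_norm_gg' hI ht).hasSum fun v => ?_
  rw [norm_mul]
  have h1 : ‖gg τ t v‖ ≤ ‖gg I t v‖ := norm_gg_le ht (by simpa using h) v
  calc ‖f v‖ * ‖gg τ t v‖ ≤ 1 * ‖gg τ t v‖ := by gcongr; exact hf v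
    _ ≤ _ := by rw [one_mul]; exact h1

theorem Psi_bdd (c d : ZMod 17) : IsBoundedAtImInfty (A.Psi c d) := by
  rw [isBoundedAtImInfty_iff]
  refine ⟨17 * ∑' v : V, ‖gg I A.t v‖, 1, fun z hz => ?_⟩
  have hz' : 1 ≤ (z : ℂ).im := hz
  have h0 : 0 ≤ ∑' v : V, ‖gg I A.t v‖ := tsum_nonneg fun v => norm_nonneg _
  unfold Psi
  split_ifs
  · rw [norm_mul]
    have h1 : ‖A.thL z‖ ≤ ∑' v : V, ‖gg I A.t v‖ :=
      norm_tsum_le (fun v => norm_ind_le _ _) A.t_pos hz'
    have h2 : ‖(-17 : ℂ)‖ = 17 := by norm_num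
    rw [h2]
    gcongr
  · have h1 : ‖A.thD ((d / c).val : ℤ) z‖ ≤ ∑' v : V, ‖gg I A.t v‖ := by
      unfold thD
      have := norm_tsum_le (f := fun v => ind A.D v * ex (((d / c).val : ℤ) * A.q v / 17))
        (fun v => by rw [norm_mul, norm_ex, mul_one]; exact norm_ind_le _ _) A.t_pos hz'
      simpa only [mul_assoc] using this
    linarith

/-! ### holomorphy -/

theorem diffOn_tsum {f : V → ℂ} (hf : ∀ v, ‖f v‖ ≤ 1) {t : W} (ht : Pos t) :
    DifferentiableOn ℂ (fun τ : ℂ => ∑' v : V, f v * gg τ t v) {τ | 0 < τ.im} := by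
  intro τ₀ hτ₀
  have hτ₀' : 0 < τ₀.im := hτ₀
  set U : Set ℂ := {τ | τ₀.im / 2 < τ.im} with hU
  have hUo : IsOpen U := isOpen_lt continuous_const Complex.continuous_im
  set σ : ℂ := (τ₀.im / 2 : ℝ) * I with hσ
  have hσi : σ.im = τ₀.im / 2 := by simp [hσ]
  have hσ0 : 0 < σ.im := by rw [hσi]; linarith
  have h1 : DifferentiableOn ℂ (fun τ : ℂ => ∑' v : V, f v * gg τ t v) U := by
    refine differentiableOn_tsum_of_summable_norm (summable_norm_gg' hσ0 ht) (fun v => ?_) hUo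
      fun v τ hτ => ?_
    · unfold gg
      fun_prop
    · rw [norm_mul]
      have h2 : ‖gg τ t v‖ ≤ ‖gg σ t v‖ := norm_gg_le ht (by rw [hσi]; exact le_of_lt hτ) v
      calc ‖f v‖ * ‖gg τ t v‖ ≤ 1 * ‖gg τ t v‖ := by gcongr; exact hf v
        _ ≤ _ := by rw [one_mul]; exact h2
  have h3 : U ∈ 𝓝 τ₀ := hUo.mem_nhds (by rw [hU]; show τ₀.im / 2 < τ₀.im; linarith)
  exact (h1.differentiableAt h3).differentiableWithinAt

theorem thL_mdiff : MDiff (fun z : ℍ => A.thL z) := by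
  rw [UpperHalfPlane.mdifferentiable_iff]
  have h1 := diffOn_tsum (f := fun v => ind A.L v) (fun v => norm_ind_le _ _) A.t_pos
  refine h1.congr fun z hz => ?_
  have hz' : 0 < z.im := hz
  simp only [Function.comp_apply, ofComplex_apply_of_im_pos hz']
  rfl

/-! ### the modular form -/

theorem thL_Psi : (fun z : ℍ => A.thL z) = (-17 : ℂ)⁻¹ • A.Psi 0 1 := by
  ext z
  simp only [Pi.smul_apply, smul_eq_mul, Psi, if_true]
  rw [← mul_assoc, inv_mul_cancel₀ (by norm_num), one_mul]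

theorem thL_slash (g : SL(2, ℤ)) : (fun z : ℍ => A.thL z) ∣[(2 : ℤ)] g =
    (-17 : ℂ)⁻¹ • A.Psi (r0 0 1 g) (r1 0 1 g) := by
  rw [thL_Psi, ← A.Psi_slash g 0 1 (by simp)]
  exact ModularForm.SL_smul_slash _ _ _ _

theorem thL_inv_Gamma (g : SL(2, ℤ)) (hg : g ∈ Gamma0 17) :
    (fun z : ℍ => A.thL z) ∣[(2 : ℤ)] g = (fun z : ℍ => A.thL z) := by
  rw [thL_slash, thL_Psi]
  rw [Gamma0_mem] at hg
  congr 1
  ext z
  unfold Psi
  have : r0 0 1 g = 0 := by
    unfold r0
    rw [hg]; ring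
  rw [if_pos this, if_pos rfl]

/-- **the theta series of `L` is a modular form** of weight two on `Γ₀(17)` -/
noncomputable def mf : ModularForm ((Gamma0 17).map (mapGL ℝ)) 2 where
  toFun z := A.thL z
  slash_action_eq' := by
    rintro _ ⟨g, hg, rfl⟩
    exact A.thL_inv_Gamma g hg
  holo' := A.thL_mdiff
  bdd_at_cusps' := by
    intro c hc
    rw [Subgroup.IsArithmetic.isCusp_iff_isCusp_SL2Z] at hc
    rw [OnePoint.isBoundedAt_iff_forall_SL2Z hc]
    intro g _
    show IsBoundedAtImInfty ((fun z : ℍ => A.thL z) ∣[(2 : ℤ)] g)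
    rw [thL_slash]
    exact (A.Psi_bdd _ _).const_smul_left _

theorem mf_apply (z : ℍ) : A.mf z = A.thL z := rfl

/-! ### the coefficients -/

theorem q_nonneg {v : V} (hv : v ∈ A.D) : 0 ≤ A.q v := by
  have h1 := A.hq v hv
  obtain ⟨⟨h2, h3⟩, h4, h5⟩ := A.hl
  have h6 : 0 ≤ ip v (A.l * v) := by
    have : ip v (A.l * v) = (A.l.1.1 * v.1.1 ^ 2 + A.l.1.2 * v.1.2 ^ 2) +
        (A.l.2.1 * v.2.1 ^ 2 + A.l.2.2 * v.2.2 ^ 2) := by
      simp only [ip, Prod.fst_mul, Prod.snd_mul]; ring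
    rw [this]
    positivity
  have hM : (0 : ℤ) < 2 * A.M := by
    have := A.hM
    positivity
  by_contra hcon
  push Not at hcon
  have : 2 * (A.M : ℤ) * A.q v < 0 := mul_neg_of_pos_of_neg hM hcon
  linarith

/-- the representation number -/
noncomputable def rn (m : ℕ) : ℕ := Nat.card {v : V // v ∈ A.L ∧ A.q v = 17 * m}

theorem fin_rn (m : ℕ) : Finite {v : V // v ∈ A.L ∧ A.q v = 17 * m} := by
  have hI : (0 : ℝ) < I.im := by simp
  have h1 := (summable_norm_gg' hI A.t_pos).tendsto_cofinite_zero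
  have h2 : ∀ᶠ v in cofinite, ‖gg I A.t v‖ < Real.exp (-(2 * π * m)) := 
    h1.eventually_lt_const (Real.exp_pos _)
  rw [Filter.eventually_cofinite] at h2
  refine Set.Finite.subset h2 ?_
  rintro v ⟨hv, hq⟩
  simp only [Set.mem_ofPred_eq, not_lt]
  rw [A.gg_q (A.hLD hv), hq, Complex.norm_exp]
  apply le_of_eq
  congr 1
  push_cast
  have : 2 * (π : ℂ) * I * I * (17 * m / 17) = ((-(2 * π * m) : ℝ) : ℂ) := by
    push_cast
    linear_combination 2 * (π : ℂ) * m * I_sq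
  rw [this, Complex.ofReal_re]

theorem hasSum_mf (z : ℍ) :
    HasSum (fun m : ℕ => (A.rn m : ℂ) • Function.Periodic.qParam 1 z ^ m) (A.mf z) := by
  have hz : 0 < (z : ℂ).im := z.im_pos
  have h1 : HasSum (fun v : V => ind A.L v * gg z A.t v) (A.thL z) :=
    (summ hz (fun v => norm_ind_le _ _) A.t_pos).hasSum
  have h2 := HasSum.tsum_fiberwise h1 (fun v : V => (A.q v / 17).toNat)
  rw [mf_apply]
  refine h2.congr_fun fun m => ?_
  have key : ∀ v : (fun v : V => (A.q v / 17).toNat) ⁻¹' {m},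
      ind A.L v.1 * gg z A.t v.1 = (ind A.L v.1) * Function.Periodic.qParam 1 z ^ m := by
    rintro ⟨v, hv⟩
    rw [Set.mem_preimage, Set.mem_singleton_iff] at hv
    by_cases hvL : v ∈ A.L
    · congr 1
      obtain ⟨k, hk⟩ := A.hqL v hvL
      have h0 := A.q_nonneg (A.hLD hvL)
      have hkm : k = m := by
        have : A.q v / 17 = k := by omega
        omega
      show gg z A.t v = _
      rw [A.gg_q (A.hLD hvL), hk, hkm]
      unfold Function.Periodic.qParam
      rw [← Complex.exp_nat_mul]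
      congr 1
      push_cast
      ring
    · simp only [ind, if_neg hvL, zero_mul]
  rw [tsum_congr key, tsum_mul_right, smul_eq_mul]
  congr 1
  have hS : {v : V | v ∈ A.L ∧ A.q v = 17 * m}.Finite := A.fin_rn m
  rw [tsum_subtype ((fun v : V => (A.q v / 17).toNat) ⁻¹' {m}) (fun v => ind A.L v)]
  have e : ∀ v : V, ((fun v : V => (A.q v / 17).toNat) ⁻¹' {m}).indicator
      (fun v => ind A.L v) v = if v ∈ hS.toFinset then 1 else 0 := by
    intro v
    rw [Set.indicator_apply]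
    simp only [Set.mem_preimage, Set.mem_singleton_iff, Set.Finite.mem_toFinset,
      Set.mem_ofPred_eq, ind]
    by_cases hvL : v ∈ A.L
    · obtain ⟨k, hk⟩ := A.hqL v hvL
      have h0 := A.q_nonneg (A.hLD hvL)
      have hiff : (A.q v / 17).toNat = m ↔ A.q v = 17 * m := by omega
      simp only [hiff, hvL, true_and, if_true]
    · simp only [hvL, false_and, if_false, ite_self]
  rw [tsum_congr e, tsum_eq_sum (s := hS.toFinset) (fun v hv => if_neg hv),
    Finset.sum_congr rfl (fun v hv => if_pos hv), Finset.sum_const, nsmul_eq_mul, mul_one]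
  unfold rn
  congr 1
  exact (Nat.card_coe_set_eq _).trans (Set.ncard_eq_toFinset_card _ hS)

theorem q_eq_zero {v : V} (hv : v ∈ A.D) (h : A.q v = 0) : v = 0 := by
  have h1 := A.hq v hv
  obtain ⟨⟨h2, h3⟩, h4, h5⟩ := A.hl
  have h6 : (A.l.1.1 * v.1.1 ^ 2 + A.l.1.2 * v.1.2 ^ 2) +
        (A.l.2.1 * v.2.1 ^ 2 + A.l.2.2 * v.2.2 ^ 2) = 0 := by
    have : ip v (A.l * v) = (A.l.1.1 * v.1.1 ^ 2 + A.l.1.2 * v.1.2 ^ 2) +
        (A.l.2.1 * v.2.1 ^ 2 + A.l.2.2 * v.2.2 ^ 2) := by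
      simp only [ip, Prod.fst_mul, Prod.snd_mul]; ring
    rw [← this]
    rw [h] at h1
    linarith
  have z : ∀ {l x : ℤ}, 0 < l → l * x ^ 2 ≤ 0 → x = 0 := by
    intro l x hl hx
    by_contra hne
    have : 0 < l * x ^ 2 := by positivity
    linarith
  have n1 : 0 ≤ A.l.1.1 * v.1.1 ^ 2 := by positivity
  have n2 : 0 ≤ A.l.1.2 * v.1.2 ^ 2 := by positivity
  have n3 : 0 ≤ A.l.2.1 * v.2.1 ^ 2 := by positivity
  have n4 : 0 ≤ A.l.2.2 * v.2.2 ^ 2 := by positivity
  exact vext (z h2 (by linarith)) (z h3 (by linarith)) (z h4 (by linarith)) (z h5 (by linarith))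

theorem q_zero : A.q 0 = 0 := by
  have h1 := A.hq 0 A.D.zero_mem
  rw [mul_zero, ip_zero_left, mul_zero] at h1
  have hM : (2 * (A.M : ℤ)) ≠ 0 := by
    have := A.hM
    positivity
  exact (mul_eq_zero.mp h1).resolve_left hM

theorem rn_zero : A.rn 0 = 1 := by
  unfold rn
  rw [Nat.card_eq_one_iff_unique]
  constructor
  · refine ⟨fun a b => ?_⟩
    have e : ∀ a : {v : V // v ∈ A.L ∧ A.q v = 17 * (0 : ℕ)}, a.1 = 0 := fun a =>
      A.q_eq_zero (A.hLD a.2.1) (by have := a.2.2; simpa using this)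
    exact Subtype.ext ((e a).trans (e b).symm)
  · exact ⟨⟨0, A.L.zero_mem, by rw [A.q_zero]; simp⟩⟩

theorem rn_eq (m : ℕ) : (A.rn m : ℂ) = (qExpansion 1 A.mf).coeff m := by
  have h1 : (1 : ℝ) ∈ ((Gamma0 17).map (mapGL ℝ) : Subgroup (GL (Fin 2) ℝ)).strictPeriods := by
    simp
  exact ModularFormClass.qExpansion_coeff_unique one_pos h1 A.hasSum_mf m

end Lat

end Vale.Agent.P014.H70
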