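import Vale.Agent.P014.H70.IdeLat
import Vale.Agent.P014.H70.Mf

/-!
# Lattices of level 17 from pairs of ideals of `ℚ(√-n)`: the form and the representatives
-/

open NumberField Complex
open scoped Classical

namespace Vale.Agent.P014.H70

open Vale.Agent.P017.H185

variable {K : Type*} [Field K] [NumberField K] {n : ℕ}

namespace Dat

variable {q : QF K n} (E : Dat q)

theorem dual2 {p : 𝓞 K × 𝓞 K} (hp : p ∈ E.D')
    (h : ∀ p' ∈ E.D', (E.M : ℤ) ∣ ip (vH q p') (E.l * vH q p)) : p ∈ E.L' := by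
  obtain ⟨h1, h2, h3⟩ := hp
  refine ⟨h1, ?_, h3⟩
  have hn : (n : K) ≠ 0 := by exact_mod_cast (n_pos q).ne'
  have ha : (E.a : K) ≠ 0 := by exact_mod_cast E.ha.ne'
  have hb : (E.b : K) ≠ 0 := by exact_mod_cast E.hb.ne'
  have hθ2 := q.hθ
  obtain ⟨y, hy, hy'⟩ := dual_ideal q E.hn4 E.hY (w := q.θ * q.σ ((algebraMap (𝓞 K) K) p.2) / (17 * n * E.b)) (by
    intro y hy
    have hmem : ((0, q.t * y) : 𝓞 K × 𝓞 K) ∈ E.D' :=
      ⟨E.X.zero_mem, E.Y.mul_mem_left _ hy, ⟨y, by simp⟩⟩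
    obtain ⟨k, hk⟩ := h _ hmem
    rw [ip_eq] at hk
    have e0 : tr q ((0 : 𝓞 K) * q.s p.1) = 0 := by
      rw [zero_mul]; unfold tr; rw [crd_zero]; rfl
    simp only [e0, mul_zero, zero_add] at hk
    have e1 := congrArg (algebraMap (𝓞 K) K) (add_s q (q.t * y * q.s p.2))
    have hk2 : (2 * E.a * (tr q (q.t * y * q.s p.2)) : K) = E.M * k := by exact_mod_cast hk
    unfold M at hk2
    push_cast at hk2
    simp only [map_mul, map_add, q.s_s, q.s_t, map_neg, QF.coe_t, QF.coe_s, map_intCast] at e1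
    refine ⟨k, ?_⟩
    simp only [map_mul, map_div₀, map_natCast, map_ofNat, q.σσ, q.hσ]
    field_simp
    apply mul_left_cancel₀ (mul_ne_zero (by norm_num : (2 : K) ≠ 0) ha)
    rw [← e1] at hk2
    linear_combination hk2)
  rw [mem_map_iff] at hy
  refine ⟨-(q.s y), E.Y.neg_mem hy, ?_⟩
  have e2 : q.s p.2 = 17 * (-y) := by
    apply QF.ext'
    simp only [map_mul, map_neg, map_ofNat, QF.coe_s]
    rw [hy']
    field_simp
    linear_combination (q.σ ((algebraMap (𝓞 K) K) p.2)) * hθ2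
  have e3 := congrArg q.s e2
  rw [q.s_s] at e3
  rw [e3, map_mul, map_ofNat, map_neg]

/-- the form -/
noncomputable def qf (v : V) : ℤ := ip v (E.l * v) / (4 * n * E.a * E.b)

theorem tr_self (x : 𝓞 K) : tr q (x * q.s x) = 2 * q.N x := by
  apply tr_eq
  rw [map_mul, q.s_s, mul_comm (q.s x) x, q.mul_s]
  push_cast
  ring

theorem ip_self (p : 𝓞 K × 𝓞 K) : ip (vH q p) (E.l * vH q p) =
    4 * (17 * (E.b * q.N p.1) + E.a * q.N p.2) := by
  rw [ip_eq, tr_self, tr_self]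
  ring

/-- integrality of the form -/
theorem qf_int {p : 𝓞 K × 𝓞 K} (hp : p ∈ E.D') :
    ∃ k : ℤ, 17 * (E.b * (q.N p.1 : ℤ)) + E.a * q.N p.2 = n * E.a * E.b * k := by
  obtain ⟨h1, h2, h3⟩ := hp
  obtain ⟨u, hu⟩ := N_dvd q E.hX h1
  obtain ⟨v, hv⟩ := N_dvd q E.hY h2
  have key : (n : ℤ) ∣ 17 * u + v := by
    apply theta_dvd_int q
    apply theta_cancel E.hbn
    have m1 := s_mod (q := q) p.1
    have m2 := s_mod (q := q) p.2
    have hab := E.hab'
    obtain ⟨c1, hc1⟩ := m1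
    obtain ⟨c2, hc2⟩ := m2
    obtain ⟨c3, hc3⟩ := h3
    obtain ⟨c7, hc7⟩ := hab
    have n1 := q.mul_s p.1
    have n2 := q.mul_s p.2
    rw [hu] at n1
    rw [hv] at n2
    push_cast at n1 n2 ⊢
    -- b (17 u + v) = (17 b + a) u - a u + b v = θ c7 u - p1 s p1 + p2 s p2
    refine ⟨c7 * u - p.1 * c1 + p.2 * c2 + c3 * (p.2 - p.1), ?_⟩
    linear_combination (u : 𝓞 K) * hc7 + n1 - n2 - p.1 * hc1 + p.2 * hc2 + (p.2 - p.1) * hc3
  obtain ⟨k, hk⟩ := key
  refine ⟨k, ?_⟩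
  rw [hu, hv]
  push_cast
  linear_combination ((E.a : ℤ) * E.b) * hk

theorem nab_pos : (0 : ℤ) < 4 * n * E.a * E.b := by
  have h1 := n_pos q
  have h2 := E.ha
  have h3 := E.hb
  positivity

theorem qf_spec {p : 𝓞 K × 𝓞 K} (hp : p ∈ E.D') :
    (n * E.a * E.b) * E.qf (vH q p) = 17 * (E.b * (q.N p.1 : ℤ)) + E.a * q.N p.2 := by
  obtain ⟨k, hk⟩ := E.qf_int hp
  have h1 := E.ip_self p
  have h2 := E.nab_pos
  have h3 : E.qf (vH q p) = k := by
    unfold qf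
    rw [h1, hk, show 4 * ((n : ℤ) * E.a * E.b * k) = (4 * n * E.a * E.b) * k by ring]
    exact Int.mul_ediv_cancel_left _ h2.ne'
  rw [h3, hk]

theorem qf_17 {p : 𝓞 K × 𝓞 K} (hp : p ∈ E.L') : 17 ∣ E.qf (vH q p) := by
  obtain ⟨h1, ⟨y, hy, h2⟩, h3⟩ := hp
  have hpD : p ∈ E.D' := ⟨h1, by rw [h2]; exact E.Y.mul_mem_left _ hy, h3⟩
  have h4 := E.qf_spec hpD
  obtain ⟨u, hu⟩ := N_dvd q E.hX h1
  obtain ⟨v, hv⟩ := N_dvd q E.hY hy
  have h5 : q.N p.2 = 289 * q.N y := by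
    have : ((q.N p.2 : ℕ) : 𝓞 K) = ((289 * q.N y : ℕ) : 𝓞 K) := by
      rw [← q.mul_s, h2]
      push_cast
      rw [← q.mul_s, map_mul, map_ofNat]
      ring
    exact_mod_cast this
  rw [h5, hu, hv] at h4
  have h6 : (n : ℤ) * E.qf (vH q p) = 17 * (u + 17 * v) := by
    have ha : (E.a : ℤ) ≠ 0 := by exact_mod_cast E.ha.ne'
    have hb : (E.b : ℤ) ≠ 0 := by exact_mod_cast E.hb.ne'
    apply mul_left_cancel₀ (mul_ne_zero ha hb)
    push_cast at h4
    linear_combination h4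
  have h7 : ¬ (17 : ℤ) ∣ n := by
    intro h
    apply E.hn17
    have : ((n : ℤ) : ZMod 17) = 0 := by
      rw [ZMod.intCast_zmod_eq_zero_iff_dvd]
      exact_mod_cast h
    refine ⟨0, ?_⟩
    rw [mul_zero]
    exact_mod_cast this
  have h8 : (17 : ℤ) ∣ n * E.qf (vH q p) := ⟨_, h6⟩
  have hp17 : Prime (17 : ℤ) := by
    have := Nat.prime_iff_prime_int.mp (by norm_num : Nat.Prime 17)
    exact_mod_cast this
  exact (hp17.dvd_or_dvd h8).resolve_left h7

/-! ### the Gauss sum -/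

theorem count17 : ∀ m : ZMod 17, (∀ t : ZMod 17, t * t ≠ m) → ∀ s : ZMod 17,
    (Finset.univ.filter fun p : ZMod 17 × ZMod 17 => p.1 * p.1 + m * (p.2 * p.2) = s).card =
      if s = 0 then 1 else 18 := by
  decide +kernel

theorem ex_std (k : ℤ) : ex (k / 17) = ZMod.stdAddChar (N := 17) (k : ZMod 17) := by
  rw [ZMod.stdAddChar_coe]
  unfold ex
  congr 1
  push_cast
  ring

theorem gauss17 {m κ : ZMod 17} (hm : ∀ t : ZMod 17, t * t ≠ m) (hκ : κ ≠ 0) :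
    ∑ p : ZMod 17 × ZMod 17, ZMod.stdAddChar (N := 17) ((p.1 * p.1 + m * (p.2 * p.2)) * κ) = -17 := by
  rw [← Finset.sum_fiberwise' Finset.univ (fun p : ZMod 17 × ZMod 17 => p.1 * p.1 + m * (p.2 * p.2))
    (fun s => ZMod.stdAddChar (N := 17) (s * κ))]
  have h1 : ∀ s : ZMod 17, (∑ _p ∈ Finset.univ.filter
      (fun p : ZMod 17 × ZMod 17 => p.1 * p.1 + m * (p.2 * p.2) = s),
        ZMod.stdAddChar (N := 17) (s * κ)) =
      18 * ZMod.stdAddChar (N := 17) (s * κ) - (if s = 0 then 17 else 0) := by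
    intro s
    rw [Finset.sum_const, count17 m hm s]
    by_cases hs : s = 0
    · rw [if_pos hs, if_pos hs, hs, zero_mul, AddChar.map_zero_eq_one]
      norm_num
    · rw [if_neg hs, if_neg hs]
      simp
  rw [Finset.sum_congr rfl fun s _ => h1 s, Finset.sum_sub_distrib, ← Finset.mul_sum,
    AddChar.sum_mulShift κ (ZMod.isPrimitive_stdAddChar 17), if_neg hκ]
  simp

/-! ### representatives -/

theorem exists_u : ∃ u : ℤ, (n : ℤ) ∣ 1 - u * E.a := by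
  have h1 := Nat.isCoprime_iff_coprime.mpr E.han
  obtain ⟨u, v, huv⟩ := h1
  exact ⟨u, v, by linear_combination -huv⟩

/-- inverse of `a` modulo `n` -/
noncomputable def u : ℤ := E.exists_u.choose

theorem u_spec : (n : ℤ) ∣ 1 - E.u * E.a := E.exists_u.choose_spec

/-- the element `z₁ + z₂ θ` -/
noncomputable def ze (q : QF K n) (z : ZMod 17 × ZMod 17) : 𝓞 K := (z.1.val : 𝓞 K) + z.2.val * q.t

/-- the representative -/
noncomputable def cc (z : ZMod 17 × ZMod 17) : 𝓞 K × 𝓞 K :=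
  (-(E.u * E.a * E.b * ze q z), E.b * ze q z)

theorem cc_mem (z : ZMod 17 × ZMod 17) : E.cc z ∈ E.D' := by
  refine ⟨?_, ?_, ?_⟩
  · have h := E.X.mul_mem_left (-(E.u * E.b * ze q z)) (a_mem q E.hX)
    have e : -((E.u : 𝓞 K) * E.a * E.b * ze q z) = -(E.u * E.b * ze q z) * E.a := by ring
    show -((E.u : 𝓞 K) * E.a * E.b * ze q z) ∈ E.X
    rw [e]
    exact h
  · have h := E.Y.mul_mem_left (ze q z) (a_mem q E.hY)
    rw [mul_comm] at h
    exact h
  · have h := theta_dvd_of_dvd q E.u_spec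
    have e : (E.cc z).1 + (E.cc z).2 = ((1 - E.u * E.a : ℤ) : 𝓞 K) * (E.b * ze q z) := by
      unfold cc
      push_cast
      ring
    rw [e]
    exact Dvd.dvd.mul_right h _

theorem crd_ze (z : ZMod 17 × ZMod 17) : crd q (ze q z) = (2 * (z.1.val : ℤ), 2 * (z.2.val : ℤ)) := by
  apply crd_eq
  unfold ze
  simp only [map_add, map_mul, map_natCast, QF.coe_t]
  push_cast
  ring

theorem zmod_eq {a b : ZMod 17} (h : (17 : ℤ) ∣ (a.val : ℤ) - b.val) : a = b := by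
  have h1 : (((a.val : ℤ) - b.val : ℤ) : ZMod 17) = 0 := by
    rw [ZMod.intCast_zmod_eq_zero_iff_dvd]
    exact_mod_cast h
  push_cast at h1
  rw [ZMod.natCast_zmod_val, ZMod.natCast_zmod_val] at h1
  exact sub_eq_zero.mp h1

theorem prime17 : Prime (17 : ℤ) := by
  have := Nat.prime_iff_prime_int.mp (by norm_num : Nat.Prime 17)
  exact_mod_cast this

theorem hb17' : ¬ (17 : ℤ) ∣ E.b := fun h => E.hb17 (by exact_mod_cast h)

theorem cc_inj {z z' : ZMod 17 × ZMod 17} (h : E.cc z - E.cc z' ∈ E.L') : z = z' := by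
  obtain ⟨-, ⟨y, hy, h2⟩, -⟩ := h
  have e1 : (E.b : 𝓞 K) * ze q z = (E.b : 𝓞 K) * ze q z' + 17 * y := by
    have : (E.b : 𝓞 K) * ze q z - (E.b : 𝓞 K) * ze q z' = 17 * y := h2
    linear_combination this
  have e2 := congrArg (crd q) e1
  rw [crd_add] at e2
  have c1 := crd_int q E.b (ze q z)
  have c2 := crd_int q E.b (ze q z')
  have c3 := crd_int q 17 y
  push_cast at c1 c2 c3
  rw [c1, c2, c3, crd_ze, crd_ze] at e2
  have f1 := congrArg Prod.fst e2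
  have f2 := congrArg Prod.snd e2
  simp only [Prod.smul_mk, smul_eq_mul, Prod.fst_add, Prod.snd_add, Prod.smul_fst,
    Prod.smul_snd] at f1 f2
  have k : ∀ {x y c : ℤ}, (E.b : ℤ) * (2 * x) = E.b * (2 * y) + 17 * c → 17 ∣ x - y := by
    intro x y c hxy
    have h1 : (17 : ℤ) ∣ (E.b * 2) * (x - y) := ⟨c, by linear_combination hxy⟩
    rcases prime17.dvd_or_dvd h1 with h | h
    · rcases prime17.dvd_or_dvd h with h | h
      · exact absurd h E.hb17'
      · norm_num at h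
    · exact h
  exact Prod.ext (zmod_eq (k f1)) (zmod_eq (k f2))

theorem exists_e : ∃ e f : ℤ, 1 - 2 * E.b * e = 17 * f := by
  have h : IsCoprime (2 * (E.b : ℤ)) 17 := by
    rw [isCoprime_comm]
    apply (Prime.coprime_iff_not_dvd prime17).mpr
    intro h
    rcases prime17.dvd_or_dvd h with h | h
    · norm_num at h
    · exact E.hb17' h
  obtain ⟨e, f, hef⟩ := h
  exact ⟨e, f, by linear_combination -hef⟩

theorem exists_cc {p : 𝓞 K × 𝓞 K} (hp : p ∈ E.D') : ∃ z, p - E.cc z ∈ E.L' := by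
  obtain ⟨h1, h2, h3⟩ := hp
  obtain ⟨e, f, hef⟩ := E.exists_e
  obtain ⟨k1, hk1⟩ : ∃ k : ℤ, e * (crd q p.2).1 = ((((e * (crd q p.2).1 : ℤ) : ZMod 17)).val : ℤ) + 17 * k := by
    refine ⟨(e * (crd q p.2).1) / 17, ?_⟩
    rw [ZMod.val_intCast]
    exact (Int.emod_add_mul_ediv _ _).symm
  obtain ⟨k2, hk2⟩ : ∃ k : ℤ, e * (crd q p.2).2 = ((((e * (crd q p.2).2 : ℤ) : ZMod 17)).val : ℤ) + 17 * k := by
    refine ⟨(e * (crd q p.2).2) / 17, ?_⟩
    rw [ZMod.val_intCast]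
    exact (Int.emod_add_mul_ediv _ _).symm
  set z : ZMod 17 × ZMod 17 := (((e * (crd q p.2).1 : ℤ) : ZMod 17), ((e * (crd q p.2).2 : ℤ) : ZMod 17)) with hz
  have hze : 2 * (e : 𝓞 K) * p.2 = ze q z + 17 * (k1 + k2 * q.t) := by
    apply QF.ext'
    have := crd_spec q p.2
    unfold ze
    simp only [map_add, map_mul, map_natCast, QF.coe_t, map_ofNat, map_intCast]
    have k1' : (e : K) * (crd q p.2).1 = (z.1.val : K) + 17 * k1 := by exact_mod_cast congrArg (Int.cast : ℤ → K) hk1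
    have k2' : (e : K) * (crd q p.2).2 = (z.2.val : K) + 17 * k2 := by exact_mod_cast congrArg (Int.cast : ℤ → K) hk2
    linear_combination (e : K) * this + k1' + q.θ * k2'
  have hef' : 1 - 2 * (E.b : 𝓞 K) * e = 17 * f := by exact_mod_cast congrArg (Int.cast : ℤ → 𝓞 K) hef
  refine ⟨z, ?_, ⟨f * p.2 + E.b * (k1 + k2 * q.t), ?_, ?_⟩, ?_⟩
  · show p.1 - -((E.u : 𝓞 K) * E.a * E.b * ze q z) ∈ E.X
    rw [sub_neg_eq_add]
    refine E.X.add_mem h1 ?_
    have h := E.X.mul_mem_left (E.u * E.b * ze q z) (a_mem q E.hX)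
    have e : ((E.u : 𝓞 K) * E.a * E.b * ze q z) = (E.u * E.b * ze q z) * E.a := by ring
    rw [e]
    exact h
  · refine E.Y.add_mem (E.Y.mul_mem_left _ h2) ?_
    have h := E.Y.mul_mem_left (k1 + k2 * q.t) (a_mem q E.hY)
    rw [mul_comm]
    exact h
  · show p.2 - E.b * ze q z = _
    linear_combination p.2 * hef' + (E.b : 𝓞 K) * hze
  · show q.t ∣ (p.1 - -((E.u : 𝓞 K) * E.a * E.b * ze q z)) + (p.2 - E.b * ze q z)
    have h := theta_dvd_of_dvd q E.u_spec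
    have e : (p.1 - -((E.u : 𝓞 K) * E.a * E.b * ze q z)) + (p.2 - E.b * ze q z) =
        (p.1 + p.2) - ((1 - E.u * E.a : ℤ) : 𝓞 K) * (E.b * ze q z) := by
      push_cast
      ring
    rw [e]
    exact dvd_sub h3 (Dvd.dvd.mul_right h _)

/-- the representatives -/
noncomputable def R : Finset V := Finset.univ.image fun z : ZMod 17 × ZMod 17 => vH q (E.cc z)

theorem R_inj' : Function.Injective fun z : ZMod 17 × ZMod 17 => vH q (E.cc z) := by
  intro z z' h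
  have h1 := vH_inj h
  apply E.cc_inj
  rw [h1, sub_self]
  exact E.L'.zero_mem

theorem R_card : E.R.card = 289 := by
  unfold R
  rw [Finset.card_image_of_injective _ E.R_inj', Finset.card_univ, Fintype.card_prod]
  simp [ZMod.card]

theorem N_ze (z : ZMod 17 × ZMod 17) : q.N (ze q z) = z.1.val * z.1.val + n * (z.2.val * z.2.val) := by
  have h := q.mul_s (ze q z)
  have h2 := q.t_sq
  have : ((z.1.val * z.1.val + n * (z.2.val * z.2.val) : ℕ) : 𝓞 K) = (q.N (ze q z) : 𝓞 K) := by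
    rw [← h]
    unfold ze
    simp only [map_add, map_mul, map_natCast, q.s_t]
    push_cast
    linear_combination ((z.2.val : 𝓞 K) * z.2.val) * h2
  exact_mod_cast this.symm

theorem N_int_mul (m : ℤ) (z : 𝓞 K) : (q.N ((m : 𝓞 K) * z) : ℤ) = m * m * q.N z := by
  have : (((q.N ((m : 𝓞 K) * z) : ℕ) : ℤ) : 𝓞 K) = ((m * m * q.N z : ℤ) : 𝓞 K) := by
    push_cast
    rw [← q.mul_s, ← q.mul_s, map_mul, map_intCast]
    ring
  exact_mod_cast this

theorem n_qf (z : ZMod 17 × ZMod 17) : (n : ℤ) * E.qf (vH q (E.cc z)) =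
    (17 * E.u * E.u * E.a * E.b * E.b + E.b) * (z.1.val * z.1.val + n * (z.2.val * z.2.val)) := by
  have h1 := E.qf_spec (E.cc_mem z)
  have h2 : (q.N (E.cc z).1 : ℤ) = (E.u * E.a * E.b) * (E.u * E.a * E.b) * q.N (ze q z) := by
    have := N_int_mul (q := q) (-(E.u * E.a * E.b)) (ze q z)
    unfold cc
    simp only
    push_cast at this
    rw [neg_mul] at this
    rw [this]
    ring
  have h3 : (q.N (E.cc z).2 : ℤ) = E.b * E.b * q.N (ze q z) := by
    have := N_int_mul (q := q) E.b (ze q z)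
    unfold cc
    simp only
    push_cast at this
    exact this
  rw [h2, h3] at h1
  have h4 : (q.N (ze q z) : ℤ) = z.1.val * z.1.val + n * (z.2.val * z.2.val) := by
    rw [N_ze]; push_cast; rfl
  rw [← h4]
  have ha : (E.a : ℤ) ≠ 0 := by exact_mod_cast E.ha.ne'
  have hb : (E.b : ℤ) ≠ 0 := by exact_mod_cast E.hb.ne'
  apply mul_left_cancel₀ (mul_ne_zero ha hb)
  linear_combination h1

theorem gauss (a : ℤ) (ha : ¬ 17 ∣ a) : ∑ c ∈ E.R, ex (a * E.qf c / 17) = -17 := by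
  unfold R
  rw [Finset.sum_image (fun z _ z' _ h => E.R_inj' h)]
  have hn0 : ((n : ℕ) : ZMod 17) ≠ 0 := by
    intro h
    exact E.hn17 ⟨0, by rw [h, mul_zero]⟩
  have hnz : ∀ t : ZMod 17, t * t ≠ ((n : ℕ) : ZMod 17) := by
    intro t ht
    exact E.hn17 ⟨t, ht.symm⟩
  have hb0 : ((E.b : ℕ) : ZMod 17) ≠ 0 := by
    intro h
    exact E.hb17 ((ZMod.natCast_eq_zero_iff _ _).mp h)
  have ha0 : (a : ZMod 17) ≠ 0 := by
    intro h
    have := (ZMod.intCast_zmod_eq_zero_iff_dvd a 17).mp h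
    exact ha (by exact_mod_cast this)
  have : Fact (Nat.Prime 17) := ⟨by norm_num⟩
  rw [← gauss17 hnz (κ := (a : ZMod 17) * ((E.b : ℕ) : ZMod 17) / ((n : ℕ) : ZMod 17))
    (div_ne_zero (mul_ne_zero ha0 hb0) hn0)]
  refine Finset.sum_congr rfl fun z _ => ?_
  have e1 : (a * E.qf (vH q (E.cc z)) / 17 : ℝ) = ((a * E.qf (vH q (E.cc z)) : ℤ) : ℝ) / 17 := by
    push_cast; rfl
  rw [e1, ex_std]
  congr 1
  have h1 := congrArg (Int.cast : ℤ → ZMod 17) (E.n_qf z)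
  have h17 : (17 : ZMod 17) = 0 := rfl
  push_cast at h1
  rw [ZMod.natCast_zmod_val, ZMod.natCast_zmod_val, h17] at h1
  push_cast
  field_simp
  linear_combination h1

/-! ### the lattice -/

/-- the big lattice in coordinates -/
noncomputable def DV : AddSubgroup V := E.D'.map (vH q)

/-- the small lattice in coordinates -/
noncomputable def LV : AddSubgroup V := E.L'.map (vH q)

theorem mem_DV (p : 𝓞 K × 𝓞 K) : vH q p ∈ E.DV ↔ p ∈ E.D' := by
  unfold DV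
  rw [AddSubgroup.mem_map]
  constructor
  · rintro ⟨p', hp', h⟩
    rwa [← vH_inj h]
  · intro h
    exact ⟨p, h, rfl⟩

theorem mem_LV (p : 𝓞 K × 𝓞 K) : vH q p ∈ E.LV ↔ p ∈ E.L' := by
  unfold LV
  rw [AddSubgroup.mem_map]
  constructor
  · rintro ⟨p', hp', h⟩
    rwa [← vH_inj h]
  · intro h
    exact ⟨p, h, rfl⟩

theorem L_le : E.L' ≤ E.D' := by
  rintro p ⟨h1, ⟨y, hy, h2⟩, h3⟩
  exact ⟨h1, by rw [h2]; exact E.Y.mul_mem_left _ hy, h3⟩

theorem M_smul (v : V) : E.M • v ∈ E.LV := by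
  have hk : ∀ c : ℕ, ∀ a b : ℤ, crd q ((c : 𝓞 K) * ((a : 𝓞 K) + b * q.t)) = (2 * c * a, 2 * c * b) := by
    intro c a b
    apply crd_eq
    simp only [map_add, map_mul, map_natCast, map_intCast, QF.coe_t]
    push_cast
    ring
  set p : 𝓞 K × 𝓞 K := (((17 * n * E.a * E.b : ℕ) : 𝓞 K) * ((v.1.1 : 𝓞 K) + v.1.2 * q.t),
    ((17 * n * E.a * E.b : ℕ) : 𝓞 K) * ((v.2.1 : 𝓞 K) + v.2.2 * q.t)) with hp
  have e : E.M • v = vH q p := by
    rw [vH_apply, hp]
    simp only [hk]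
    unfold M
    refine vext ?_ ?_ ?_ ?_
    · rw [sm11]; push_cast; ring
    · rw [sm12]; push_cast; ring
    · rw [sm21]; push_cast; ring
    · rw [sm22]; push_cast; ring
  rw [e, mem_LV, hp]
  refine ⟨?_, ⟨((n * E.a * E.b : ℕ) : 𝓞 K) * ((v.2.1 : 𝓞 K) + v.2.2 * q.t), ?_, ?_⟩, ?_⟩
  · have h := E.X.mul_mem_left ((17 * n * E.b : 𝓞 K) * ((v.1.1 : 𝓞 K) + v.1.2 * q.t)) (a_mem q E.hX)
    have e : ((17 * n * E.a * E.b : ℕ) : 𝓞 K) * ((v.1.1 : 𝓞 K) + v.1.2 * q.t) =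
      (17 * n * E.b : 𝓞 K) * ((v.1.1 : 𝓞 K) + v.1.2 * q.t) * E.a := by push_cast; ring
    show ((17 * n * E.a * E.b : ℕ) : 𝓞 K) * ((v.1.1 : 𝓞 K) + v.1.2 * q.t) ∈ E.X
    rw [e]
    exact h
  · have h := E.Y.mul_mem_left ((n * E.a : 𝓞 K) * ((v.2.1 : 𝓞 K) + v.2.2 * q.t)) (a_mem q E.hY)
    have e : ((n * E.a * E.b : ℕ) : 𝓞 K) * ((v.2.1 : 𝓞 K) + v.2.2 * q.t) =
      (n * E.a : 𝓞 K) * ((v.2.1 : 𝓞 K) + v.2.2 * q.t) * E.b := by push_cast; ring
    rw [e]
    exact h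
  · show ((17 * n * E.a * E.b : ℕ) : 𝓞 K) * _ = _
    push_cast
    ring
  · show q.t ∣ ((17 * n * E.a * E.b : ℕ) : 𝓞 K) * ((v.1.1 : 𝓞 K) + v.1.2 * q.t) +
      ((17 * n * E.a * E.b : ℕ) : 𝓞 K) * ((v.2.1 : 𝓞 K) + v.2.2 * q.t)
    have e : ((17 * n * E.a * E.b : ℕ) : 𝓞 K) * ((v.1.1 : 𝓞 K) + v.1.2 * q.t) +
      ((17 * n * E.a * E.b : ℕ) : 𝓞 K) * ((v.2.1 : 𝓞 K) + v.2.2 * q.t) =
      (n : 𝓞 K) * (17 * E.a * E.b * (((v.1.1 : 𝓞 K) + v.1.2 * q.t) + ((v.2.1 : 𝓞 K) + v.2.2 * q.t))) := by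
      push_cast; ring
    rw [e]
    exact Dvd.dvd.mul_right (theta_dvd_n q) _

theorem mem_DV' {v : V} (hv : v ∈ E.DV) : ∃ p ∈ E.D', vH q p = v := by
  unfold DV at hv
  rwa [AddSubgroup.mem_map] at hv

theorem mem_LV' {v : V} (hv : v ∈ E.LV) : ∃ p ∈ E.L', vH q p = v := by
  unfold LV at hv
  rwa [AddSubgroup.mem_map] at hv

/-- the representation numbers in terms of ideals -/
def RN (m : ℕ) : Set (𝓞 K × 𝓞 K) := {p | p.1 ∈ E.X ∧ p.2 ∈ E.Y ∧ q.t ∣ p.1 + 17 * p.2 ∧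
  E.b * q.N p.1 + 17 * (E.a * q.N p.2) = n * E.a * E.b * m}

/-- **the lattice of level 17** attached to the pair of ideals -/
noncomputable def lat : Lat where
  M := E.M
  hM := by
    have h1 := n_pos q
    have h2 := E.ha
    have h3 := E.hb
    unfold M
    positivity
  l := E.l
  hl := by
    have h1 := n_pos q
    have h2 := E.ha
    have h3 := E.hb
    unfold l
    refine ⟨⟨?_, ?_⟩, ?_, ?_⟩ <;> simp only <;> positivity
  D := E.DV
  L := E.LV
  hLD := by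
    intro v hv
    obtain ⟨p, hp, rfl⟩ := E.mem_LV' hv
    exact (E.mem_DV p).mpr (E.L_le hp)
  hML := E.M_smul
  hint := by
    intro v hv v' hv'
    obtain ⟨p, hp, rfl⟩ := E.mem_LV' hv
    obtain ⟨p', hp', rfl⟩ := E.mem_DV' hv'
    exact E.pair_int hp hp'
  hdual := by
    intro w hw
    obtain ⟨p, hp, h⟩ := E.dual (w := w) (fun p hp => hw _ ((E.mem_LV p).mpr hp))
    exact ⟨vH q p, (E.mem_DV p).mpr hp, h⟩
  hdual' := by
    intro v hv h
    obtain ⟨p, hp, rfl⟩ := E.mem_DV' hv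
    rw [mem_LV]
    exact E.dual2 hp fun p' hp' => h _ ((E.mem_DV p').mpr hp')
  q := E.qf
  hq := by
    intro v hv
    obtain ⟨p, hp, rfl⟩ := E.mem_DV' hv
    rw [E.ip_self, ← E.qf_spec hp]
    unfold M
    push_cast
    ring
  hqL := by
    intro v hv
    obtain ⟨p, hp, rfl⟩ := E.mem_LV' hv
    exact E.qf_17 hp
  R := E.R
  hRD := by
    intro c hc
    unfold R at hc
    rw [Finset.mem_image] at hc
    obtain ⟨z, -, rfl⟩ := hc
    exact (E.mem_DV _).mpr (E.cc_mem z)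
  hR := by
    intro v hv
    obtain ⟨p, hp, rfl⟩ := E.mem_DV' hv
    obtain ⟨z, hz⟩ := E.exists_cc hp
    refine ⟨vH q (E.cc z), ⟨?_, ?_⟩, ?_⟩
    · unfold R
      exact Finset.mem_image_of_mem _ (Finset.mem_univ z)
    · rw [← map_sub, mem_LV]
      exact hz
    · rintro c ⟨hc, hc2⟩
      unfold R at hc
      rw [Finset.mem_image] at hc
      obtain ⟨z', -, rfl⟩ := hc
      rw [← map_sub, mem_LV] at hc2
      have := E.L'.sub_mem hz hc2
      rw [show p - E.cc z - (p - E.cc z') = E.cc z' - E.cc z by abel] at this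
      rw [E.cc_inj this]
  hcard := E.R_card
  hgauss := E.gauss

theorem lat_equiv (m : ℕ) : Nonempty (E.RN m ≃ {v : V // v ∈ E.lat.L ∧ E.lat.q v = 17 * m}) := by
  refine ⟨Equiv.ofBijective (fun v => ?_) ⟨?_, ?_⟩⟩
  · refine ⟨vH q (v.1.1, 17 * v.1.2), ?_, ?_⟩
    · exact (E.mem_LV _).mpr ⟨v.2.1, ⟨v.1.2, v.2.2.1, rfl⟩, v.2.2.2.1⟩
    · have h1 : ((v.1.1, 17 * v.1.2) : 𝓞 K × 𝓞 K) ∈ E.L' :=
        ⟨v.2.1, ⟨v.1.2, v.2.2.1, rfl⟩, v.2.2.2.1⟩
      have h2 := E.qf_spec (E.L_le h1)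
      have h3 := v.2.2.2.2
      have h4 : (q.N (17 * v.1.2) : ℤ) = 289 * q.N v.1.2 := by
        have := N_int_mul (q := q) 17 v.1.2
        push_cast at this
        rw [this]
      simp only at h2
      rw [h4] at h2
      have h5 := E.nab_pos
      have h6 : ((E.b * q.N v.1.1 + 17 * (E.a * q.N v.1.2) : ℕ) : ℤ) = ((n * E.a * E.b * m : ℕ) : ℤ) := by
        rw [h3]
      push_cast at h6
      have h7 : ((n : ℤ) * E.a * E.b) ≠ 0 := by
        intro h
        rw [show 4 * (n : ℤ) * E.a * E.b = 4 * ((n : ℤ) * E.a * E.b) by ring, h] at h5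
        norm_num at h5
      show E.qf (vH q (v.1.1, 17 * v.1.2)) = 17 * m
      apply mul_left_cancel₀ h7
      rw [h2]
      linear_combination 17 * h6
  · intro v w h
    have h1 := congrArg (fun x => x.1) h
    simp only at h1
    have h2 := vH_inj h1
    rw [Prod.mk.injEq] at h2
    obtain ⟨h3, h4⟩ := h2
    have h17 : (17 : 𝓞 K) ≠ 0 := by norm_num
    exact Subtype.ext (Prod.ext h3 (mul_left_cancel₀ h17 h4))
  · rintro ⟨v, hv, hq⟩
    obtain ⟨p, hp, rfl⟩ := E.mem_LV' hv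
    obtain ⟨y, hy, h2⟩ := hp.2.1
    have hp' : p = (p.1, 17 * y) := Prod.ext rfl h2
    refine ⟨⟨(p.1, y), hp.1, hy, ?_, ?_⟩, ?_⟩
    · have := hp.2.2
      rwa [h2] at this
    · have h3 := E.qf_spec (E.L_le hp)
      have hq' : E.qf (vH q p) = 17 * m := hq
      rw [hq', h2] at h3
      have h4 : (q.N (17 * y) : ℤ) = 289 * q.N y := by
        have := N_int_mul (q := q) 17 y
        push_cast at this
        rw [this]
      rw [h4] at h3
      have h5 : ((E.b * q.N p.1 + 17 * (E.a * q.N y) : ℕ) : ℤ) = ((n * E.a * E.b * m : ℕ) : ℤ) := by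
        push_cast
        linarith
      exact_mod_cast h5
    · apply Subtype.ext
      show vH q (p.1, 17 * y) = vH q p
      rw [← hp']

theorem lat_rn (m : ℕ) : E.lat.rn m = Nat.card (E.RN m) := by
  obtain ⟨e⟩ := E.lat_equiv m
  exact (Nat.card_congr e).symm

theorem RN_fin (m : ℕ) : Finite (E.RN m) := by
  obtain ⟨e⟩ := E.lat_equiv m
  have := E.lat.fin_rn m
  exact Finite.of_equiv _ e.symm

end Dat

end Vale.Agent.P014.H70
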