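import Vale.Agent.P014.H70.Connect

/-!
# Systems of lattices in a quaternion algebra: the two types
-/

namespace Vale.Agent.P014.H70

open QA

/-- a system of lattices of level 17 -/
structure Sys (B : Type*) [Ring B] [Nontrivial B] [Algebra ℚ B] [StarRing B] [QA B] (J : Type*) where
  I : J → J → AddSubgroup B
  N : J → ℚ
  hN : ∀ a, 0 < N a
  one : ∀ a, (1 : B) ∈ I a a
  mul : ∀ {a b c : J} {u v : B}, u ∈ I a b → v ∈ I b c → u * v ∈ I a c
  conj : ∀ {a b : J} {v : B}, v ∈ I a b → algebraMap ℚ B (N a / N b) * star v ∈ I b a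
  hint : ∀ {a b : J} {v : B}, v ∈ I a b → ∃ m : ℤ, N a / N b * nr v = m
  hlev : ∀ {a b : J} (v : B), (∀ w ∈ I a b, ∃ m : ℤ, N a / N b * tr (w * star v) = m) →
    (17 : ℤ) • v ∈ I a b
  h17 : ∀ {a : J} {u v : B}, u ∈ I a a → v ∈ I a a → (∃ m : ℤ, nr u = 17 * m) →
    (∃ m : ℤ, nr v = 17 * m) → ∃ m : ℤ, nr (u - v) = 17 * m
  fin : ∀ (a b : J) (m : ℕ), Finite {v : B // v ∈ I a b ∧ N a / N b * nr v = m}
  theta : ∀ a b : J, Nat.card {v : B // v ∈ I a b ∧ N a / N b * nr v = (1 : ℕ)} +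
    Nat.card {v : B // v ∈ I a b ∧ N a / N b * nr v = (2 : ℕ)} = 6

namespace Sys

variable {B : Type*} [Ring B] [Nontrivial B] [Algebra ℚ B] [StarRing B] [QA B] {J : Type*}
  (S : Sys B J)

/-- representation numbers -/
noncomputable def rep (a b : J) (m : ℕ) : ℕ := Nat.card {v : B // v ∈ S.I a b ∧ S.N a / S.N b * nr v = m}

theorem rep_sum (a b : J) : S.rep a b 1 + S.rep a b 2 = 6 := S.theta a b

theorem kaa (a : J) : S.N a / S.N a = 1 := div_self (S.hN a).ne'

theorem nr_int {a : J} {v : B} (hv : v ∈ S.I a a) : ∃ m : ℤ, nr v = m := by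
  obtain ⟨m, hm⟩ := S.hint hv
  rw [S.kaa, one_mul] at hm
  exact ⟨m, hm⟩

theorem nr_add_C (v : B) (r : ℚ) : nr (v + (algebraMap ℚ B) r) = nr v + r * tr v + r ^ 2 := by
  rw [nr_add, nr_C, star_C, ← C_comm, tr_C_mul]; ring

theorem nr_sub_C (v : B) (r : ℚ) : nr (v - (algebraMap ℚ B) r) = nr v - r * tr v + r ^ 2 := by
  have := nr_add_C v (-r)
  rw [map_neg, ← sub_eq_add_neg] at this
  rw [this]; ring

theorem C_mem (a : J) (m : ℤ) : (algebraMap ℚ B) (m : ℚ) ∈ S.I a a := by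
  have h := (S.I a a).zsmul_mem (S.one a) m
  rw [zsmul_one] at h
  rwa [map_intCast]

theorem tr_int {a : J} {v : B} (hv : v ∈ S.I a a) : ∃ m : ℤ, tr v = m := by
  obtain ⟨m, hm⟩ := S.nr_int hv
  have h1 : v + (algebraMap ℚ B) (1 : ℚ) ∈ S.I a a := (S.I a a).add_mem hv (by
    have := S.C_mem a 1
    simpa using this)
  obtain ⟨m', hm'⟩ := S.nr_int h1
  rw [nr_add_C, hm] at hm'
  refine ⟨m' - m - 1, ?_⟩
  push_cast
  linarith

theorem no_trace_zero {a : J} {v : B} (hv : v ∈ S.I a a) (ht : tr v = 0) {c : ℤ} {k : ℤ}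
    (hc : nr v + c ^ 2 = 17 * k) (h : ¬ (17 : ℤ) ∣ 4 * c ^ 2) : False := by
  have h1 : v + (algebraMap ℚ B) (c : ℚ) ∈ S.I a a := (S.I a a).add_mem hv (S.C_mem a c)
  have h2 : v - (algebraMap ℚ B) (c : ℚ) ∈ S.I a a := (S.I a a).sub_mem hv (S.C_mem a c)
  obtain ⟨m, hm⟩ := S.h17 h1 h2 ⟨k, by rw [nr_add_C, ht, ← hc]; ring⟩
    ⟨k, by rw [nr_sub_C, ht, ← hc]; ring⟩
  have e : (v + (algebraMap ℚ B) (c : ℚ)) - (v - (algebraMap ℚ B) (c : ℚ)) = (algebraMap ℚ B) (2 * c : ℚ) := by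
    rw [two_mul, map_add]; abel
  rw [e, nr_C] at hm
  apply h
  refine ⟨m, ?_⟩
  have : ((4 * c ^ 2 : ℤ) : ℚ) = ((17 * m : ℤ) : ℚ) := by
    push_cast
    rw [← hm]; ring
  exact_mod_cast this

/-- no square root of `-1` -/
theorem no1 {a : J} {v : B} (hv : v ∈ S.I a a) (ht : tr v = 0) (hn : nr v = 1) : False :=
  S.no_trace_zero (c := 4) (k := 1) hv ht (by rw [hn]; norm_num) (by norm_num)

/-- no square root of `-2` -/
theorem no2 {a : J} {v : B} (hv : v ∈ S.I a a) (ht : tr v = 0) (hn : nr v = 2) : False :=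
  S.no_trace_zero (c := 7) (k := 3) hv ht (by rw [hn]; norm_num) (by norm_num)

theorem disc (v : B) : nr (v + v - (algebraMap ℚ B) (tr v)) = 4 * nr v - tr v ^ 2 := by
  rw [nr_sub_C, nr_add, mul_star, tr_C, tr_add]; ring

/-- elements of norm one -/
theorem norm_one {a : J} {v : B} (hv : v ∈ S.I a a) (hn : nr v = 1) :
    v = 1 ∨ v = -1 ∨ tr v = 1 ∨ tr v = -1 := by
  obtain ⟨t, ht⟩ := S.tr_int hv
  have h1 := disc v
  have h2 := nr_nonneg (v + v - (algebraMap ℚ B) (tr v))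
  rw [h1, hn, ht] at h2
  have h3 : t ^ 2 ≤ 4 := by
    have : (t : ℚ) ^ 2 ≤ 4 := by linarith
    exact_mod_cast this
  have h4 : -2 ≤ t ∧ t ≤ 2 := by constructor <;> nlinarith
  obtain ⟨h5, h6⟩ := h4
  have h7 : ∀ s : ℤ, s ^ 2 = 4 → t = s → v + v = (algebraMap ℚ B) (s : ℚ) := by
    intro s hs hts
    have : nr (v + v - (algebraMap ℚ B) (tr v)) = 0 := by
      rw [h1, hn, ht, hts]
      have : ((s : ℚ)) ^ 2 = 4 := by exact_mod_cast hs
      rw [this]; ring
    have := nr_eq_zero this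
    rw [ht, hts] at this
    exact sub_eq_zero.mp this
  have hhalf : ∀ w : B, v + v = w + w → v = w := by
    intro w hw
    have h8 : (algebraMap ℚ B) (2 : ℚ) * (v - w) = 0 := by
      have : (algebraMap ℚ B) (2 : ℚ) = 1 + 1 := by rw [← one_add_one_eq_two, map_add, map_one]
      rw [this, add_mul, one_mul]
      have : v - w + (v - w) = (v + v) - (w + w) := by abel
      rw [this, hw, sub_self]
    exact sub_eq_zero.mp (C_mul_eq_zero (by norm_num) h8)
  interval_cases t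
  · right; left
    apply hhalf
    rw [h7 (-2) (by norm_num) rfl]
    have : (algebraMap ℚ B) (((-2 : ℤ)) : ℚ) = -1 + -1 := by
      rw [map_intCast]
      push_cast
      rw [← one_add_one_eq_two]; abel
    exact this
  · right; right; right; rw [ht]; norm_num
  · exfalso
    exact S.no1 hv (by rw [ht]; norm_num) hn
  · right; right; left; rw [ht]; norm_num
  · left
    apply hhalf
    rw [h7 2 (by norm_num) rfl]
    have : (algebraMap ℚ B) (((2 : ℤ)) : ℚ) = 1 + 1 := by
      rw [map_intCast]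
      push_cast
      rw [← one_add_one_eq_two]
    exact this

/-- elements of norm two -/
theorem norm_two {a : J} {v : B} (hv : v ∈ S.I a a) (hn : nr v = 2) : tr v = 1 ∨ tr v = -1 := by
  obtain ⟨t, ht⟩ := S.tr_int hv
  have h1 := disc v
  have h2 := nr_nonneg (v + v - (algebraMap ℚ B) (tr v))
  rw [h1, hn, ht] at h2
  have h3 : t ^ 2 ≤ 8 := by
    have : (t : ℚ) ^ 2 ≤ 8 := by linarith
    exact_mod_cast this
  have h4 : -2 ≤ t ∧ t ≤ 2 := by constructor <;> nlinarith
  obtain ⟨h5, h6⟩ := h4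
  have hA : ∀ s : ℤ, s ^ 2 = 1 → t = 2 * s → False := by
    intro s hs hts
    have m1 : v - (algebraMap ℚ B) (s : ℚ) ∈ S.I a a := (S.I a a).sub_mem hv (S.C_mem a s)
    have hs' : (s : ℚ) ^ 2 = 1 := by exact_mod_cast hs
    refine S.no1 m1 ?_ ?_
    · rw [tr_sub, tr_C, ht, hts]; push_cast; ring
    · rw [nr_sub_C, hn, ht, hts]; push_cast; linear_combination (-1 : ℚ) * hs'
  interval_cases t
  · exact (hA (-1) (by norm_num) (by norm_num)).elim
  · right; rw [ht]; norm_num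
  · exact (S.no2 hv (by rw [ht]; norm_num) hn).elim
  · left; rw [ht]; norm_num
  · exact (hA 1 (by norm_num) (by norm_num)).elim

/-- the first type -/
def T3 (a : J) : Prop := ∃ u ∈ S.I a a, tr u = 1 ∧ nr u = 1

theorem rep_le (a b : J) : S.rep a b 1 ≤ 6 := by
  have := S.rep_sum a b
  omega

theorem rep_eq (a : J) (m : ℕ) : S.rep a a m = Set.ncard {v : B | v ∈ S.I a a ∧ nr v = m} := by
  unfold rep
  rw [S.kaa]
  simp only [one_mul]
  rfl

theorem set_fin (a : J) (m : ℕ) : {v : B | v ∈ S.I a a ∧ nr v = m}.Finite := by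
  have := S.fin a a m
  rw [S.kaa] at this
  simp only [one_mul] at this
  exact this

theorem rep_T3 {a : J} (h : S.T3 a) : S.rep a a 1 = 6 := by
  classical
  obtain ⟨u, hu, ht, hn⟩ := h
  refine le_antisymm (S.rep_le a a) ?_
  rw [rep_eq]
  have hst : star u = 1 - u := by rw [star_eq, ht, map_one]
  have key : ∀ x y : B, tr x ≠ tr y → x ≠ y := fun x y h e => h (by rw [e])
  have t1 : tr (1 : B) = 2 := tr_one
  have t2 : tr (-1 : B) = -2 := by rw [tr_neg, tr_one]
  have t3 : tr (-u) = -1 := by rw [tr_neg, ht]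
  have t4 : tr (u - 1) = -1 := by rw [tr_sub, ht, tr_one]; norm_num
  have t5 : tr (1 - u) = 1 := by rw [tr_sub, ht, tr_one]; norm_num
  have hnu : u ≠ 1 - u := by
    intro h
    have h1 : u + u = 1 := by nth_rewrite 2 [h]; abel
    have h2 := nr_add u u
    rw [h1, nr_one, mul_star, hn, tr_C] at h2
    norm_num at h2
  have hnu' : -u ≠ u - 1 := by
    intro h
    apply hnu
    have h2 := congrArg Neg.neg h
    rwa [neg_neg, neg_sub] at h2
  have hcard : ({1, -1, u, 1 - u, -u, u - 1} : Finset B).card = 6 := by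
    rw [Finset.card_insert_of_notMem, Finset.card_insert_of_notMem, Finset.card_insert_of_notMem,
      Finset.card_insert_of_notMem, Finset.card_insert_of_notMem, Finset.card_singleton]
    · simp only [Finset.mem_singleton]
      exact hnu'
    · simp only [Finset.mem_singleton, Finset.mem_insert, not_or]
      exact ⟨key _ _ (by rw [t5, t3]; norm_num), key _ _ (by rw [t5, t4]; norm_num)⟩
    · simp only [Finset.mem_singleton, Finset.mem_insert, not_or]
      exact ⟨hnu, key _ _ (by rw [ht, t3]; norm_num), key _ _ (by rw [ht, t4]; norm_num)⟩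
    · simp only [Finset.mem_singleton, Finset.mem_insert, not_or]
      exact ⟨key _ _ (by rw [t2, ht]; norm_num), key _ _ (by rw [t2, t5]; norm_num),
        key _ _ (by rw [t2, t3]; norm_num), key _ _ (by rw [t2, t4]; norm_num)⟩
    · simp only [Finset.mem_singleton, Finset.mem_insert, not_or]
      exact ⟨key _ _ (by rw [t1, t2]; norm_num), key _ _ (by rw [t1, ht]; norm_num),
        key _ _ (by rw [t1, t5]; norm_num), key _ _ (by rw [t1, t3]; norm_num),
        key _ _ (by rw [t1, t4]; norm_num)⟩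
  rw [← hcard, ← Set.ncard_coe_finset]
  refine Set.ncard_le_ncard ?_ (S.set_fin a 1)
  intro x hx
  simp only [Finset.coe_insert, Finset.coe_singleton, Set.mem_insert_iff, Set.mem_singleton_iff] at hx
  have hI := S.I a a
  have m1 := S.one a
  have n5 : nr (1 - u) = 1 := by rw [← hst, nr_star, hn]
  have n4 : nr (u - 1) = 1 := by rw [← neg_sub, nr_neg, n5]
  show x ∈ S.I a a ∧ nr x = ((1 : ℕ) : ℚ)
  rw [Nat.cast_one]
  rcases hx with rfl | rfl | rfl | rfl | rfl | rfl
  · exact ⟨m1, nr_one⟩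
  · exact ⟨(S.I a a).neg_mem m1, by rw [nr_neg, nr_one]⟩
  · exact ⟨hu, hn⟩
  · exact ⟨(S.I a a).sub_mem m1 hu, n5⟩
  · exact ⟨(S.I a a).neg_mem hu, by rw [nr_neg, hn]⟩
  · exact ⟨(S.I a a).sub_mem hu m1, n4⟩

theorem rep_notT3 {a : J} (h : ¬ S.T3 a) : S.rep a a 1 = 2 := by
  rw [rep_eq]
  have e : {v : B | v ∈ S.I a a ∧ nr v = ((1 : ℕ) : ℚ)} = {1, -1} := by
    ext v
    simp only [Set.mem_insert_iff, Set.mem_singleton_iff, Nat.cast_one]
    constructor
    · rintro ⟨hv, hn⟩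
      rcases S.norm_one hv hn with h1 | h1 | h1 | h1
      · exact Or.inl h1
      · exact Or.inr h1
      · exact (h ⟨v, hv, h1, hn⟩).elim
      · exact (h ⟨-v, (S.I a a).neg_mem hv, by rw [tr_neg, h1]; norm_num, by rw [nr_neg, hn]⟩).elim
    · rintro (rfl | rfl)
      · exact ⟨S.one a, nr_one⟩
      · exact ⟨(S.I a a).neg_mem (S.one a), by rw [nr_neg, nr_one]⟩
  rw [e, Set.ncard_pair]
  intro h1
  have h2 : tr (1 : B) = tr (-1 : B) := by rw [← h1]
  rw [tr_neg, tr_one] at h2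
  norm_num at h2

/-- composition with an element of norm one -/
theorem rep_of_pos {a b : J} (h : 0 < S.rep a b 1) :
    S.rep a b 1 = S.rep a a 1 ∧ S.rep a b 1 = S.rep b b 1 := by
  have hA := S.hN a
  have hB := S.hN b
  obtain ⟨⟨v, hv, hn⟩⟩ : Nonempty {v : B // v ∈ S.I a b ∧ S.N a / S.N b * nr v = (1 : ℕ)} := by
    by_contra hcon
    rw [not_nonempty_iff] at hcon
    unfold rep at h
    rw [Nat.card_of_isEmpty] at h
    exact absurd h (lt_irrefl _)
  rw [Nat.cast_one] at hn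
  have hnr : nr v = S.N b / S.N a := by
    field_simp at hn ⊢
    linarith
  have hvc : (algebraMap ℚ B) (S.N a / S.N b) * star v ∈ S.I b a := S.conj hv
  have e1 : v * ((algebraMap ℚ B) (S.N a / S.N b) * star v) = 1 := by
    rw [← mul_assoc, ← C_comm, mul_assoc, mul_star, ← map_mul, hn, map_one]
  have e2 : ((algebraMap ℚ B) (S.N a / S.N b) * star v) * v = 1 := by
    rw [mul_assoc, QA.star_mul', ← map_mul, hn, map_one]
  have hnc : nr ((algebraMap ℚ B) (S.N a / S.N b) * star v) = S.N a / S.N b := by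
    rw [nr_C_mul, nr_star, hnr]
    field_simp
  set v' := (algebraMap ℚ B) (S.N a / S.N b) * star v with hv'
  constructor
  · symm
    unfold rep
    refine Nat.card_congr (Equiv.mk (fun u => ⟨u.1 * v, S.mul u.2.1 hv, ?_⟩)
      (fun w => ⟨w.1 * v', S.mul w.2.1 hvc, ?_⟩) (fun u => ?_) (fun w => ?_))
    · obtain ⟨u, hu, hu2⟩ := u
      rw [S.kaa, one_mul] at hu2
      show S.N a / S.N b * nr (u * v) = _
      rw [nr_mul, hu2, Nat.cast_one, one_mul, hn]
    · obtain ⟨w, hw, hw2⟩ := w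
      show S.N a / S.N a * nr (w * v') = _
      rw [nr_mul, hnc, S.kaa, one_mul, mul_comm, hw2]
    · apply Subtype.ext
      show u.1 * v * v' = u.1
      rw [mul_assoc, e1, mul_one]
    · apply Subtype.ext
      show w.1 * v' * v = w.1
      rw [mul_assoc, e2, mul_one]
  · symm
    unfold rep
    refine Nat.card_congr (Equiv.mk (fun u => ⟨v * u.1, S.mul hv u.2.1, ?_⟩)
      (fun w => ⟨v' * w.1, S.mul hvc w.2.1, ?_⟩) (fun u => ?_) (fun w => ?_))
    · obtain ⟨u, hu, hu2⟩ := u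
      rw [S.kaa, one_mul] at hu2
      show S.N a / S.N b * nr (v * u) = _
      rw [nr_mul, hu2, Nat.cast_one, mul_one, hn]
    · obtain ⟨w, hw, hw2⟩ := w
      show S.N b / S.N b * nr (v' * w) = _
      rw [nr_mul, hnc, S.kaa, one_mul, hw2]
    · apply Subtype.ext
      show v' * (v * u.1) = u.1
      rw [← mul_assoc, e2, one_mul]
    · apply Subtype.ext
      show v * (v' * w.1) = w.1
      rw [← mul_assoc, e1, one_mul]

theorem exists_root (a : J) : (S.T3 a → ∃ x ∈ S.I a a, tr x = 1 ∧ nr x = 1) ∧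
    (¬ S.T3 a → ∃ x ∈ S.I a a, tr x = 1 ∧ nr x = 2) := by
  refine ⟨fun h => h, fun h => ?_⟩
  have h1 := S.rep_notT3 h
  have h2 := S.rep_sum a a
  have h3 : S.rep a a 2 = 4 := by omega
  obtain ⟨⟨v, hv, hn⟩⟩ : Nonempty {v : B // v ∈ S.I a a ∧ S.N a / S.N a * nr v = (2 : ℕ)} := by
    by_contra hcon
    rw [not_nonempty_iff] at hcon
    unfold rep at h3
    rw [Nat.card_of_isEmpty] at h3
    norm_num at h3
  rw [S.kaa, one_mul] at hn
  push_cast at hn
  rcases S.norm_two hv hn with h4 | h4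
  · exact ⟨v, hv, h4, hn⟩
  · exact ⟨-v, (S.I a a).neg_mem hv, by rw [tr_neg, h4]; norm_num, by rw [nr_neg, hn]⟩

theorem conn {a b : J} {k : ℚ} (hk : k = 1 ∨ k = 2) {xa xb : B} (hxa : xa ∈ S.I a a)
    (ta : tr xa = 1) (na : nr xa = k) (hxb : xb ∈ S.I b b) (tb : tr xb = 1) (nb : nr xb = k) :
    0 < S.rep a b 1 := by
  have hA := S.hN a
  have hB := S.hN b
  have hC : Conn (S.I a b) (S.N a / S.N b) k xa xb :=
    { hκ := div_pos hA hB
      hk := hk
      ta := ta
      na := na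
      tb := tb
      nb := nb
      ha := fun v hv => S.mul hxa hv
      hb := fun v hv => S.mul hv hxb
      hint := fun v hv => S.hint hv
      hlev := fun v hv => S.hlev v hv }
  have hfin := S.fin a b 1
  have hpos : Nonempty {v : B // v ∈ S.I a b ∧ S.N a / S.N b * nr v = (1 : ℕ)} := by
    by_contra hcon
    have hcon' := hcon
    rw [not_nonempty_iff] at hcon
    have h0 : S.rep a b 1 = 0 := by
      unfold rep
      exact Nat.card_of_isEmpty
    have h1 := S.rep_sum a b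
    have h2 : S.rep a b 2 = 6 := by omega
    obtain ⟨⟨v, hv, hn⟩⟩ : Nonempty {v : B // v ∈ S.I a b ∧ S.N a / S.N b * nr v = (2 : ℕ)} := by
      by_contra hcon2
      rw [not_nonempty_iff] at hcon2
      unfold rep at h2
      rw [Nat.card_of_isEmpty] at h2
      norm_num at h2
    push_cast at hn
    obtain ⟨w, hw, hw2⟩ := hC.connect hv hn
    exact hcon' ⟨⟨w, hw, by rw [hw2]; simp⟩⟩
  unfold rep
  exact Nat.card_pos

/-- **the type function** -/
theorem exists_phi : ∃ φ : J → ℤ, (∀ a, φ a = 1 ∨ φ a = -3) ∧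
    ∀ a b, 2 * (S.rep a b 1 : ℤ) = 3 + φ a * φ b ∧ 2 * (S.rep a b 2 : ℤ) = 9 - φ a * φ b := by
  classical
  refine ⟨fun a => if S.T3 a then -3 else 1, fun a => ?_, fun a b => ?_⟩
  · simp only
    split_ifs
    · right; rfl
    · left; rfl
  · have hsum := S.rep_sum a b
    suffices h : 2 * (S.rep a b 1 : ℤ) = 3 + (if S.T3 a then -3 else 1) * (if S.T3 b then -3 else 1) by
      refine ⟨h, ?_⟩
      have : (S.rep a b 1 : ℤ) + S.rep a b 2 = 6 := by exact_mod_cast hsum
      linarith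
    obtain ⟨ea1, ea2⟩ := S.exists_root a
    obtain ⟨eb1, eb2⟩ := S.exists_root b
    by_cases ha : S.T3 a <;> by_cases hb : S.T3 b
    · rw [if_pos ha, if_pos hb]
      obtain ⟨x, hx, tx, nx⟩ := ea1 ha
      obtain ⟨y, hy, ty, ny⟩ := eb1 hb
      have hpos := S.conn (k := 1) (Or.inl rfl) hx tx nx hy ty ny
      rw [(S.rep_of_pos hpos).1, S.rep_T3 ha]
      norm_num
    · rw [if_pos ha, if_neg hb]
      have h0 : S.rep a b 1 = 0 := by
        by_contra h0
        obtain ⟨h1, h2⟩ := S.rep_of_pos (Nat.pos_of_ne_zero h0)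
        rw [S.rep_T3 ha] at h1
        rw [S.rep_notT3 hb] at h2
        omega
      rw [h0]
      norm_num
    · rw [if_neg ha, if_pos hb]
      have h0 : S.rep a b 1 = 0 := by
        by_contra h0
        obtain ⟨h1, h2⟩ := S.rep_of_pos (Nat.pos_of_ne_zero h0)
        rw [S.rep_notT3 ha] at h1
        rw [S.rep_T3 hb] at h2
        omega
      rw [h0]
      norm_num
    · rw [if_neg ha, if_neg hb]
      obtain ⟨x, hx, tx, nx⟩ := ea2 ha
      obtain ⟨y, hy, ty, ny⟩ := eb2 hb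
      have hpos := S.conn (k := 2) (Or.inr rfl) hx tx nx hy ty ny
      rw [(S.rep_of_pos hpos).1, S.rep_notT3 ha]
      norm_num

end Sys

end Vale.Agent.P014.H70
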