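import Vale.Agent.P014.H70.BB
import Vale.Agent.P014.H70.Sys
import Vale.Agent.P014.H70.IdeLat2

/-!
# The lattices attached to a family of ideals
-/

open NumberField

set_option linter.unusedSimpArgs false

namespace Vale.Agent.P014.H70

open Vale.Agent.P017.H185

variable {K : Type*} [Field K] [NumberField K] {n : ℕ}

theorem map_map_s (q : QF K n) (I : Ideal (𝓞 K)) : (I.map q.s).map q.s = I := by
  ext z
  rw [mem_map_iff, mem_map_iff, q.s_s]

theorem hasN_map (q : QF K n) {I : Ideal (𝓞 K)} {a : ℕ} (h : q.HasN I a) :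
    q.HasN (I.map q.s) a := by
  unfold QF.HasN at h ⊢
  rw [map_map_s, mul_comm, h]

/-- division by `θ` inside an ideal of norm prime to `n` -/
theorem mem_div_theta (q : QF K n) {I : Ideal (𝓞 K)} {a : ℕ} (h : q.HasN I a) (ha : Nat.Coprime a n)
    {r : 𝓞 K} (hr : q.t * r ∈ I) : r ∈ I := by
  obtain ⟨u, v, huv⟩ := Nat.isCoprime_iff_coprime.mpr ha
  have e : r = (u * r) * (a : 𝓞 K) + (-(v * q.t)) * (q.t * r) := by
    have h1 : ((u * a + v * n : ℤ) : 𝓞 K) = 1 := by rw [huv]; simp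
    push_cast at h1
    have h2 := q.t_sq
    linear_combination (-r) * h1 + (v * r) * h2
  rw [e]
  exact I.add_mem (I.mul_mem_left _ (a_mem q h)) (I.mul_mem_left _ hr)

/-- data for a system -/
structure Fam (q : QF K n) (J : Type*) where
  A : J → Ideal (𝓞 K)
  na : J → ℕ
  L : Ideal (𝓞 K)
  l : ℕ
  hna : ∀ i, 0 < na i
  hA : ∀ i, q.HasN (A i) (na i)
  hl : 0 < l
  hL : q.HasN L l
  hn4 : n % 4 = 3
  hn17 : ¬ IsSquare ((n : ℕ) : ZMod 17)
  hcop : ∀ i, Nat.Coprime (na i) n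
  hcop17 : ∀ i, ¬ 17 ∣ na i
  hl17 : ¬ 17 ∣ l
  hdl : n ∣ 17 * l + 1

namespace Fam

variable {q : QF K n} {J : Type*} (F : Fam q J)

/-- the first ideal -/
noncomputable def X (i j : J) : Ideal (𝓞 K) := (F.A i).map q.s * F.A j

/-- the second ideal -/
noncomputable def Y (i j : J) : Ideal (𝓞 K) := F.L.map q.s * (F.A i).map q.s * (F.A j).map q.s

theorem hX (i j : J) : q.HasN (F.X i j) (F.na i * F.na j) := (hasN_map q (F.hA i)).mul (F.hA j)

theorem hY (i j : J) : q.HasN (F.Y i j) (F.l * F.na i * F.na j) :=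
  ((hasN_map q F.hL).mul (hasN_map q (F.hA i))).mul (hasN_map q (F.hA j))

theorem l_cop : Nat.Coprime F.l n := by
  obtain ⟨k, hk⟩ := F.hdl
  have h : IsCoprime (F.l : ℤ) n := by
    refine ⟨-17, k, ?_⟩
    have : ((17 * F.l + 1 : ℕ) : ℤ) = ((n * k : ℕ) : ℤ) := by rw [hk]
    push_cast at this
    linear_combination -this
  exact Nat.isCoprime_iff_coprime.mp h

theorem cop_ij (i j : J) : Nat.Coprime (F.na i * F.na j) n := Nat.Coprime.mul_left (F.hcop i) (F.hcop j)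

theorem cop_lij (i j : J) : Nat.Coprime (F.l * F.na i * F.na j) n :=
  Nat.Coprime.mul_left (Nat.Coprime.mul_left F.l_cop (F.hcop i)) (F.hcop j)

/-- the pair of ideals -/
noncomputable def E (i j : J) : Dat q where
  X := F.X i j
  Y := F.Y i j
  a := F.na i * F.na j
  b := F.l * F.na i * F.na j
  ha := Nat.mul_pos (F.hna i) (F.hna j)
  hb := Nat.mul_pos (Nat.mul_pos F.hl (F.hna i)) (F.hna j)
  hX := F.hX i j
  hY := F.hY i j
  hn4 := F.hn4
  hn17 := F.hn17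
  han := F.cop_ij i j
  hbn := F.cop_lij i j
  hb17 := by
    intro h
    have hp : Nat.Prime 17 := by norm_num
    rcases (Nat.Prime.dvd_mul hp).mp h with h | h
    · rcases (Nat.Prime.dvd_mul hp).mp h with h | h
      · exact F.hl17 h
      · exact F.hcop17 i h
    · exact F.hcop17 j h
  hab := by
    have : F.na i * F.na j + 17 * (F.l * F.na i * F.na j) = (17 * F.l + 1) * (F.na i * F.na j) := by
      ring
    rw [this]
    exact Dvd.dvd.mul_right F.hdl _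

/-- the lattice in `O × O` -/
noncomputable def P (i j : J) : AddSubgroup (𝓞 K × 𝓞 K) where
  carrier := {p | p.1 ∈ F.X i j ∧ p.2 ∈ F.Y i j ∧ q.t ∣ p.1 + 17 * p.2}
  zero_mem' := ⟨(F.X i j).zero_mem, (F.Y i j).zero_mem, by simp⟩
  add_mem' := by
    rintro p p' ⟨h1, h2, h3⟩ ⟨h1', h2', h3'⟩
    refine ⟨(F.X i j).add_mem h1 h1', (F.Y i j).add_mem h2 h2', ?_⟩
    have := dvd_add h3 h3'
    have e : (p + p').1 + 17 * (p + p').2 = (p.1 + 17 * p.2) + (p'.1 + 17 * p'.2) := by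
      rw [Prod.fst_add, Prod.snd_add]; ring
    rwa [e]
  neg_mem' := by
    rintro p ⟨h1, h2, h3⟩
    refine ⟨(F.X i j).neg_mem h1, (F.Y i j).neg_mem h2, ?_⟩
    have := (dvd_neg (a := q.t)).mpr h3
    have e : (-p).1 + 17 * (-p).2 = -(p.1 + 17 * p.2) := by
      rw [Prod.fst_neg, Prod.snd_neg]; ring
    rwa [e]

theorem mem_P {i j : J} {p : 𝓞 K × 𝓞 K} :
    p ∈ F.P i j ↔ p.1 ∈ F.X i j ∧ p.2 ∈ F.Y i j ∧ q.t ∣ p.1 + 17 * p.2 := Iff.rfl

theorem l17 : ∃ e : 𝓞 K, 17 * (F.l : 𝓞 K) = -1 - q.t * q.t * e := by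
  obtain ⟨k, hk⟩ := F.hdl
  refine ⟨(k : 𝓞 K), ?_⟩
  have h1 : ((17 * F.l + 1 : ℕ) : 𝓞 K) = ((n * k : ℕ) : 𝓞 K) := by rw [hk]
  push_cast at h1
  have h2 := q.t_sq
  linear_combination h1 + (k : 𝓞 K) * h2

theorem cancel {a : ℕ} (h : Nat.Coprime a n) {z : 𝓞 K} (hz : q.t ∣ (a : 𝓞 K) * z) : q.t ∣ z :=
  Dat.theta_cancel h hz

/-- composition in coordinates -/
theorem comp {i j k : J} {p p' : 𝓞 K × 𝓞 K} (hp : p ∈ F.P i j) (hp' : p' ∈ F.P j k) :
    ∃ r ∈ F.P i k, q.t * (F.na j * F.l) * r.1 = F.l * (p.1 * p'.1) + 17 * (p.2 * q.s p'.2) ∧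
      q.t * F.na j * r.2 = p.1 * p'.2 - p.2 * q.s p'.1 := by
  obtain ⟨h1, h2, h3⟩ := hp
  obtain ⟨h1', h2', h3'⟩ := hp'
  have hbn : ((F.na j : ℕ) : 𝓞 K) ≠ 0 := by exact_mod_cast (F.hna j).ne'
  have hln : ((F.l : ℕ) : 𝓞 K) ≠ 0 := by exact_mod_cast F.hl.ne'
  -- products in ideals
  have hXX : F.X i j * F.X j k = Ideal.span {(F.na j : 𝓞 K)} * F.X i k := by
    have := F.hA j
    unfold QF.HasN at this
    rw [← this]
    unfold X
    ring
  have hYY : F.Y i j * (F.Y j k).map q.s =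
      Ideal.span {((F.l * F.na j : ℕ) : 𝓞 K)} * F.X i k := by
    have e1 := F.hA j
    have e2 := F.hL
    unfold QF.HasN at e1 e2
    have e3 : Ideal.span {((F.l * F.na j : ℕ) : 𝓞 K)} =
        (F.L * F.L.map q.s) * (F.A j * (F.A j).map q.s) := by
      rw [e1, e2, Ideal.span_singleton_mul_span_singleton]
      push_cast; rfl
    rw [e3]
    unfold X Y
    simp only [Ideal.map_mul, map_map_s]
    ring
  have hXY : F.X i j * F.Y j k = Ideal.span {(F.na j : 𝓞 K)} * F.Y i k := by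
    have := F.hA j
    unfold QF.HasN at this
    rw [← this]
    unfold X Y
    ring
  have hYX : F.Y i j * (F.X j k).map q.s = Ideal.span {(F.na j : 𝓞 K)} * F.Y i k := by
    have := F.hA j
    unfold QF.HasN at this
    rw [← this]
    unfold X Y
    simp only [Ideal.map_mul, map_map_s]
    ring
  obtain ⟨z, hz, hz2⟩ := Ideal.mem_span_singleton_mul.mp (hXX ▸ Ideal.mul_mem_mul h1 h1')
  obtain ⟨w, hw, hw2⟩ := Ideal.mem_span_singleton_mul.mp (hYY ▸ Ideal.mul_mem_mul h2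
    (Ideal.mem_map_of_mem q.s h2'))
  obtain ⟨y1, hy1, hy12⟩ := Ideal.mem_span_singleton_mul.mp (hXY ▸ Ideal.mul_mem_mul h1 h2')
  obtain ⟨y2, hy2, hy22⟩ := Ideal.mem_span_singleton_mul.mp (hYX ▸ Ideal.mul_mem_mul h2
    (Ideal.mem_map_of_mem q.s h1'))
  obtain ⟨c5, hc5⟩ := h3
  obtain ⟨c6, hc6⟩ := h3'
  obtain ⟨e, he⟩ := F.l17
  obtain ⟨c3, hc3⟩ := theta_dvd_sub_s q p'.1
  obtain ⟨c4, hc4⟩ := theta_dvd_sub_s q p'.2
  obtain ⟨c7, hc7⟩ := theta_dvd_sub_s q c6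
  push_cast at hw2
  have hsc6 : q.s p'.1 + 17 * q.s p'.2 = -(q.t * q.s c6) := by
    have := congrArg q.s hc6
    rw [map_add, map_mul, map_ofNat, map_mul, q.s_t] at this
    rw [this]; ring
  -- the first coordinate
  have hdiv1 : q.t ∣ z + 17 * w := by
    apply cancel (F.l_cop)
    apply cancel (F.hcop j)
    refine ⟨F.l * c5 * p'.1 - 17 * F.l * p.2 * c6 - 17 * p.2 * c4
      - 17 * p.2 * p'.2 * (q.t * e), ?_⟩
    linear_combination (F.l : 𝓞 K) * hz2 + 17 * hw2 + (F.l * p'.1) * hc5 - (17 * F.l * p.2) * hc6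
      - 17 * p.2 * hc4 + (17 * p.2 * p'.2) * he
  obtain ⟨r1, hr1⟩ := hdiv1
  have hr1X : r1 ∈ F.X i k := by
    apply mem_div_theta q (F.hX i k) (F.cop_ij i k)
    rw [← hr1]
    exact (F.X i k).add_mem hz ((F.X i k).mul_mem_left _ hw)
  have hdiv2 : q.t ∣ y1 - y2 := by
    apply cancel (F.hcop j)
    refine ⟨c5 * p'.2 + p.2 * c3 - p.2 * c6, ?_⟩
    linear_combination hy12 - hy22 + p'.2 * hc5 + p.2 * hc3 - p.2 * hc6
  obtain ⟨r2, hr2⟩ := hdiv2
  have hr2Y : r2 ∈ F.Y i k := by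
    apply mem_div_theta q (F.hY i k) (F.cop_lij i k)
    rw [← hr2]
    exact (F.Y i k).sub_mem hy1 hy2
  have ht := q.t_ne_zero
  refine ⟨(r1, r2), ⟨hr1X, hr2Y, ?_⟩, ?_, ?_⟩
  · show q.t ∣ r1 + 17 * r2
    apply cancel (F.l_cop)
    apply cancel (F.hcop j)
    refine ⟨F.l * c5 * c6 - 17 * F.l * p.2 * c7 - 17 * e * p.2 * q.s p'.2, ?_⟩
    apply mul_left_cancel₀ ht
    linear_combination (-(F.na j * F.l : 𝓞 K)) * hr1 + (F.l : 𝓞 K) * hz2 + 17 * hw2
      - (17 * F.l * F.na j : 𝓞 K) * hr2 + (17 * F.l : 𝓞 K) * hy12 - (17 * F.l : 𝓞 K) * hy22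
      + (F.l * p'.1 + 17 * F.l * p'.2) * hc5 + F.l * (q.t * c5 - 17 * p.2) * hc6
      - (17 * F.l * p.2) * hsc6 - (17 * F.l * q.t * p.2) * hc7 + (17 * p.2 * q.s p'.2) * he
  · show q.t * (F.na j * F.l) * r1 = _
    linear_combination (-(F.na j * F.l : 𝓞 K)) * hr1 + (F.l : 𝓞 K) * hz2 + 17 * hw2
  · show q.t * F.na j * r2 = _
    linear_combination (-(F.na j : 𝓞 K)) * hr2 + hy12 - hy22

end Fam

end Vale.Agent.P014.H70
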