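import Vale.Agent.P014.H70.Fam

/-!
# The system of lattices attached to a family of ideals
-/

open NumberField

set_option linter.unusedSimpArgs false

namespace Vale.Agent.P014.H70

open Vale.Agent.P017.H185

variable {K : Type*} [Field K] [NumberField K] {n : ℕ}

theorem nm_div (q : QF K n) {u v : K} (hv : v ≠ 0) : q.nm (u / v) = q.nm u / q.nm v := by
  have h : q.nm v ≠ 0 := fun h => hv (q.nm_eq_zero h)
  rw [eq_div_iff h, ← q.nm_mul, div_mul_cancel₀ _ hv]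

theorem nm_theta (q : QF K n) : q.nm q.θ = n := by
  have := q.nm_coords 0 1
  simpa using this

theorem nm_nat (q : QF K n) (a : ℕ) : q.nm (a : K) = (a : ℚ) ^ 2 := by
  have := q.nm_rat (a : ℚ)
  push_cast at this
  exact this

namespace Fam

variable {q : QF K n} {J : Type*} (F : Fam q J)

instance nz : NeZero (17 * F.l) := ⟨by have := F.hl; omega⟩

/-- the quaternion algebra -/
abbrev Q : Type _ := BB q (17 * F.l)

theorem theta_ne (q : QF K n) : q.θ ≠ 0 := by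
  intro h
  apply q.t_ne_zero
  apply QF.ext'
  rw [QF.coe_t, h, map_zero]

theorem na_ne (i : J) : (F.na i : K) ≠ 0 := by exact_mod_cast (F.hna i).ne'

theorem l_ne : (F.l : K) ≠ 0 := by exact_mod_cast F.hl.ne'

/-- the embedding in the quaternion algebra -/
noncomputable def emb (i : J) : 𝓞 K × 𝓞 K →+ F.Q where
  toFun p := BB.mk ((algebraMap (𝓞 K) K) p.1 / (q.θ * F.na i)) ((algebraMap (𝓞 K) K) p.2 / (q.θ * F.l * F.na i))
  map_zero' := by
    apply BB.ext'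
    · simp
    · simp
  map_add' p p' := by
    apply BB.ext'
    · simp only [BB.mk_x, BB.add_x, Prod.fst_add, map_add]; ring
    · simp only [BB.mk_y, BB.add_y, Prod.snd_add, map_add]; ring

theorem emb_x (i : J) (p : 𝓞 K × 𝓞 K) : (F.emb i p).x = (algebraMap (𝓞 K) K) p.1 / (q.θ * F.na i) := rfl

theorem emb_y (i : J) (p : 𝓞 K × 𝓞 K) : (F.emb i p).y = (algebraMap (𝓞 K) K) p.2 / (q.θ * F.l * F.na i) := rfl

theorem emb_inj (i : J) : Function.Injective (F.emb i) := by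
  intro p p' h
  have hθ := theta_ne q
  have ha := F.na_ne i
  have hl := F.l_ne
  have h1 := congrArg BB.x h
  have h2 := congrArg BB.y h
  rw [emb_x, emb_x] at h1
  rw [emb_y, emb_y] at h2
  refine Prod.ext (QF.ext' ?_) (QF.ext' ?_)
  · field_simp at h1
    exact h1
  · field_simp at h2
    exact h2

/-- the lattice -/
noncomputable def I (i j : J) : AddSubgroup F.Q := (F.P i j).map (F.emb i)

theorem mem_I {i j : J} {v : F.Q} : v ∈ F.I i j ↔ ∃ p ∈ F.P i j, F.emb i p = v :=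
  AddSubgroup.mem_map

theorem emb_mem {i j : J} {p : 𝓞 K × 𝓞 K} : F.emb i p ∈ F.I i j ↔ p ∈ F.P i j := by
  rw [mem_I]
  constructor
  · rintro ⟨p', hp', h⟩
    rwa [← F.emb_inj i h]
  · intro h
    exact ⟨p, h, rfl⟩

theorem I_mul {i j k : J} {u v : F.Q} (hu : u ∈ F.I i j) (hv : v ∈ F.I j k) : u * v ∈ F.I i k := by
  rw [mem_I] at hu hv
  obtain ⟨p, hp, rfl⟩ := hu
  obtain ⟨p', hp', rfl⟩ := hv
  obtain ⟨r, hr, h1, h2⟩ := F.comp hp hp'
  have hθ := theta_ne q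
  have ha := F.na_ne i
  have hb := F.na_ne j
  have hl := F.l_ne
  rw [mem_I]
  refine ⟨r, hr, ?_⟩
  have k1 := congrArg (algebraMap (𝓞 K) K) h1
  have k2 := congrArg (algebraMap (𝓞 K) K) h2
  simp only [map_add, map_sub, map_mul, map_natCast, map_ofNat, QF.coe_t, QF.coe_s] at k1 k2
  apply BB.ext'
  · rw [BB.mul_x, emb_x, emb_x, emb_x, emb_y, emb_y]
    simp only [map_div₀, map_mul, map_natCast, q.hσ]
    push_cast
    field_simp
    linear_combination k1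
  · rw [BB.mul_y, emb_x, emb_x, emb_y, emb_y, emb_y]
    simp only [map_div₀, map_mul, map_natCast, q.hσ]
    field_simp
    linear_combination k2

theorem conj_mem' {i j : J} {p : 𝓞 K × 𝓞 K} (hp : p ∈ F.P i j) : (-(q.s p.1), -p.2) ∈ F.P j i := by
  obtain ⟨h1, h2, h3⟩ := hp
  refine ⟨?_, ?_, ?_⟩
  · have h4 := Ideal.mem_map_of_mem q.s h1
    have e : (F.X i j).map q.s = F.X j i := by
      unfold X
      rw [Ideal.map_mul, map_map_s, mul_comm]
    rw [e] at h4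
    exact (F.X j i).neg_mem h4
  · have e : F.Y i j = F.Y j i := by
      unfold Y
      ring
    rw [← e]
    exact (F.Y i j).neg_mem h2
  · obtain ⟨c1, hc1⟩ := h3
    obtain ⟨c2, hc2⟩ := theta_dvd_sub_s q p.1
    show q.t ∣ -(q.s p.1) + 17 * (-p.2)
    refine ⟨c2 - c1, ?_⟩
    linear_combination hc2 - hc1

theorem I_conj {i j : J} {v : F.Q} (hv : v ∈ F.I i j) :
    algebraMap ℚ F.Q ((F.na i : ℚ) / (F.na j : ℚ)) * star v ∈ F.I j i := by
  rw [mem_I] at hv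
  obtain ⟨p, hp, rfl⟩ := hv
  have hθ := theta_ne q
  have ha := F.na_ne i
  have hb := F.na_ne j
  have hl := F.l_ne
  rw [mem_I]
  refine ⟨_, F.conj_mem' hp, ?_⟩
  rw [BB.algebraMap_eq]
  apply BB.ext'
  · rw [BB.mul_x, BB.mk_x, BB.mk_y, BB.star_x, emb_x, emb_x]
    simp only [map_div₀, map_mul, map_natCast, q.hσ, map_neg, QF.coe_s]
    push_cast
    field_simp
    ring
  · rw [BB.mul_y, BB.mk_x, BB.mk_y, BB.star_y, emb_y, emb_y]
    simp only [map_div₀, map_mul, map_natCast, q.hσ, map_neg, QF.coe_s]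
    push_cast
    field_simp
    ring

theorem I_one (i : J) : (1 : F.Q) ∈ F.I i i := by
  have hθ := theta_ne q
  have ha := F.na_ne i
  rw [mem_I]
  refine ⟨(q.t * F.na i, 0), ⟨?_, (F.Y i i).zero_mem, ?_⟩, ?_⟩
  · have h := F.hA i
    unfold QF.HasN at h
    have h1 : (F.na i : 𝓞 K) ∈ F.X i i := by
      unfold X
      rw [mul_comm, h]
      exact Ideal.mem_span_singleton_self _
    exact (F.X i i).mul_mem_left _ h1
  · exact ⟨F.na i, by simp⟩
  · apply BB.ext'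
    · rw [emb_x, BB.one_x]
      simp only [map_mul, map_natCast, QF.coe_t]
      field_simp
    · rw [emb_y, BB.one_y]
      simp

/-- the norm form -/
theorem kn (i j : J) (p : 𝓞 K × 𝓞 K) : ((F.na i : ℚ) / (F.na j : ℚ)) * QA.nr (F.emb i p) =
    (F.l * q.N p.1 + 17 * q.N p.2) / (n * F.l * F.na i * F.na j) := by
  have hθ := theta_ne q
  have ha := F.na_ne i
  have hb := F.na_ne j
  have hl := F.l_ne
  have ha' : (F.na i : ℚ) ≠ 0 := by exact_mod_cast (F.hna i).ne'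
  have hb' : (F.na j : ℚ) ≠ 0 := by exact_mod_cast (F.hna j).ne'
  have hl' : (F.l : ℚ) ≠ 0 := by exact_mod_cast F.hl.ne'
  have hn' : (n : ℚ) ≠ 0 := by exact_mod_cast q.d_pos.ne'
  rw [BB.nr_def, emb_x, emb_y, nm_div q (mul_ne_zero hθ ha),
    nm_div q (mul_ne_zero (mul_ne_zero hθ hl) ha), q.nm_mul, q.nm_mul, q.nm_mul, nm_theta, nm_nat,
    nm_nat, ← q.N_eq, ← q.N_eq]
  push_cast
  field_simp

theorem kn_iff {i j : J} {p : 𝓞 K × 𝓞 K} (m : ℕ) :
    ((F.na i : ℚ) / (F.na j : ℚ)) * QA.nr (F.emb i p) = m ↔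
      F.l * q.N p.1 + 17 * q.N p.2 = n * F.l * F.na i * F.na j * m := by
  have ha' : (F.na i : ℚ) ≠ 0 := by exact_mod_cast (F.hna i).ne'
  have hb' : (F.na j : ℚ) ≠ 0 := by exact_mod_cast (F.hna j).ne'
  have hl' : (F.l : ℚ) ≠ 0 := by exact_mod_cast F.hl.ne'
  have hn' : (n : ℚ) ≠ 0 := by exact_mod_cast q.d_pos.ne'
  rw [kn, div_eq_iff (by positivity)]
  constructor
  · intro h
    have : ((F.l * q.N p.1 + 17 * q.N p.2 : ℕ) : ℚ) = ((n * F.l * F.na i * F.na j * m : ℕ) : ℚ) := by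
      push_cast
      linarith
    exact_mod_cast this
  · intro h
    have : ((F.l * q.N p.1 + 17 * q.N p.2 : ℕ) : ℚ) = ((n * F.l * F.na i * F.na j * m : ℕ) : ℚ) := by
      rw [h]
    push_cast at this
    linarith

theorem mem_RN {i j : J} {p : 𝓞 K × 𝓞 K} (m : ℕ) : p ∈ (F.E i j).RN m ↔ p ∈ F.P i j ∧
    F.l * q.N p.1 + 17 * q.N p.2 = n * F.l * F.na i * F.na j * m := by
  have ha := F.hna i
  have hb := F.hna j
  unfold Dat.RN
  show (p.1 ∈ F.X i j ∧ p.2 ∈ F.Y i j ∧ q.t ∣ p.1 + 17 * p.2 ∧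
    (F.l * F.na i * F.na j) * q.N p.1 + 17 * ((F.na i * F.na j) * q.N p.2) =
      n * (F.na i * F.na j) * (F.l * F.na i * F.na j) * m) ↔ _
  rw [mem_P]
  have e : ((F.l * F.na i * F.na j) * q.N p.1 + 17 * ((F.na i * F.na j) * q.N p.2) =
      n * (F.na i * F.na j) * (F.l * F.na i * F.na j) * m) ↔
      F.l * q.N p.1 + 17 * q.N p.2 = n * F.l * F.na i * F.na j * m := by
    constructor
    · intro h
      apply Nat.eq_of_mul_eq_mul_left (Nat.mul_pos ha hb)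
      linarith
    · intro h
      calc (F.l * F.na i * F.na j) * q.N p.1 + 17 * ((F.na i * F.na j) * q.N p.2) =
          F.na i * F.na j * (F.l * q.N p.1 + 17 * q.N p.2) := by ring
        _ = _ := by rw [h]; ring
  rw [e]
  tauto

/-- points of norm `m` -/
theorem equiv_RN (i j : J) (m : ℕ) : Nonempty ((F.E i j).RN m ≃
    {v : F.Q // v ∈ F.I i j ∧ ((F.na i : ℚ) / (F.na j : ℚ)) * QA.nr v = m}) := by
  refine ⟨Equiv.ofBijective (fun p => ⟨F.emb i p.1, ?_, ?_⟩) ⟨?_, ?_⟩⟩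
  · exact F.emb_mem.mpr ((F.mem_RN m).mp p.2).1
  · exact (F.kn_iff m).mpr ((F.mem_RN m).mp p.2).2
  · intro p p' h
    exact Subtype.ext (F.emb_inj i (congrArg Subtype.val h))
  · rintro ⟨v, hv, hn⟩
    rw [mem_I] at hv
    obtain ⟨p, hp, rfl⟩ := hv
    exact ⟨⟨p, (F.mem_RN m).mpr ⟨hp, (F.kn_iff m).mp hn⟩⟩, rfl⟩

theorem fin' (i j : J) (m : ℕ) :
    Finite {v : F.Q // v ∈ F.I i j ∧ ((F.na i : ℚ) / (F.na j : ℚ)) * QA.nr v = m} := by
  obtain ⟨e⟩ := F.equiv_RN i j m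
  have := (F.E i j).RN_fin m
  exact Finite.of_equiv _ e

theorem card' (i j : J) (m : ℕ) :
    Nat.card {v : F.Q // v ∈ F.I i j ∧ ((F.na i : ℚ) / (F.na j : ℚ)) * QA.nr v = m} =
      Nat.card ((F.E i j).RN m) := by
  obtain ⟨e⟩ := F.equiv_RN i j m
  exact (Nat.card_congr e).symm

/-- integrality of the form -/
theorem int_form {i j : J} {p : 𝓞 K × 𝓞 K} (hp : p ∈ F.P i j) :
    ∃ k : ℤ, (F.l : ℤ) * q.N p.1 + 17 * q.N p.2 = n * F.l * F.na i * F.na j * k := by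
  obtain ⟨h1, h2, h3⟩ := hp
  have hL : ((p.1, 17 * p.2) : 𝓞 K × 𝓞 K) ∈ (F.E i j).L' := ⟨h1, ⟨p.2, h2, rfl⟩, h3⟩
  have h4 := (F.E i j).qf_spec ((F.E i j).L_le hL)
  obtain ⟨k, hk⟩ := (F.E i j).qf_17 hL
  rw [hk] at h4
  have h5 : (q.N (17 * p.2) : ℤ) = 289 * q.N p.2 := by
    have := Dat.N_int_mul (q := q) 17 p.2
    push_cast at this
    rw [this]
  rw [h5] at h4
  have ea : (F.E i j).a = F.na i * F.na j := rfl
  have eb : (F.E i j).b = F.l * F.na i * F.na j := rfl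
  rw [ea, eb] at h4
  push_cast at h4
  refine ⟨k, ?_⟩
  have ha : (F.na i : ℤ) ≠ 0 := by exact_mod_cast (F.hna i).ne'
  have hb : (F.na j : ℤ) ≠ 0 := by exact_mod_cast (F.hna j).ne'
  apply mul_left_cancel₀ (mul_ne_zero (mul_ne_zero (by norm_num : (17 : ℤ) ≠ 0) ha) hb)
  linear_combination -h4

theorem I_int {i j : J} {v : F.Q} (hv : v ∈ F.I i j) :
    ∃ m : ℤ, ((F.na i : ℚ) / (F.na j : ℚ)) * QA.nr v = m := by
  rw [mem_I] at hv
  obtain ⟨p, hp, rfl⟩ := hv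
  obtain ⟨k, hk⟩ := F.int_form hp
  refine ⟨k, ?_⟩
  have ha' : (F.na i : ℚ) ≠ 0 := by exact_mod_cast (F.hna i).ne'
  have hb' : (F.na j : ℚ) ≠ 0 := by exact_mod_cast (F.hna j).ne'
  have hl' : (F.l : ℚ) ≠ 0 := by exact_mod_cast F.hl.ne'
  have hn' : (n : ℚ) ≠ 0 := by exact_mod_cast q.d_pos.ne'
  rw [kn, div_eq_iff (by positivity)]
  have : (((F.l : ℤ) * q.N p.1 + 17 * q.N p.2 : ℤ) : ℚ) = ((n * F.l * F.na i * F.na j * k : ℤ) : ℚ) := by
    rw [hk]
  push_cast at this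
  linarith

end Fam

end Vale.Agent.P014.H70
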