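import Vale.Agent.P014.H70.Ide

/-!
# Lattices of level 17 from pairs of ideals of `ℚ(√-n)`
-/

open NumberField Complex
open scoped Classical

namespace Vale.Agent.P014.H70

open Vale.Agent.P017.H185

variable {K : Type*} [Field K] [NumberField K] {n : ℕ}

/-- data for a lattice -/
structure Dat (q : QF K n) where
  X : Ideal (𝓞 K)
  Y : Ideal (𝓞 K)
  a : ℕ
  b : ℕ
  ha : 0 < a
  hb : 0 < b
  hX : q.HasN X a
  hY : q.HasN Y b
  hn4 : n % 4 = 3
  hn17 : ¬ IsSquare ((n : ℕ) : ZMod 17)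
  han : Nat.Coprime a n
  hbn : Nat.Coprime b n
  hb17 : ¬ 17 ∣ b
  hab : n ∣ a + 17 * b

namespace Dat

variable {q : QF K n} (E : Dat q)

/-- coordinates of a pair -/
noncomputable def vH (q : QF K n) : 𝓞 K × 𝓞 K →+ V := (crdH q).prodMap (crdH q)

theorem vH_apply (p : 𝓞 K × 𝓞 K) : vH q p = (crd q p.1, crd q p.2) := rfl

theorem vH_inj : Function.Injective (vH q) := by
  intro p p' h
  rw [vH_apply, vH_apply] at h
  have h1 := congrArg Prod.fst h
  have h2 := congrArg Prod.snd h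
  exact Prod.ext (crd_inj q h1) (crd_inj q h2)

/-- the big lattice -/
def D' : AddSubgroup (𝓞 K × 𝓞 K) where
  carrier := {p | p.1 ∈ E.X ∧ p.2 ∈ E.Y ∧ q.t ∣ p.1 + p.2}
  zero_mem' := ⟨E.X.zero_mem, E.Y.zero_mem, by simp⟩
  add_mem' := by
    rintro p p' ⟨h1, h2, h3⟩ ⟨h1', h2', h3'⟩
    refine ⟨E.X.add_mem h1 h1', E.Y.add_mem h2 h2', ?_⟩
    have := dvd_add h3 h3'
    rwa [add_add_add_comm] at this
  neg_mem' := by
    rintro p ⟨h1, h2, h3⟩
    refine ⟨E.X.neg_mem h1, E.Y.neg_mem h2, ?_⟩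
    have := (dvd_neg (a := q.t)).mpr h3
    rwa [neg_add] at this

/-- the small lattice -/
def L' : AddSubgroup (𝓞 K × 𝓞 K) where
  carrier := {p | p.1 ∈ E.X ∧ (∃ y ∈ E.Y, p.2 = 17 * y) ∧ q.t ∣ p.1 + p.2}
  zero_mem' := ⟨E.X.zero_mem, ⟨0, E.Y.zero_mem, by simp⟩, by simp⟩
  add_mem' := by
    rintro p p' ⟨h1, ⟨y, hy, h2⟩, h3⟩ ⟨h1', ⟨y', hy', h2'⟩, h3'⟩
    refine ⟨E.X.add_mem h1 h1', ⟨y + y', E.Y.add_mem hy hy', ?_⟩, ?_⟩
    · show p.2 + p'.2 = _
      rw [h2, h2']; ring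
    · have := dvd_add h3 h3'
      rwa [add_add_add_comm] at this
  neg_mem' := by
    rintro p ⟨h1, ⟨y, hy, h2⟩, h3⟩
    refine ⟨E.X.neg_mem h1, ⟨-y, E.Y.neg_mem hy, ?_⟩, ?_⟩
    · show -p.2 = _
      rw [h2]; ring
    · have := (dvd_neg (a := q.t)).mpr h3
      rwa [neg_add] at this

theorem mem_D' {p : 𝓞 K × 𝓞 K} : p ∈ E.D' ↔ p.1 ∈ E.X ∧ p.2 ∈ E.Y ∧ q.t ∣ p.1 + p.2 := Iff.rfl

theorem mem_L' {p : 𝓞 K × 𝓞 K} :
    p ∈ E.L' ↔ p.1 ∈ E.X ∧ (∃ y ∈ E.Y, p.2 = 17 * y) ∧ q.t ∣ p.1 + p.2 := Iff.rfl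

/-- the weights -/
def l : V := ((17 * E.b, 17 * n * E.b), (E.a, n * E.a))

/-- the modulus -/
def M : ℕ := 34 * n * E.a * E.b

theorem n_pos (q : QF K n) : 0 < n := q.d_pos

theorem ip_eq (p p' : 𝓞 K × 𝓞 K) : ip (vH q p) (E.l * vH q p') =
    34 * E.b * tr q (p.1 * q.s p'.1) + 2 * E.a * tr q (p.2 * q.s p'.2) := by
  have h1 := two_tr q p.1 p'.1
  have h2 := two_tr q p.2 p'.2
  unfold ip l
  simp only [vH_apply, Prod.fst_mul, Prod.snd_mul]
  linear_combination (-17 * (E.b : ℤ)) * h1 - (E.a : ℤ) * h2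

/-- cancellation of `θ` modulo `a` prime to `n` -/
theorem theta_cancel {a : ℕ} (h : Nat.Coprime a n) {z : 𝓞 K} (hz : q.t ∣ (a : 𝓞 K) * z) :
    q.t ∣ z := by
  have h1 := Nat.isCoprime_iff_coprime.mpr h
  obtain ⟨u, v, huv⟩ := h1
  have h2 : z = (u : 𝓞 K) * ((a : 𝓞 K) * z) + (v * z) * (n : 𝓞 K) := by
    have : ((u * a + v * n : ℤ) : 𝓞 K) = 1 := by rw [huv]; simp
    push_cast at this
    linear_combination (-z) * this
  rw [h2]
  exact dvd_add (Dvd.dvd.mul_left hz _) (Dvd.dvd.mul_left (theta_dvd_n q) _)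

theorem tr_mod (z : 𝓞 K) : q.t ∣ (tr q z : 𝓞 K) - 2 * z := by
  rw [← add_s]
  have h := theta_dvd_sub_s q z
  have e : z + q.s z - 2 * z = -(z - q.s z) := by ring
  rw [e]
  exact (dvd_neg).mpr h

theorem s_mod (z : 𝓞 K) : q.t ∣ q.s z - z := by
  have h := theta_dvd_sub_s q z
  have e : q.s z - z = -(z - q.s z) := by ring
  rw [e]
  exact (dvd_neg).mpr h

theorem tr_natmul (a : ℕ) (z : 𝓞 K) : tr q ((a : 𝓞 K) * z) = a * tr q z := by
  have := tr_int q a z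
  push_cast at this
  exact this

/-- `17 b + a ≡ 0` modulo `θ` -/
theorem hab' : q.t ∣ 17 * (E.b : 𝓞 K) + (E.a : 𝓞 K) := by
  obtain ⟨k, hk⟩ := E.hab
  have : 17 * (E.b : 𝓞 K) + (E.a : 𝓞 K) = (n : 𝓞 K) * k := by
    have : ((E.a + 17 * E.b : ℕ) : 𝓞 K) = ((n * k : ℕ) : 𝓞 K) := by rw [hk]
    push_cast at this
    linear_combination this
  rw [this]
  exact Dvd.dvd.mul_right (theta_dvd_n q) _

/-- integrality of the pairing -/
theorem pair_int {p p' : 𝓞 K × 𝓞 K} (hp : p ∈ E.L') (hp' : p' ∈ E.D') :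
    (E.M : ℤ) ∣ ip (vH q p) (E.l * vH q p') := by
  obtain ⟨h1, ⟨y, hy, h2⟩, h3⟩ := hp
  obtain ⟨h1', h2', h3'⟩ := hp'
  obtain ⟨z1, hz1⟩ := mul_s_mem q E.hX h1 h1'
  obtain ⟨z2, hz2⟩ := mul_s_mem q E.hY hy h2'
  have e0 : p.2 * q.s p'.2 = 17 * (y * q.s p'.2) := by rw [h2]; ring
  rw [ip_eq, e0, hz1, hz2]
  have e1 : tr q ((E.a : 𝓞 K) * z1) = E.a * tr q z1 := tr_natmul _ _
  have e2 : tr q (17 * ((E.b : 𝓞 K) * z2)) = 17 * (E.b * tr q z2) := by
    have := tr_natmul (q := q) 17 ((E.b : 𝓞 K) * z2)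
    push_cast at this
    rw [this, tr_natmul]
  rw [e1, e2]
  -- `n ∣ tr z1 + tr z2`
  have key : (n : ℤ) ∣ tr q z1 + tr q z2 := by
    apply theta_dvd_int q
    apply theta_cancel E.han
    -- modulo θ
    have m1 := tr_mod (q := q) z1
    have m2 := tr_mod (q := q) z2
    have m3 := s_mod (q := q) p'.1
    have m4 := s_mod (q := q) p'.2
    rw [h2] at h3
    have hab := E.hab'
    obtain ⟨c1, hc1⟩ := m1
    obtain ⟨c2, hc2⟩ := m2
    obtain ⟨c3, hc3⟩ := m3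
    obtain ⟨c4, hc4⟩ := m4
    obtain ⟨c5, hc5⟩ := h3
    obtain ⟨c6, hc6⟩ := h3'
    obtain ⟨c7, hc7⟩ := hab
    push_cast
    refine ⟨E.a * c1 + E.a * c2 + 2 * c3 * p.1 + 2 * c7 * z2 - 34 * y * c4 - 34 * y * c6
      + 2 * c5 * p'.1, ?_⟩
    linear_combination (E.a : 𝓞 K) * hc1 + (E.a : 𝓞 K) * hc2 - 2 * hz1 + 2 * p.1 * hc3
      + 34 * hz2 - 34 * y * hc4 + 2 * z2 * hc7 + 2 * p'.1 * hc5 - 34 * y * hc6
  obtain ⟨k, hk⟩ := key
  refine ⟨k, ?_⟩
  unfold M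
  push_cast
  linear_combination (34 * (E.a : ℤ) * E.b) * hk

/-- the element of `K` representing a functional -/
noncomputable def fn (q : QF K n) (w : ℤ × ℤ) : K := w.1 - (w.2 / n : K) * q.θ

theorem fn_spec (w : ℤ × ℤ) (x : 𝓞 K) :
    (((crd q x).1 * w.1 + (crd q x).2 * w.2 : ℤ) : K) = fn q w * (algebraMap (𝓞 K) K) x + q.σ (fn q w * (algebraMap (𝓞 K) K) x) := by
  have hn : (n : K) ≠ 0 := by exact_mod_cast (n_pos q).ne'
  have h1 := crd_spec q x
  have h2 := congrArg q.σ h1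
  rw [map_mul, map_add, map_mul, q.hσ] at h2
  simp only [map_intCast, map_ofNat] at h2
  have h3 : q.σ (fn q w) = w.1 + (w.2 / n : K) * q.θ := by
    unfold fn
    rw [map_sub, map_mul, q.hσ, map_div₀]
    simp
  rw [map_mul, h3]
  unfold fn
  have h4 := q.hθ
  apply mul_left_cancel₀ (two_ne_zero (α := K))
  push_cast
  have e1 : (algebraMap (𝓞 K) K) x = (((crd q x).1 : K) + (crd q x).2 * q.θ) / 2 := by rw [← h1]; ring
  have e2 : q.σ ((algebraMap (𝓞 K) K) x) = (((crd q x).1 : K) + (crd q x).2 * -q.θ) / 2 := by rw [← h2]; ring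
  rw [e2, e1]
  field_simp
  linear_combination (2 * (w.2 : K) * (crd q x).2) * h4

theorem ip_fn (w : V) (p : 𝓞 K × 𝓞 K) : ((ip (vH q p) w : ℤ) : K) =
    (fn q w.1 * (algebraMap (𝓞 K) K) p.1 + q.σ (fn q w.1 * (algebraMap (𝓞 K) K) p.1)) + (fn q w.2 * (algebraMap (𝓞 K) K) p.2 + q.σ (fn q w.2 * (algebraMap (𝓞 K) K) p.2)) := by
  rw [← fn_spec, ← fn_spec]
  unfold ip
  simp only [vH_apply]
  push_cast
  ring

theorem fn_inj {w w' : ℤ × ℤ} (h : fn q w = fn q w') : w = w' := by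
  have hn : (n : ℚ) ≠ 0 := by exact_mod_cast (n_pos q).ne'
  unfold fn at h
  have h1 : ((w.1 - w'.1 : ℚ) : K) + ((w'.2 / n - w.2 / n : ℚ) : K) * q.θ = 0 := by
    push_cast
    linear_combination h
  obtain ⟨h2, h3⟩ := q.uniq h1
  have h4 : (w'.2 : ℚ) = w.2 := by
    field_simp at h3
    linarith
  have h5 : (w.1 : ℚ) = w'.1 := by linarith
  exact Prod.ext (by exact_mod_cast h5) (by exact_mod_cast h4.symm)

theorem fn_smul (c : ℤ) (x : 𝓞 K) : fn q (c * (crd q x).1, n * c * (crd q x).2) =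
    2 * c * q.σ ((algebraMap (𝓞 K) K) x) := by
  have hn : (n : K) ≠ 0 := by exact_mod_cast (n_pos q).ne'
  have h1 := crd_spec q x
  have h2 := congrArg q.σ h1
  rw [map_mul, map_add, map_mul, q.hσ] at h2
  simp only [map_intCast, map_ofNat] at h2
  unfold fn
  push_cast
  have e : ((n : K) * c * (crd q x).2 / n) = c * (crd q x).2 := by field_simp
  rw [e]
  linear_combination (-(c : K)) * h2

theorem dual {w : V} (h : ∀ p ∈ E.L', (E.M : ℤ) ∣ ip (vH q p) w) :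
    ∃ p ∈ E.D', w = E.l * vH q p := by
  have hn : (n : K) ≠ 0 := by exact_mod_cast (n_pos q).ne'
  have ha : (E.a : K) ≠ 0 := by exact_mod_cast E.ha.ne'
  have hb : (E.b : K) ≠ 0 := by exact_mod_cast E.hb.ne'
  have hθ2 := q.hθ
  set α := fn q w.1 with hα
  set β := fn q w.2 with hβ
  -- first component
  obtain ⟨y1, hy1, hy1'⟩ := dual_ideal q E.hn4 E.hX (w := q.θ * α / (34 * n * E.a * E.b)) (by
    intro x hx
    obtain ⟨k, hk⟩ := h (q.t * x, 0) ⟨E.X.mul_mem_left _ hx, ⟨0, E.Y.zero_mem, by simp⟩, by simp⟩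
    refine ⟨k, ?_⟩
    have h1 := ip_fn (q := q) w (q.t * x, 0)
    rw [hk] at h1
    simp only [map_zero, mul_zero, add_zero, map_mul, QF.coe_t] at h1
    unfold M at h1
    push_cast at h1
    simp only [map_mul, map_div₀, map_natCast, map_ofNat]
    field_simp
    rw [← hα] at h1
    linear_combination -h1)
  obtain ⟨y2, hy2, hy2'⟩ := dual_ideal q E.hn4 E.hY (w := q.θ * β / (2 * n * E.a * E.b)) (by
    intro y hy
    obtain ⟨k, hk⟩ := h (0, 17 * (q.t * y)) ⟨E.X.zero_mem, ⟨q.t * y, E.Y.mul_mem_left _ hy, rfl⟩,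
      by
        simp only [zero_add]
        exact ⟨17 * y, by ring⟩⟩
    refine ⟨k, ?_⟩
    have h1 := ip_fn (q := q) w (0, 17 * (q.t * y))
    rw [hk] at h1
    simp only [map_zero, mul_zero, zero_add, map_mul, QF.coe_t, map_ofNat] at h1
    unfold M at h1
    push_cast at h1
    simp only [map_mul, map_div₀, map_natCast, map_ofNat]
    field_simp
    rw [← hβ] at h1
    linear_combination (-1 / 17 : K) * h1)
  rw [mem_map_iff] at hy1 hy2
  have e1 : α = 2 * (17 * E.b) * q.σ ((algebraMap (𝓞 K) K) (-(q.s y1))) := by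
    rw [map_neg, QF.coe_s, map_neg, q.σσ, hy1']
    field_simp
    linear_combination (34 * α) * hθ2
  have e2 : β = 2 * E.a * q.σ ((algebraMap (𝓞 K) K) (-(q.s y2))) := by
    rw [map_neg, QF.coe_s, map_neg, q.σσ, hy2']
    field_simp
    linear_combination β * hθ2
  have hw1 : w.1 = (17 * E.b * (crd q (-(q.s y1))).1, n * (17 * E.b) * (crd q (-(q.s y1))).2) := by
    apply fn_inj (q := q)
    have := fn_smul (q := q) (17 * E.b) (-(q.s y1))
    rw [this, ← hα, e1]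
    push_cast
    ring
  have hw2 : w.2 = (E.a * (crd q (-(q.s y2))).1, n * E.a * (crd q (-(q.s y2))).2) := by
    apply fn_inj (q := q)
    have := fn_smul (q := q) (E.a) (-(q.s y2))
    rw [this, ← hβ, e2]
    push_cast
    ring
  refine ⟨(-(q.s y1), -(q.s y2)), ⟨E.X.neg_mem hy1, E.Y.neg_mem hy2, ?_⟩, ?_⟩
  · -- the congruence
    obtain ⟨y3, hy3⟩ := dual_one q E.hn4 (w := (α - β) / (2 * n)) (by
      intro z
      have hmem : ((17 * E.a * E.b * z, -(17 * E.a * E.b * z)) : 𝓞 K × 𝓞 K) ∈ E.L' := by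
        refine ⟨?_, ⟨-(E.a * E.b * z), ?_, by ring⟩, by simp⟩
        · have := E.X.mul_mem_left (17 * E.b * z) (a_mem q E.hX)
          have e : 17 * (E.a : 𝓞 K) * E.b * z = 17 * E.b * z * E.a := by ring
          show 17 * (E.a : 𝓞 K) * E.b * z ∈ E.X
          rw [e]
          exact this
        · have := E.Y.mul_mem_left (-(E.a * z)) (a_mem q E.hY)
          have e : -((E.a : 𝓞 K) * E.b * z) = -(E.a * z) * E.b := by ring
          rw [e]
          exact this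
      obtain ⟨k, hk⟩ := h _ hmem
      refine ⟨k, ?_⟩
      have h1 := ip_fn (q := q) w (17 * E.a * E.b * z, -(17 * E.a * E.b * z))
      rw [hk] at h1
      simp only [map_mul, map_neg, map_natCast, map_ofNat] at h1
      unfold M at h1
      push_cast at h1
      rw [← hα, ← hβ] at h1
      simp only [map_mul, map_div₀, map_sub, map_natCast, map_ofNat]
      field_simp
      apply mul_left_cancel₀ (mul_ne_zero (mul_ne_zero (by norm_num : (17 : K) ≠ 0) ha) hb)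
      linear_combination -h1)
    have e3 : 17 * (E.b : 𝓞 K) * (-y1) - E.a * (-y2) = -(q.t * y3) := by
      apply QF.ext'
      simp only [map_sub, map_mul, map_neg, map_natCast, map_ofNat, QF.coe_t]
      rw [hy3, hy1', hy2']
      field_simp
      ring
    have e4 := congrArg q.s e3
    simp only [map_sub, map_mul, map_neg, map_natCast, map_ofNat, q.s_t] at e4
    obtain ⟨c7, hc7⟩ := E.hab'
    apply theta_cancel E.han
    refine ⟨-q.s y1 * c7 - q.s y3, ?_⟩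
    linear_combination (-q.s y1) * hc7 - e4
  · unfold l
    ext <;> simp only [vH_apply, Prod.fst_mul, Prod.snd_mul]
    · rw [hw1]
    · rw [hw1]; ring
    · rw [hw2]
    · rw [hw2]

end Dat

end Vale.Agent.P014.H70
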