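import Vale.Agent.P014.H70.Lat

/-!
# The inversion formulas of the eighteen theta functions
-/

open Complex Real
open scoped Classical

namespace Vale.Agent.P014.H70

theorem ip_comm_l (l c v : V) : ip c (l * v) = ip v (l * c) := by
  simp only [ip, Prod.fst_mul, Prod.snd_mul]; ring

theorem ip_add_right (u v w : V) : ip u (v + w) = ip u v + ip u w := by
  simp only [ip, Prod.fst_add, Prod.snd_add]; ring

theorem ip_zero_left (w : V) : ip 0 w = 0 := by simp [ip]

namespace Lat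

variable (A : Lat)

theorem q_add {c v : V} (hc : c ∈ A.D) (hv : v ∈ A.D) :
    (A.q (c + v) : ℝ) = A.q c + A.q v + 17 * A.B c v := by
  have hM := A.M_pos.ne'
  have h1 := A.hq _ (A.D.add_mem hc hv)
  have h2 := A.hq _ hc
  have h3 := A.hq _ hv
  have h4 : ip (c + v) (A.l * (c + v)) = ip c (A.l * c) + ip v (A.l * v) + 2 * ip c (A.l * v) := by
    rw [mul_add, ip_add_left, ip_add_right, ip_add_right, ip_comm_l A.l v c]; ring
  rw [h4] at h1
  have h5 : 2 * A.M * A.q (c + v) = 2 * A.M * A.q c + 2 * A.M * A.q v + 34 * ip c (A.l * v) := by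
    linarith
  have h6 : (2 * A.M * A.q (c + v) : ℝ) = 2 * A.M * A.q c + 2 * A.M * A.q v + 34 * ip c (A.l * v) := by
    exact_mod_cast h5
  unfold B
  field_simp
  linarith

theorem B_int {c v : V} (hc : c ∈ A.D) (hv : v ∈ A.L) : ∃ n : ℤ, A.B c v = n := by
  have hM := A.M_pos.ne'
  obtain ⟨k, hk⟩ := A.hint v hv c hc
  refine ⟨k, ?_⟩
  unfold B
  rw [ip_comm_l, hk]
  push_cast
  field_simp

theorem B_add_left (c u v : V) : A.B (c + u) v = A.B c v + A.B u v := by
  unfold B
  rw [ip_add_left]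
  push_cast
  ring

theorem B_smul_right (c v : V) (n : ℤ) : A.B c (n • v) = n * A.B c v := by
  have : ip c (A.l * n • v) = n * ip c (A.l * v) := by
    simp only [ip, Prod.fst_mul, Prod.snd_mul, Prod.smul_fst, Prod.smul_snd, smul_eq_mul]; ring
  unfold B
  rw [this]
  push_cast
  ring

theorem q_zsmul {v : V} (hv : v ∈ A.D) (n : ℤ) : A.q (n • v) = n ^ 2 * A.q v := by
  have hM : (A.M : ℤ) ≠ 0 := by exact_mod_cast A.hM.ne'
  have h1 := A.hq _ (A.D.zsmul_mem hv n)
  have h2 := A.hq _ hv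
  have h3 : ip (n • v) (A.l * n • v) = n ^ 2 * ip v (A.l * v) := by
    simp only [ip, Prod.fst_mul, Prod.snd_mul, Prod.smul_fst, Prod.smul_snd, smul_eq_mul]; ring
  rw [h3] at h1
  have h4 : (2 * (A.M : ℤ)) * A.q (n • v) = (2 * (A.M : ℤ)) * (n ^ 2 * A.q v) := by
    rw [h1]; linear_combination (-(n ^ 2)) * h2
  exact mul_left_cancel₀ (by positivity) h4

/-- invariance of the exponential of `a q / 17` -/
theorem ex_q_add {c v : V} (hc : c ∈ A.D) (hv : v ∈ A.L) (a : ℤ) :
    ex (a * A.q (c + v) / 17) = ex (a * A.q c / 17) := by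
  obtain ⟨n, hn⟩ := A.B_int hc hv
  obtain ⟨m, hm⟩ := A.hqL v hv
  have h := A.q_add hc (A.hLD hv)
  have : (a * A.q (c + v) / 17 : ℝ) = a * A.q c / 17 + ((a * m + a * n : ℤ) : ℝ) := by
    rw [h, hm, hn]
    push_cast
    ring
  rw [this, ex_add, ex_int, mul_one]

theorem exists_R {v : V} (hv : v ∈ A.D) : ∃ c ∈ A.R, v - c ∈ A.L := by
  obtain ⟨c, ⟨h1, h2⟩, -⟩ := A.hR v hv
  exact ⟨c, h1, h2⟩

theorem R_inj {c c' : V} (hc : c ∈ A.R) (hc' : c' ∈ A.R) (h : c - c' ∈ A.L) : c = c' := by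
  obtain ⟨d, -, h2⟩ := A.hR c (A.hRD c hc)
  rw [h2 c ⟨hc, by rw [sub_self]; exact A.L.zero_mem⟩, h2 c' ⟨hc', h⟩]

/-- translation invariance of sums over the representatives -/
theorem R_sum_add {φ : V → ℂ} (hφ : ∀ v ∈ A.D, ∀ w ∈ A.L, φ (v + w) = φ v) {u : V}
    (hu : u ∈ A.D) : ∑ c ∈ A.R, φ (c + u) = ∑ c ∈ A.R, φ c := by
  have hex : ∀ c ∈ A.R, ∃ d ∈ A.R, c + u - d ∈ A.L := fun c hc =>
    A.exists_R (A.D.add_mem (A.hRD c hc) hu)
  choose! f hf hf' using hex
  refine Finset.sum_bij (fun c _ => f c) (fun c hc => hf c hc) ?_ ?_ ?_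
  · intro c hc c' hc' h
    apply A.R_inj hc hc'
    have h1 := hf' c hc
    have h2 := hf' c' hc'
    rw [← h] at h2
    have := A.L.sub_mem h1 h2
    rwa [show c + u - f c - (c' + u - f c) = c - c' by abel] at this
  · intro d hd
    obtain ⟨c, hc, h⟩ := A.exists_R (A.D.sub_mem (A.hRD d hd) hu)
    refine ⟨c, hc, ?_⟩
    apply A.R_inj (hf c hc) hd
    have h1 := hf' c hc
    have := A.L.neg_mem (A.L.add_mem h1 h)
    rwa [show -(c + u - f c + (d - u - c)) = f c - d by abel] at this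
  · intro c hc
    have h1 := hf' c hc
    have h2 := hφ (f c) (A.hRD _ (hf c hc)) _ h1
    rw [show f c + (c + u - f c) = c + u by abel] at h2
    exact h2

/-- the theta series with weights `e(a q / 17)` -/
noncomputable def thD (a : ℤ) (τ : ℂ) : ℂ :=
  ∑' v : V, ind A.D v * (ex (a * A.q v / 17) * gg τ A.t v)

theorem dec_coset (a : ℤ) (v : V) : ind A.D v * ex (a * A.q v / 17) =
    ∑ c ∈ A.R, ex (a * A.q c / 17) * ind A.L (v - c) := by
  by_cases hv : v ∈ A.D
  · obtain ⟨c, hc, h⟩ := A.exists_R hv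
    rw [Finset.sum_eq_single c]
    · unfold ind
      rw [if_pos hv, if_pos h, one_mul, mul_one]
      have := A.ex_q_add (A.hRD c hc) h a
      rw [show c + (v - c) = v by abel] at this
      exact this
    · intro d hd hdc
      unfold ind
      rw [if_neg, mul_zero]
      intro h'
      apply hdc
      apply A.R_inj hd hc
      have := A.L.sub_mem h h'
      rwa [show v - c - (v - d) = d - c by abel] at this
    · intro h'
      exact absurd hc h'
  · rw [Finset.sum_eq_zero]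
    · unfold ind
      rw [if_neg hv, zero_mul]
    · intro c hc
      unfold ind
      rw [if_neg, mul_zero]
      intro h
      apply hv
      have := A.D.add_mem (A.hLD h) (A.hRD c hc)
      rwa [show v - c + c = v by abel] at this

/-- the Gauss sum attached to `v` -/
noncomputable def G (a : ℤ) (v : V) : ℂ := ∑ c ∈ A.R, ex (a * A.q c / 17) * ex (A.B c v)

theorem thD_inv (a : ℤ) {τ : ℂ} (hτ : 0 < τ.im) :
    A.thD a (-1 / τ) = -τ ^ 2 * A.C * ∑' v : V, ind A.D v * (A.G a v * gg τ A.t v) := by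
  have hτ' := im_neg hτ
  have hS : ∀ c : V, Summable fun v : V => ind A.L (v - c) * gg (-1 / τ) A.t v := fun c =>
    summ hτ' (fun v => norm_ind_le _ _) A.t_pos
  have hS2 : ∀ c : V, Summable fun v : V => ind A.D v * (ex (A.B c v) * gg τ A.t v) := fun c => by
    have := summ hτ (f := fun v => ind A.D v * ex (A.B c v)) (fun v => by
      rw [norm_mul, norm_ex, mul_one]; exact norm_ind_le _ _) A.t_pos
    refine this.congr fun v => by ring
  have e1 : A.thD a (-1 / τ) = ∑ c ∈ A.R, ex (a * A.q c / 17) * A.thc c (-1 / τ) := by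
    unfold thD thc
    have : ∀ c : V, ex (a * A.q c / 17) * ∑' v : V, ind A.L (v - c) * gg (-1 / τ) A.t v =
        ∑' v : V, ex (a * A.q c / 17) * (ind A.L (v - c) * gg (-1 / τ) A.t v) := fun c =>
      tsum_mul_left.symm
    simp only [this]
    rw [← Summable.tsum_finsetSum fun c _ => (hS c).mul_left _]
    refine tsum_congr fun v => ?_
    rw [← mul_assoc, A.dec_coset, Finset.sum_mul]
    exact Finset.sum_congr rfl fun c _ => by ring
  rw [e1]
  simp only [A.thc_inv _ hτ]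
  have e2 : ∑' v : V, ind A.D v * (A.G a v * gg τ A.t v) =
      ∑ c ∈ A.R, ex (a * A.q c / 17) * ∑' v : V, ind A.D v * (ex (A.B c v) * gg τ A.t v) := by
    have : ∀ c : V, ex (a * A.q c / 17) * ∑' v : V, ind A.D v * (ex (A.B c v) * gg τ A.t v) =
        ∑' v : V, ex (a * A.q c / 17) * (ind A.D v * (ex (A.B c v) * gg τ A.t v)) := fun c =>
      tsum_mul_left.symm
    simp only [this]
    rw [← Summable.tsum_finsetSum fun c _ => (hS2 c).mul_left _]
    refine tsum_congr fun v => ?_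
    unfold G
    rw [Finset.sum_mul, Finset.mul_sum]
    exact Finset.sum_congr rfl fun c _ => by ring
  rw [e2, Finset.mul_sum]
  exact Finset.sum_congr rfl fun c _ => by ring

theorem G_eq {a a' : ℤ} (ha : 17 ∣ a * a' - 1) {v : V} (hv : v ∈ A.D) :
    A.G a v = -17 * ex ((-a' : ℤ) * A.q v / 17) := by
  have ha17 : ¬ 17 ∣ a := by
    intro h
    have h1 : (17 : ℤ) ∣ a * a' := Dvd.dvd.mul_right h a'
    have h2 : (17 : ℤ) ∣ 1 := by
      have := dvd_sub h1 ha
      simpa using this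
    norm_num at h2
  obtain ⟨k, hk⟩ := ha
  have h1 := A.R_sum_add (φ := fun c => ex (a * A.q c / 17))
    (fun v hv w hw => A.ex_q_add hv hw a) (A.D.zsmul_mem hv a')
  rw [A.hgauss a ha17] at h1
  unfold G
  rw [← h1, Finset.sum_mul]
  refine Finset.sum_congr rfl fun c hc => ?_
  have hcD := A.hRD c hc
  have h2 := A.q_add hcD (A.D.zsmul_mem hv a')
  rw [A.B_smul_right, A.q_zsmul hv] at h2
  rw [← ex_add, ← ex_add]
  have h3 := A.q_add hcD hv
  -- `17 B c v` is an integer
  have h4 : (17 : ℝ) * A.B c v = ((A.q (c + v) - A.q c - A.q v : ℤ) : ℝ) := by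
    push_cast; linarith
  have h5 : (a * A.q (c + a' • v) / 17 : ℝ) + (-a' : ℤ) * A.q v / 17 =
      a * A.q c / 17 + A.B c v + ((k * (A.q (c + v) - A.q c - A.q v) + k * a' * A.q v : ℤ) : ℝ) := by
    have hk' : (a : ℝ) * a' = 17 * k + 1 := by
      have : a * a' = 17 * k + 1 := by linarith
      exact_mod_cast this
    rw [h2]
    push_cast
    push_cast at h4
    have e : (k : ℝ) * (A.q (c + v) - A.q c - A.q v) = k * (17 * A.B c v) := by rw [h4]
    rw [e]
    linear_combination (A.B c v + a' * A.q v / 17) * hk'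
  rw [h5, ex_add _ ((_ : ℤ) : ℝ), ex_int, mul_one]

theorem G_zero {v : V} (hv : v ∈ A.D) : A.G 0 v = 289 * ind A.L v := by
  have hM := A.M_pos.ne'
  have e0 : A.G 0 v = ∑ c ∈ A.R, ex (A.B c v) := by
    unfold G
    refine Finset.sum_congr rfl fun c _ => ?_
    have : ((0 : ℤ) * A.q c / 17 : ℝ) = 0 := by simp
    rw [this, ex_zero, one_mul]
  rw [e0]
  by_cases h : v ∈ A.L
  · have : ∀ c ∈ A.R, ex (A.B c v) = 1 := by
      intro c hc
      obtain ⟨n, hn⟩ := A.B_int (A.hRD c hc) h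
      rw [hn, ex_int]
    rw [Finset.sum_congr rfl this]
    unfold ind
    rw [if_pos h]
    simp [A.hcard]
  · unfold ind
    rw [if_neg h, mul_zero]
    have h1 : ¬ ∀ u ∈ A.D, (A.M : ℤ) ∣ ip u (A.l * v) := fun h' => h (A.hdual' v hv h')
    push Not at h1
    obtain ⟨u, hu, hu2⟩ := h1
    have h2 := A.R_sum_add (φ := fun c => ex (A.B c v)) (fun c _ w hw => by
      obtain ⟨n, hn⟩ : ∃ n : ℤ, A.B w v = n := by
        obtain ⟨k, hk⟩ := A.hint w hw v hv
        refine ⟨k, ?_⟩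
        unfold B
        rw [hk]
        push_cast
        field_simp
      show ex (A.B (c + w) v) = _
      rw [A.B_add_left, hn, ex_add, ex_int, mul_one]) hu
    simp only [A.B_add_left, ex_add] at h2
    rw [← Finset.sum_mul] at h2
    have h3 : ex (A.B u v) ≠ 1 := ex_ne_one A.hM hu2
    have h4 : (ex (A.B u v) - 1) * ∑ c ∈ A.R, ex (A.B c v) = 0 := by linear_combination h2
    rcases mul_eq_zero.mp h4 with h5 | h5
    · exact absurd (sub_eq_zero.mp h5) h3
    · exact h5

/-- the theta series of the small lattice -/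
noncomputable def thL (τ : ℂ) : ℂ := ∑' v : V, ind A.L v * gg τ A.t v

theorem thL_inv {τ : ℂ} (hτ : 0 < τ.im) : A.thL (-1 / τ) = -τ ^ 2 * A.C * A.thD 0 τ := by
  have h := A.thc_inv 0 hτ
  have e1 : A.thc 0 (-1 / τ) = A.thL (-1 / τ) := by
    unfold thc thL
    simp
  rw [← e1, h]
  congr 1
  unfold thD
  refine tsum_congr fun v => ?_
  have : A.B 0 v = 0 := by unfold B; rw [ip_zero_left]; simp
  rw [this]
  simp

theorem thD_inv_zero' {τ : ℂ} (hτ : 0 < τ.im) :
    A.thD 0 (-1 / τ) = -τ ^ 2 * A.C * (289 * A.thL τ) := by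
  rw [A.thD_inv 0 hτ]
  congr 1
  unfold thL
  rw [← tsum_mul_left]
  refine tsum_congr fun v => ?_
  by_cases hv : v ∈ A.D
  · rw [A.G_zero hv]
    unfold ind
    rw [if_pos hv]
    ring
  · unfold ind
    rw [if_neg hv, if_neg (fun h => hv (A.hLD h))]
    ring

theorem thD_inv' {a a' : ℤ} (ha : 17 ∣ a * a' - 1) {τ : ℂ} (hτ : 0 < τ.im) :
    A.thD a (-1 / τ) = τ ^ 2 * (17 * A.C) * A.thD (-a') τ := by
  rw [A.thD_inv a hτ]
  unfold thD
  rw [← tsum_mul_left, ← tsum_mul_left]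
  refine tsum_congr fun v => ?_
  by_cases hv : v ∈ A.D
  · rw [A.G_eq ha hv]
    ring
  · unfold ind
    rw [if_neg hv]
    ring

theorem gg_I (t : W) (v : V) : gg I t v = (Real.exp (-(π * TT t v)) : ℝ) := by
  unfold gg
  rw [Complex.ofReal_exp]
  congr 1
  push_cast
  linear_combination (π : ℂ) * (TT t v : ℂ) * I_sq

theorem thD_zero_I : ∃ x : ℝ, 1 ≤ x ∧ A.thD 0 I = x := by
  have hI : (0 : ℝ) < I.im := by simp
  have e : ∀ v : V, ind A.D v * (ex ((0 : ℤ) * A.q v / 17) * gg I A.t v) =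
      (((if v ∈ A.D then 1 else 0) * Real.exp (-(π * TT A.t v)) : ℝ) : ℂ) := by
    intro v
    have : ((0 : ℤ) * A.q v / 17 : ℝ) = 0 := by simp
    rw [this, ex_zero, one_mul, gg_I]
    unfold ind
    split_ifs <;> push_cast <;> ring
  refine ⟨∑' v : V, (if v ∈ A.D then 1 else 0) * Real.exp (-(π * TT A.t v)), ?_, ?_⟩
  · have hs : Summable fun v : V => (if v ∈ A.D then (1 : ℝ) else 0) * Real.exp (-(π * TT A.t v)) := by
      have h1 := summable_norm_gg' hI A.t_pos
      refine Summable.of_nonneg_of_le (fun v => by split_ifs <;> positivity) (fun v => ?_) h1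
      rw [gg_I, Complex.norm_real, Real.norm_of_nonneg (Real.exp_pos _).le]
      split_ifs
      · rw [one_mul]
      · rw [zero_mul]; positivity
    have h2 := hs.le_tsum (0 : V) (fun v _ => by split_ifs <;> positivity)
    have h3 : (if (0 : V) ∈ A.D then (1 : ℝ) else 0) * Real.exp (-(π * TT A.t 0)) = 1 := by
      rw [if_pos A.D.zero_mem]
      simp [TT]
    rw [h3] at h2
    exact h2
  · unfold thD
    rw [Complex.ofReal_tsum]
    exact tsum_congr e

/-- the constant is `1/17` -/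
theorem C_eq : 17 * A.C = 1 := by
  have hI : (0 : ℝ) < I.im := by simp
  obtain ⟨x, hx, hx'⟩ := A.thD_zero_I
  have e : -1 / I = I := by
    rw [div_eq_iff I_ne_zero, I_mul_I]
  have h1 := A.thL_inv hI
  have h2 := A.thD_inv_zero' hI
  rw [e, I_sq] at h1 h2
  rw [h1, hx'] at h2
  have h3 : (x : ℂ) = ((289 * A.C ^ 2 * x : ℝ) : ℂ) := by
    push_cast
    rw [← hx'] at h2 ⊢
    linear_combination h2
  have h4 : x = 289 * A.C ^ 2 * x := by exact_mod_cast h3
  have hx0 : x ≠ 0 := by linarith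
  have h5 : (17 * A.C) ^ 2 = 1 := by
    have : 289 * A.C ^ 2 = 1 := by
      apply mul_right_cancel₀ hx0
      linarith
    linarith
  have h6 := A.C_pos
  nlinarith

theorem C_eq' : (A.C : ℂ) = 1 / 17 := by
  have := A.C_eq
  have h : A.C = 1 / 17 := by linarith
  rw [h]; push_cast; rfl

theorem inv_L {τ : ℂ} (hτ : 0 < τ.im) : -17 * A.thL (-1 / τ) = τ ^ 2 * A.thD 0 τ := by
  rw [A.thL_inv hτ, A.C_eq']; ring

theorem inv_0 {τ : ℂ} (hτ : 0 < τ.im) : A.thD 0 (-1 / τ) = τ ^ 2 * (-17 * A.thL τ) := by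
  rw [A.thD_inv_zero' hτ, A.C_eq']; ring

theorem inv_a {a a' : ℤ} (ha : 17 ∣ a * a' - 1) {τ : ℂ} (hτ : 0 < τ.im) :
    A.thD a (-1 / τ) = τ ^ 2 * A.thD (-a') τ := by
  rw [A.thD_inv' ha hτ, A.C_eq']; ring

theorem gg_q {v : V} (hv : v ∈ A.D) (τ : ℂ) : gg τ A.t v = cexp (2 * π * I * τ * (A.q v / 17)) := by
  have hM : (A.M : ℂ) ≠ 0 := by exact_mod_cast A.M_pos.ne'
  have h := A.hq v hv
  have h' : (2 * A.M * A.q v : ℂ) = 17 * ip v (A.l * v) := by exact_mod_cast h
  unfold gg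
  rw [A.TT_eq]
  congr 1
  push_cast
  have : (ip v (A.l * v) : ℂ) / A.M = 2 * A.q v / 17 := by
    rw [div_eq_div_iff hM (by norm_num)]
    linear_combination -h'
  rw [this]
  ring

theorem shift_D (a : ℤ) (τ : ℂ) : A.thD a (τ + 1) = A.thD (a + 1) τ := by
  unfold thD
  refine tsum_congr fun v => ?_
  by_cases hv : v ∈ A.D
  · rw [A.gg_q hv, A.gg_q hv]
    congr 1
    unfold ex
    rw [← Complex.exp_add, ← Complex.exp_add]
    congr 1
    push_cast
    ring
  · unfold ind
    rw [if_neg hv, zero_mul, zero_mul]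

theorem shift_L (τ : ℂ) : A.thL (τ + 1) = A.thL τ := by
  unfold thL
  refine tsum_congr fun v => ?_
  by_cases hv : v ∈ A.L
  · rw [A.gg_q (A.hLD hv), A.gg_q (A.hLD hv)]
    congr 1
    obtain ⟨m, hm⟩ := A.hqL v hv
    have e : cexp (2 * π * I * m) = 1 := by
      have := ex_int m
      unfold ex at this
      simpa using this
    rw [hm]
    rw [show 2 * (π : ℂ) * I * (τ + 1) * (((17 * m : ℤ) : ℂ) / 17) =
      2 * π * I * τ * (((17 * m : ℤ) : ℂ) / 17) + 2 * π * I * m by push_cast; ring,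
      Complex.exp_add, e, mul_one]
  · unfold ind
    rw [if_neg hv, zero_mul, zero_mul]

theorem thD_congr {a b : ℤ} (h : 17 ∣ a - b) : A.thD a = A.thD b := by
  ext τ
  unfold thD
  refine tsum_congr fun v => ?_
  congr 2
  obtain ⟨k, hk⟩ := h
  have : (a * A.q v / 17 : ℝ) = b * A.q v / 17 + ((k * A.q v : ℤ) : ℝ) := by
    have : (a : ℝ) = 17 * k + b := by
      have : a = 17 * k + b := by linarith
      exact_mod_cast this
    rw [this]
    push_cast
    ring
  rw [this, ex_add, ex_int, mul_one]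

end Lat

end Vale.Agent.P014.H70
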