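import Vale.Agent.P014.H70.Tht

/-!
# Theta series of even lattices of rank four and level 17: inversion
-/

open Complex Real
open scoped Classical

namespace Vale.Agent.P014.H70

/-- An even lattice `D` of rank four and level `17` with `Λ = 17 D^*`, in diagonal coordinates. -/
structure Lat where
  /-- the modulus -/
  M : ℕ
  hM : 0 < M
  /-- the weights -/
  l : V
  hl : (0 < l.1.1 ∧ 0 < l.1.2) ∧ (0 < l.2.1 ∧ 0 < l.2.2)
  /-- the big lattice -/
  D : AddSubgroup V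
  /-- the small lattice -/
  L : AddSubgroup V
  hLD : L ≤ D
  hML : ∀ v : V, M • v ∈ L
  hint : ∀ v ∈ L, ∀ v' ∈ D, (M : ℤ) ∣ ip v (l * v')
  hdual : ∀ w : V, (∀ v ∈ L, (M : ℤ) ∣ ip v w) → ∃ v' ∈ D, w = l * v'
  hdual' : ∀ v' ∈ D, (∀ v ∈ D, (M : ℤ) ∣ ip v (l * v')) → v' ∈ L
  /-- the form -/
  q : V → ℤ
  hq : ∀ v ∈ D, 2 * M * q v = 17 * ip v (l * v)
  hqL : ∀ v ∈ L, 17 ∣ q v
  /-- representatives -/
  R : Finset V
  hRD : ∀ c ∈ R, c ∈ D
  hR : ∀ v ∈ D, ∃! c, c ∈ R ∧ v - c ∈ L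
  hcard : R.card = 289
  hgauss : ∀ a : ℤ, ¬ 17 ∣ a → ∑ c ∈ R, ex (a * q c / 17) = -17

namespace Lat

variable (A : Lat)

instance : NeZero A.M := ⟨A.hM.ne'⟩

/-- the real weights -/
noncomputable def t : W :=
  (((A.l.1.1 : ℝ) / A.M, (A.l.1.2 : ℝ) / A.M), ((A.l.2.1 : ℝ) / A.M, (A.l.2.2 : ℝ) / A.M))

theorem M_pos : (0 : ℝ) < A.M := by exact_mod_cast A.hM

theorem t_pos : Pos A.t := by
  have hM := A.M_pos
  obtain ⟨⟨h1, h2⟩, h3, h4⟩ := A.hl
  refine ⟨⟨?_, ?_⟩, ?_, ?_⟩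
  · exact div_pos (by exact_mod_cast h1) hM
  · exact div_pos (by exact_mod_cast h2) hM
  · exact div_pos (by exact_mod_cast h3) hM
  · exact div_pos (by exact_mod_cast h4) hM

theorem TT_eq (v : V) : TT A.t v = ip v (A.l * v) / A.M := by
  have hM := A.M_pos.ne'
  unfold TT t ip
  simp only [Prod.fst_mul, Prod.snd_mul]
  push_cast
  field_simp

theorem TT_dw (v : V) : TT (dw A.M A.t) (A.l * v) = TT A.t v := by
  have hM := A.M_pos.ne'
  obtain ⟨⟨h1, h2⟩, h3, h4⟩ := A.hl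
  have k1 : (A.l.1.1 : ℝ) ≠ 0 := by exact_mod_cast h1.ne'
  have k2 : (A.l.1.2 : ℝ) ≠ 0 := by exact_mod_cast h2.ne'
  have k3 : (A.l.2.1 : ℝ) ≠ 0 := by exact_mod_cast h3.ne'
  have k4 : (A.l.2.2 : ℝ) ≠ 0 := by exact_mod_cast h4.ne'
  unfold TT dw t
  simp only [Prod.fst_mul, Prod.snd_mul]
  push_cast
  field_simp

theorem gg_dw (τ : ℂ) (v : V) : gg τ (dw A.M A.t) (A.l * v) = gg τ A.t v := by
  unfold gg
  rw [A.TT_dw]

theorem l_inj : Function.Injective fun v : V => A.l * v := by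
  intro v w h
  obtain ⟨⟨h1, h2⟩, h3, h4⟩ := A.hl
  have e1 : A.l.1.1 * v.1.1 = A.l.1.1 * w.1.1 := congrArg (fun x : V => x.1.1) h
  have e2 : A.l.1.2 * v.1.2 = A.l.1.2 * w.1.2 := congrArg (fun x : V => x.1.2) h
  have e3 : A.l.2.1 * v.2.1 = A.l.2.1 * w.2.1 := congrArg (fun x : V => x.2.1) h
  have e4 : A.l.2.2 * v.2.2 = A.l.2.2 * w.2.2 := congrArg (fun x : V => x.2.2) h
  exact vext (mul_left_cancel₀ h1.ne' e1) (mul_left_cancel₀ h2.ne' e2)
    (mul_left_cancel₀ h3.ne' e3) (mul_left_cancel₀ h4.ne' e4)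

/-- the pairing of `c` and `v` -/
noncomputable def B (c v : V) : ℝ := ip c (A.l * v) / A.M

/-- indicator -/
noncomputable def ind (S : AddSubgroup V) (v : V) : ℂ := if v ∈ S then 1 else 0

theorem norm_ind_le (S : AddSubgroup V) (v : V) : ‖ind S v‖ ≤ 1 := by
  unfold ind
  split_ifs <;> simp

theorem summ {τ : ℂ} (hτ : 0 < τ.im) {f : V → ℂ} (hf : ∀ v, ‖f v‖ ≤ 1) {t : W} (ht : Pos t) :
    Summable fun v : V => f v * gg τ t v := by
  refine Summable.of_norm_bounded (summable_norm_gg' hτ ht) fun v => ?_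
  rw [norm_mul]
  exact mul_le_of_le_one_left (norm_nonneg _) (hf v)

/-- number of residues of the small lattice -/
noncomputable def N0 : ℕ := (Finset.univ.filter fun x : Z4 A.M => rep x ∈ A.L).card

theorem N0_pos : 0 < A.N0 := by
  unfold N0
  rw [Finset.card_pos]
  refine ⟨0, ?_⟩
  rw [Finset.mem_filter]
  refine ⟨Finset.mem_univ _, ?_⟩
  have : rep (0 : Z4 A.M) = 0 := by simp [rep]
  rw [this]
  exact A.L.zero_mem

/-- the constant in the inversion formula -/
noncomputable def C : ℝ := cst A.M A.t * A.N0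

theorem C_pos : 0 < A.C := by
  have h := A.N0_pos
  have : (0 : ℝ) < A.N0 := by exact_mod_cast h
  exact mul_pos (cst_pos A.hM A.t_pos) this

/-- the theta series of the coset `c + L` -/
noncomputable def thc (c : V) (τ : ℂ) : ℂ := ∑' v : V, ind A.L (v - c) * gg τ A.t v

theorem im_neg {τ : ℂ} (hτ : 0 < τ.im) : 0 < (-1 / τ).im := by
  have hτ0 : τ ≠ 0 := by rintro rfl; simp at hτ
  rw [div_eq_mul_inv, neg_one_mul, neg_im, inv_im, neg_div, neg_neg]
  exact div_pos hτ (normSq_pos.mpr hτ0)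

/-- character sum over the residues of a coset -/
theorem char_sum (c w : V) :
    ∑ x : Z4 A.M, ind A.L (rep x - c) * ex (ip (rep x) w / A.M) =
      ex (ip c w / A.M) * if (∀ v ∈ A.L, (A.M : ℤ) ∣ ip v w) then (A.N0 : ℂ) else 0 := by
  have hM' := A.M_pos.ne'
  have h1 := orth A.L A.hML w
  unfold N0
  rw [← h1, Finset.mul_sum]
  set φ : V → ℂ := fun v => ind A.L (v - c) * ex (ip v w / A.M) with hφ
  have hper : Per A.M φ := by
    intro v k
    simp only [hφ]
    have h1 : v + A.M • k - c ∈ A.L ↔ v - c ∈ A.L := by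
      rw [show v + A.M • k - c = (v - c) + A.M • k by abel]
      exact A.L.add_mem_cancel_right (A.hML k)
    have h2 : ex (ip (v + A.M • k) w / A.M) = ex (ip v w / A.M) := by
      rw [ip_add_left, ip_smul_left]
      have : (((ip v w + A.M * ip k w : ℤ)) : ℝ) / A.M = (ip v w : ℝ) / A.M + ((ip k w : ℤ) : ℝ) := by
        push_cast; field_simp
      rw [this, ex_add, ex_int, mul_one]
    rw [h2]
    unfold ind
    simp only [h1]
  have h3 := hper.sum_add c
  show ∑ x : Z4 A.M, φ (rep x) = _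
  rw [← h3]
  refine Finset.sum_congr rfl fun x _ => ?_
  simp only [hφ, add_sub_cancel_right]
  have h2 : ex (ip (rep x + c) w / A.M) = ex (ip c w / A.M) * ex (ip (rep x) w / A.M) := by
    rw [ip_add_left, ← ex_add]
    congr 1
    push_cast
    ring
  rw [h2]
  unfold ind
  ring

/-- the condition on the dual side -/
theorem dual_iff (v : V) : (∀ u ∈ A.L, (A.M : ℤ) ∣ ip u (A.l * v)) ↔ v ∈ A.D := by
  constructor
  · intro h
    obtain ⟨v', hv', e⟩ := A.hdual _ h
    have := A.l_inj e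
    rwa [this]
  · intro h u hu
    exact A.hint u hu v h

/-- **inversion** for a coset -/
theorem thc_inv (c : V) {τ : ℂ} (hτ : 0 < τ.im) :
    A.thc c (-1 / τ) = -τ ^ 2 * A.C * ∑' v : V, ind A.D v * (ex (A.B c v) * gg τ A.t v) := by
  have hτ' := im_neg hτ
  have hper : Per A.M fun v => ind A.L (v - c) := by
    intro v k
    have h1 : v + A.M • k - c ∈ A.L ↔ v - c ∈ A.L := by
      rw [show v + A.M • k - c = (v - c) + A.M • k by abel]
      exact A.L.add_mem_cancel_right (A.hML k)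
    unfold ind
    simp only [h1]
  unfold thc
  rw [hper.tsum (summ hτ' (fun v => norm_ind_le _ _) A.t_pos)]
  simp only [poisson4 hτ A.t_pos A.hM]
  have hS : ∀ r : V, Summable fun w : V => ex (ip r w / A.M) * gg τ (dw A.M A.t) w := fun r =>
    summ hτ (fun v => (norm_ex _).le) (dw_pos A.hM A.t_pos)
  have e1 : ∑ x : Z4 A.M, ind A.L (rep x - c) * (-τ ^ 2 * (cst A.M A.t : ℝ) *
      ∑' w : V, ex (ip (rep x) w / A.M) * gg τ (dw A.M A.t) w) =
      -τ ^ 2 * (cst A.M A.t : ℝ) * ∑' w : V, (∑ x : Z4 A.M, ind A.L (rep x - c) *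
        ex (ip (rep x) w / A.M)) * gg τ (dw A.M A.t) w := by
    have e2 : ∑' w : V, (∑ x : Z4 A.M, ind A.L (rep x - c) *
        ex (ip (rep x) w / A.M)) * gg τ (dw A.M A.t) w =
        ∑ x : Z4 A.M, ∑' w : V, ind A.L (rep x - c) *
          (ex (ip (rep x) w / A.M) * gg τ (dw A.M A.t) w) := by
      rw [← Summable.tsum_finsetSum fun x _ => (hS (rep x)).mul_left _]
      refine tsum_congr fun w => ?_
      rw [Finset.sum_mul]
      exact Finset.sum_congr rfl fun x _ => by ring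
    rw [e2, Finset.mul_sum]
    refine Finset.sum_congr rfl fun x _ => ?_
    rw [tsum_mul_left]
    ring
  rw [e1]
  simp only [A.char_sum]
  have e3 : ∑' w : V, ex (ip c w / A.M) * (if (∀ v ∈ A.L, (A.M : ℤ) ∣ ip v w) then (A.N0 : ℂ)
      else 0) * gg τ (dw A.M A.t) w =
      A.N0 * ∑' v : V, ind A.D v * (ex (A.B c v) * gg τ A.t v) := by
    rw [← A.l_inj.tsum_eq (f := fun w : V => ex (ip c w / A.M) *
      (if (∀ v ∈ A.L, (A.M : ℤ) ∣ ip v w) then (A.N0 : ℂ) else 0) * gg τ (dw A.M A.t) w),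
      ← tsum_mul_left]
    · refine tsum_congr fun v => ?_
      simp only [A.gg_dw, A.dual_iff, ind, B]
      split_ifs <;> ring
    · intro w hw
      rw [Function.mem_support] at hw
      by_cases h : ∀ v ∈ A.L, (A.M : ℤ) ∣ ip v w
      · obtain ⟨v', -, e⟩ := A.hdual w h
        exact ⟨v', e.symm⟩
      · exfalso
        apply hw
        rw [if_neg h]
        ring
  rw [e3]
  unfold C
  push_cast
  ring

end Lat

end Vale.Agent.P014.H70
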