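import Mathlib

/-!
# Poisson summation in dimension four for diagonal Gaussians on residue classes
-/

open Complex Real

namespace Vale.Agent.P014.H70

/-- the Gaussian `exp (π i τ t x²)` -/
noncomputable def gs (τ : ℂ) (t : ℝ) (x : ℝ) : ℂ := cexp (π * I * τ * (t * x ^ 2))

/-- the additive character `exp (2 π i x)` -/
noncomputable def ex (x : ℝ) : ℂ := cexp (2 * π * I * x)

theorem ex_add (x y : ℝ) : ex (x + y) = ex x * ex y := by
  unfold ex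
  rw [← Complex.exp_add]
  congr 1
  push_cast
  ring

theorem ex_int (n : ℤ) : ex n = 1 := by
  unfold ex
  have := Complex.exp_int_mul_two_pi_mul_I n
  rw [← this]
  congr 1
  push_cast
  ring

theorem ex_zero : ex 0 = 1 := by
  have := ex_int 0
  simpa using this

theorem ex_neg (x : ℝ) : ex (-x) * ex x = 1 := by
  rw [← ex_add, neg_add_cancel, ex_zero]

theorem norm_ex (x : ℝ) : ‖ex x‖ = 1 := by
  unfold ex
  have : 2 * (π : ℂ) * I * x = ((2 * π * x : ℝ) : ℂ) * I := by push_cast; ring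
  rw [this, Complex.norm_exp_ofReal_mul_I]

theorem norm_gs (τ : ℂ) (t x : ℝ) : ‖gs τ t x‖ = Real.exp (-(π * τ.im * t * x ^ 2)) := by
  unfold gs
  rw [Complex.norm_exp]
  congr 1
  have : (π : ℂ) * I * τ * (t * x ^ 2) = ((π * (t * x ^ 2) : ℝ) : ℂ) * (I * τ) := by push_cast; ring
  rw [this, Complex.re_ofReal_mul, Complex.I_mul_re]
  ring

theorem gs_eq_term {τ : ℂ} {t : ℝ} {M : ℕ} (r k : ℤ) :
    gs τ t ((r : ℝ) + M * k) = cexp (π * I * τ * (t * r ^ 2)) *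
      jacobiTheta₂_term k (r * M * t * τ) (t * M ^ 2 * τ) := by
  unfold gs jacobiTheta₂_term
  rw [← Complex.exp_add]
  congr 1
  push_cast
  ring

theorem summable_gs {τ : ℂ} (hτ : 0 < τ.im) {t : ℝ} (ht : 0 < t) {M : ℕ} (hM : 0 < M) (r : ℤ) :
    Summable fun k : ℤ => gs τ t ((r : ℝ) + M * k) := by
  have hM' : (0 : ℝ) < M := by exact_mod_cast hM
  have h : 0 < ((t : ℂ) * M ^ 2 * τ).im := by
    have : ((t : ℂ) * M ^ 2 * τ) = ((t * M ^ 2 : ℝ) : ℂ) * τ := by push_cast; ring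
    rw [this, Complex.im_ofReal_mul]
    positivity
  have h1 := (hasSum_jacobiTheta₂_term (r * M * t * τ) h).summable
  have h2 := h1.mul_left (cexp (π * I * τ * (t * r ^ 2)))
  refine h2.congr fun k => ?_
  rw [← gs_eq_term]

theorem summable_norm_gs {τ : ℂ} (hτ : 0 < τ.im) {t : ℝ} (ht : 0 < t) {M : ℕ} (hM : 0 < M)
    (r : ℤ) : Summable fun k : ℤ => ‖gs τ t ((r : ℝ) + M * k)‖ :=
  (summable_gs hτ ht hM r).norm

theorem cpow_half {a : ℝ} (ha : 0 < a) {z : ℂ} (hz : z ≠ 0) :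
    ((a : ℂ) * z) ^ (1 / 2 : ℂ) = (√a : ℝ) * z ^ (1 / 2 : ℂ) := by
  have ha' : (a : ℂ) ≠ 0 := by exact_mod_cast ha.ne'
  rw [Complex.cpow_def_of_ne_zero (mul_ne_zero ha' hz), Complex.cpow_def_of_ne_zero hz,
    Complex.log_ofReal_mul ha hz, add_mul, Complex.exp_add]
  congr 1
  rw [Real.sqrt_eq_rpow, Real.rpow_def_of_pos ha]
  push_cast
  rfl

/-- one-dimensional Poisson summation on a residue class, for `-1/τ` -/
theorem poisson1 {τ : ℂ} (hτ : 0 < τ.im) {t : ℝ} (ht : 0 < t) {M : ℕ} (hM : 0 < M) (r : ℤ) :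
    ∑' k : ℤ, gs (-1 / τ) t ((r : ℝ) + M * k) =
      (1 / (M * √t : ℝ) : ℂ) * (1 / (I / τ) ^ (1 / 2 : ℂ)) *
        ∑' w : ℤ, ex (r * w / M) * gs τ (1 / (t * M ^ 2)) w := by
  have hM' : (0 : ℝ) < M := by exact_mod_cast hM
  have hMc : (M : ℂ) ≠ 0 := by exact_mod_cast hM.ne'
  have htc : (t : ℂ) ≠ 0 := by exact_mod_cast ht.ne'
  have hτ0 : τ ≠ 0 := by rintro rfl; simp at hτ
  have e1 : ∑' k : ℤ, gs (-1 / τ) t ((r : ℝ) + M * k) =
      cexp (π * I * (-1 / τ) * (t * r ^ 2)) *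
        jacobiTheta₂ (r * M * t * (-1 / τ)) (t * M ^ 2 * (-1 / τ)) := by
    rw [jacobiTheta₂, ← tsum_mul_left]
    exact tsum_congr fun k => gs_eq_term r k
  rw [e1, jacobiTheta₂_functional_equation]
  have e2 : (r : ℂ) * M * t * (-1 / τ) / (t * M ^ 2 * (-1 / τ)) = r / M := by
    field_simp
  have e3 : -1 / ((t : ℂ) * M ^ 2 * (-1 / τ)) = (1 / (t * M ^ 2)) * τ := by
    field_simp
  have e4 : cexp (π * I * (-1 / τ) * (t * r ^ 2)) *
      cexp (-π * I * ((r : ℂ) * M * t * (-1 / τ)) ^ 2 / (t * M ^ 2 * (-1 / τ))) = 1 := by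
    rw [← Complex.exp_add]
    have : π * I * (-1 / τ) * (t * r ^ 2) +
        -π * I * ((r : ℂ) * M * t * (-1 / τ)) ^ 2 / (t * M ^ 2 * (-1 / τ)) = 0 := by
      field_simp
      ring
    rw [this, Complex.exp_zero]
  have e5 : (-I * ((t : ℂ) * M ^ 2 * (-1 / τ))) = ((t * M ^ 2 : ℝ) : ℂ) * (I / τ) := by
    push_cast
    field_simp
  have e6 : (-I * ((t : ℂ) * M ^ 2 * (-1 / τ))) ^ (1 / 2 : ℂ) =
      ((M * √t : ℝ) : ℂ) * (I / τ) ^ (1 / 2 : ℂ) := by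
    rw [e5, cpow_half (by positivity) (div_ne_zero I_ne_zero hτ0)]
    congr 2
    rw [mul_comm t, Real.sqrt_mul (by positivity), Real.sqrt_sq hM'.le]
  rw [e2, e3, e6]
  have e7 : jacobiTheta₂ (r / M) (1 / (t * M ^ 2) * τ) =
      ∑' w : ℤ, ex (r * w / M) * gs τ (1 / (t * M ^ 2)) w := by
    rw [jacobiTheta₂]
    refine tsum_congr fun w => ?_
    unfold jacobiTheta₂_term ex gs
    rw [← Complex.exp_add]
    congr 1
    push_cast
    ring
  rw [e7]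
  calc _ = (cexp (π * I * (-1 / τ) * (t * r ^ 2)) *
      cexp (-π * I * ((r : ℂ) * M * t * (-1 / τ)) ^ 2 / (t * M ^ 2 * (-1 / τ)))) *
      (1 / (((M * √t : ℝ) : ℂ) * (I / τ) ^ (1 / 2 : ℂ)) *
        ∑' w : ℤ, ex (r * w / M) * gs τ (1 / (t * M ^ 2)) w) := by ring
    _ = _ := by
      rw [e4, one_mul]
      congr 1
      rw [one_div, mul_inv]
      push_cast
      ring

/-! ### dimension four -/

/-- the index set -/
abbrev V := (ℤ × ℤ) × (ℤ × ℤ)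

/-- weights -/
abbrev W := (ℝ × ℝ) × (ℝ × ℝ)

/-- positivity of all weights -/
def Pos (t : W) : Prop := (0 < t.1.1 ∧ 0 < t.1.2) ∧ (0 < t.2.1 ∧ 0 < t.2.2)

/-- the diagonal form -/
def TT (t : W) (v : V) : ℝ :=
  (t.1.1 * (v.1.1 : ℝ) ^ 2 + t.1.2 * (v.1.2 : ℝ) ^ 2) +
    (t.2.1 * (v.2.1 : ℝ) ^ 2 + t.2.2 * (v.2.2 : ℝ) ^ 2)

/-- the standard pairing -/
def ip (v w : V) : ℤ := (v.1.1 * w.1.1 + v.1.2 * w.1.2) + (v.2.1 * w.2.1 + v.2.2 * w.2.2)

/-- the Gaussian `exp (π i τ T(v))` -/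
noncomputable def gg (τ : ℂ) (t : W) (v : V) : ℂ := cexp (π * I * τ * (TT t v : ℝ))

theorem gg_eq (τ : ℂ) (t : W) (v : V) : gg τ t v =
    (gs τ t.1.1 v.1.1 * gs τ t.1.2 v.1.2) * (gs τ t.2.1 v.2.1 * gs τ t.2.2 v.2.2) := by
  unfold gg gs TT
  rw [← Complex.exp_add, ← Complex.exp_add, ← Complex.exp_add]
  congr 1
  push_cast
  ring

/-- the dual weights -/
noncomputable def dw (M : ℕ) (t : W) : W :=
  ((1 / (t.1.1 * M ^ 2), 1 / (t.1.2 * M ^ 2)), (1 / (t.2.1 * M ^ 2), 1 / (t.2.2 * M ^ 2)))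

theorem dw_pos {M : ℕ} (hM : 0 < M) {t : W} (ht : Pos t) : Pos (dw M t) := by
  obtain ⟨⟨h1, h2⟩, h3, h4⟩ := ht
  have hM' : (0 : ℝ) < M := by exact_mod_cast hM
  refine ⟨⟨?_, ?_⟩, ?_, ?_⟩ <;> unfold dw <;> positivity

theorem summable_norm_mul {ι κ : Type*} {f : ι → ℂ} {g : κ → ℂ} (hf : Summable fun i => ‖f i‖)
    (hg : Summable fun k => ‖g k‖) : Summable fun p : ι × κ => ‖f p.1 * g p.2‖ :=
  hf.mul_norm hg

/-- summability of the Gaussian over a residue class -/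
theorem summable_norm_gg {τ : ℂ} (hτ : 0 < τ.im) {t : W} (ht : Pos t) {M : ℕ} (hM : 0 < M)
    (r : V) : Summable fun k : V => ‖gg τ t (r + M • k)‖ := by
  obtain ⟨⟨h1, h2⟩, h3, h4⟩ := ht
  have a1 := summable_norm_gs hτ h1 hM r.1.1
  have a2 := summable_norm_gs hτ h2 hM r.1.2
  have a3 := summable_norm_gs hτ h3 hM r.2.1
  have a4 := summable_norm_gs hτ h4 hM r.2.2
  refine (summable_norm_mul (summable_norm_mul a1 a2) (summable_norm_mul a3 a4)).congr fun k => ?_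
  rw [gg_eq]
  simp

theorem summable_norm_gg' {τ : ℂ} (hτ : 0 < τ.im) {t : W} (ht : Pos t) :
    Summable fun k : V => ‖gg τ t k‖ := by
  have := summable_norm_gg hτ ht one_pos 0
  simpa using this

/-- the constant -/
noncomputable def cst (M : ℕ) (t : W) : ℝ :=
  ((1 / (M * √t.1.1)) * (1 / (M * √t.1.2))) * ((1 / (M * √t.2.1)) * (1 / (M * √t.2.2)))

theorem cst_pos {M : ℕ} (hM : 0 < M) {t : W} (ht : Pos t) : 0 < cst M t := by
  obtain ⟨⟨h1, h2⟩, h3, h4⟩ := ht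
  have hM' : (0 : ℝ) < M := by exact_mod_cast hM
  unfold cst
  positivity

theorem summable_norm_ex_gs {τ : ℂ} (hτ : 0 < τ.im) {t : ℝ} (ht : 0 < t) (s : ℝ) :
    Summable fun w : ℤ => ‖ex (s * w) * gs τ t w‖ := by
  have := summable_norm_gs hτ ht one_pos 0
  refine this.congr fun w => ?_
  rw [norm_mul, norm_ex, one_mul]
  simp

/-- **Poisson summation** on a residue class in dimension four, for `-1/τ` -/
theorem poisson4 {τ : ℂ} (hτ : 0 < τ.im) {t : W} (ht : Pos t) {M : ℕ} (hM : 0 < M) (r : V) :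
    ∑' k : V, gg (-1 / τ) t (r + M • k) =
      -τ ^ 2 * (cst M t : ℝ) * ∑' w : V, ex (ip r w / M) * gg τ (dw M t) w := by
  have hτ0 : τ ≠ 0 := by rintro rfl; simp at hτ
  have hτ' : 0 < (-1 / τ).im := by
    rw [div_eq_mul_inv, neg_one_mul, neg_im, inv_im, neg_div, neg_neg]
    exact div_pos hτ (normSq_pos.mpr hτ0)
  obtain ⟨⟨h1, h2⟩, h3, h4⟩ := ht
  obtain ⟨⟨d1, d2⟩, d3, d4⟩ := dw_pos hM ⟨⟨h1, h2⟩, h3, h4⟩
  have a1 := summable_norm_gs hτ' h1 hM r.1.1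
  have a2 := summable_norm_gs hτ' h2 hM r.1.2
  have a3 := summable_norm_gs hτ' h3 hM r.2.1
  have a4 := summable_norm_gs hτ' h4 hM r.2.2
  have b1 := summable_norm_ex_gs hτ d1 (r.1.1 / M)
  have b2 := summable_norm_ex_gs hτ d2 (r.1.2 / M)
  have b3 := summable_norm_ex_gs hτ d3 (r.2.1 / M)
  have b4 := summable_norm_ex_gs hτ d4 (r.2.2 / M)
  have p1 := poisson1 hτ h1 hM r.1.1
  have p2 := poisson1 hτ h2 hM r.1.2
  have p3 := poisson1 hτ h3 hM r.2.1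
  have p4 := poisson1 hτ h4 hM r.2.2
  have e0 : ∑' k : V, gg (-1 / τ) t (r + M • k) =
      ((∑' k : ℤ, gs (-1 / τ) t.1.1 ((r.1.1 : ℝ) + M * k)) *
        (∑' k : ℤ, gs (-1 / τ) t.1.2 ((r.1.2 : ℝ) + M * k))) *
      ((∑' k : ℤ, gs (-1 / τ) t.2.1 ((r.2.1 : ℝ) + M * k)) *
        (∑' k : ℤ, gs (-1 / τ) t.2.2 ((r.2.2 : ℝ) + M * k))) := by
    rw [tsum_mul_tsum_of_summable_norm a1 a2, tsum_mul_tsum_of_summable_norm a3 a4,
      tsum_mul_tsum_of_summable_norm (summable_norm_mul a1 a2) (summable_norm_mul a3 a4)]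
    refine tsum_congr fun k => ?_
    rw [gg_eq]
    simp
  have e1 : ∑' w : V, ex (ip r w / M) * gg τ (dw M t) w =
      ((∑' w : ℤ, ex (r.1.1 / M * w) * gs τ (dw M t).1.1 w) *
        (∑' w : ℤ, ex (r.1.2 / M * w) * gs τ (dw M t).1.2 w)) *
      ((∑' w : ℤ, ex (r.2.1 / M * w) * gs τ (dw M t).2.1 w) *
        (∑' w : ℤ, ex (r.2.2 / M * w) * gs τ (dw M t).2.2 w)) := by
    rw [tsum_mul_tsum_of_summable_norm b1 b2, tsum_mul_tsum_of_summable_norm b3 b4,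
      tsum_mul_tsum_of_summable_norm (summable_norm_mul b1 b2) (summable_norm_mul b3 b4)]
    refine tsum_congr fun w => ?_
    rw [gg_eq]
    have : (ip r w / M : ℝ) = ((r.1.1 / M * w.1.1 + r.1.2 / M * w.1.2) +
        (r.2.1 / M * w.2.1 + r.2.2 / M * w.2.2) : ℝ) := by
      unfold ip
      push_cast
      ring
    rw [this, ex_add, ex_add, ex_add]
    ring
  rw [e0, e1, p1, p2, p3, p4]
  have hc : (1 / (I / τ) ^ (1 / 2 : ℂ)) ^ 4 = -τ ^ 2 := by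
    have : ((I / τ) ^ (1 / 2 : ℂ)) ^ 2 = I / τ := by
      have := Complex.cpow_nat_inv_pow (I / τ) (n := 2) two_ne_zero
      simpa using this
    rw [div_pow, one_pow, show 4 = 2 * 2 from rfl, pow_mul, this, div_pow, I_sq]
    field_simp
  have hs : ∀ (s : ℤ) (t' : ℝ), ∑' w : ℤ, ex (s * w / M) * gs τ t' w =
      ∑' w : ℤ, ex (s / M * w) * gs τ t' w := fun s t' => tsum_congr fun w => by
    rw [mul_div_right_comm]
  rw [hs, hs, hs, hs, ← hc]
  unfold cst dw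
  push_cast
  ring

end Vale.Agent.P014.H70
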