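import Mathlib

/-!
# Quaternion-like algebras with positive norm, and the connecting lemma
-/

namespace Vale.Agent.P014.H70

/-- algebras over `ℚ` with an involution with rational trace and positive rational norm -/
class QA (B : Type*) [Ring B] [Algebra ℚ B] [StarRing B] where
  tr : B → ℚ
  nr : B → ℚ
  add_star : ∀ x : B, x + star x = algebraMap ℚ B (tr x)
  mul_star : ∀ x : B, x * star x = algebraMap ℚ B (nr x)
  nr_pos : ∀ x : B, x ≠ 0 → 0 < nr x

namespace QA

set_option linter.unusedSectionVars false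
set_option linter.unusedSimpArgs false

variable {B : Type*} [Ring B] [Nontrivial B] [Algebra ℚ B] [StarRing B] [QA B]

theorem C_inj {r s : ℚ} (h : ((algebraMap ℚ B) r) = (algebraMap ℚ B) s) : r = s := (algebraMap ℚ B).injective h

theorem C_comm (r : ℚ) (x : B) : (algebraMap ℚ B) r * x = x * (algebraMap ℚ B) r := Algebra.commutes r x

theorem star_eq (x : B) : star x = (algebraMap ℚ B) (tr x) - x := by
  rw [← add_star]; abel

theorem star_C (r : ℚ) : star ((algebraMap ℚ B) r) = (algebraMap ℚ B) r := by
  -- `star ((algebraMap ℚ B) r) = (algebraMap ℚ B) t - (algebraMap ℚ B) r` is a scalar, and `star` fixes `1`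
  have h0 : ∀ n : ℕ, star ((n : B)) = n := fun n => star_natCast n
  have h1 : ((algebraMap ℚ B) r) * (r.den : B) = ((r.num : ℤ) : B) := by
    have : ((algebraMap ℚ B) r) * (algebraMap ℚ B) (r.den : ℚ) = (algebraMap ℚ B) (r.num : ℚ) := by
      rw [← map_mul, Rat.mul_den_eq_num]
    simpa using this
  have h2 : ((r.den : ℕ) : B) * star ((algebraMap ℚ B) r) = ((r.num : ℤ) : B) := by
    have := congrArg star h1
    rw [star_mul, star_natCast, star_intCast] at this
    exact this
  have h3 : ((r.den : ℕ) : B) * (algebraMap ℚ B) r = ((r.num : ℤ) : B) := by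
    rw [← h1]
    have := C_comm (r.den : ℚ) ((algebraMap ℚ B) r)
    simpa using this
  have h4 : (algebraMap ℚ B) (1 / r.den : ℚ) * ((r.den : ℕ) : B) = 1 := by
    have : (algebraMap ℚ B) (1 / r.den : ℚ) * (algebraMap ℚ B) (r.den : ℚ) = (algebraMap ℚ B) 1 := by
      rw [← map_mul]
      congr 1
      have : (r.den : ℚ) ≠ 0 := by exact_mod_cast r.den_ne_zero
      field_simp
    simpa using this
  calc star ((algebraMap ℚ B) r) = ((algebraMap ℚ B) (1 / r.den : ℚ) * ((r.den : ℕ) : B)) * star ((algebraMap ℚ B) r) := by rw [h4, one_mul]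
    _ = ((algebraMap ℚ B) (1 / r.den : ℚ) * ((r.den : ℕ) : B)) * (algebraMap ℚ B) r := by rw [mul_assoc, h2, ← h3, mul_assoc]
    _ = (algebraMap ℚ B) r := by rw [h4, one_mul]

theorem tr_add (x y : B) : tr (x + y) = tr x + tr y := by
  apply C_inj (B := B)
  rw [← add_star, map_add, ← add_star, ← add_star, star_add]
  abel

theorem tr_C_mul (r : ℚ) (x : B) : tr ((algebraMap ℚ B) r * x) = r * tr x := by
  apply C_inj (B := B)
  rw [← add_star, star_mul, star_C, map_mul, ← add_star, mul_add, C_comm r (star x)]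

theorem tr_neg (x : B) : tr (-x) = -tr x := by
  apply C_inj (B := B)
  rw [← add_star, map_neg, ← add_star, star_neg]
  abel

theorem tr_sub (x y : B) : tr (x - y) = tr x - tr y := by
  rw [sub_eq_add_neg, tr_add, tr_neg]; ring

theorem tr_one : tr (1 : B) = 2 := by
  apply C_inj (B := B)
  rw [← add_star, star_one, one_add_one_eq_two]
  exact (map_ofNat (algebraMap ℚ B) 2).symm

theorem tr_C (r : ℚ) : tr ((algebraMap ℚ B) r) = 2 * r := by
  have := tr_C_mul (B := B) r 1
  rw [mul_one, tr_one] at this
  rw [this]; ring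

theorem tr_star (x : B) : tr (star x) = tr x := by
  apply C_inj (B := B)
  rw [← add_star, ← add_star, star_star]
  abel

theorem tr_comm (x y : B) : tr (x * y) = tr (y * x) := by
  apply C_inj (B := B)
  rw [← add_star, ← add_star, star_mul, star_mul, star_eq x, star_eq y]
  have h1 := C_comm (tr x) y
  have h2 := C_comm (tr y) x
  have h3 := C_comm (tr x) ((algebraMap ℚ B) (tr y))
  simp only [sub_mul, mul_sub]
  rw [h1, h2, h3]
  abel

theorem star_mul' (x : B) : star x * x = (algebraMap ℚ B) (nr x) := by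
  rw [← mul_star, star_eq, sub_mul, mul_sub, C_comm]

theorem nr_mul (x y : B) : nr (x * y) = nr x * nr y := by
  apply C_inj (B := B)
  rw [← mul_star, star_mul, map_mul, ← mul_star x, ← mul_star y]
  have h := C_comm (nr y) (star x)
  calc x * y * (star y * star x) = x * ((y * star y) * star x) := by simp only [mul_assoc]
    _ = x * (star x * (y * star y)) := by rw [mul_star, h]
    _ = _ := by rw [← mul_assoc]

theorem nr_C (r : ℚ) : nr ((algebraMap ℚ B) r) = r ^ 2 := by
  apply C_inj (B := B)
  rw [← mul_star, star_C, sq, map_mul]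

theorem nr_C_mul (r : ℚ) (x : B) : nr ((algebraMap ℚ B) r * x) = r ^ 2 * nr x := by
  rw [nr_mul, nr_C]

theorem nr_one : nr (1 : B) = 1 := by
  have := nr_C (B := B) 1
  rw [map_one] at this
  rw [this]; norm_num

theorem nr_zero : nr (0 : B) = 0 := by
  have := nr_C (B := B) 0
  rw [map_zero] at this
  rw [this]; norm_num

theorem nr_neg (x : B) : nr (-x) = nr x := by
  apply C_inj (B := B)
  rw [← mul_star, ← mul_star, star_neg, neg_mul_neg]

theorem nr_star (x : B) : nr (star x) = nr x := by
  apply C_inj (B := B)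
  rw [← mul_star, star_star, star_mul']

theorem nr_nonneg (x : B) : 0 ≤ nr x := by
  by_cases h : x = 0
  · rw [h, nr_zero]
  · exact (nr_pos x h).le

theorem nr_eq_zero {x : B} (h : nr x = 0) : x = 0 := by
  by_contra hx
  have := nr_pos x hx
  linarith

theorem nr_add (x y : B) : nr (x + y) = nr x + nr y + tr (x * star y) := by
  apply C_inj (B := B)
  rw [← mul_star, map_add, map_add, ← mul_star x, ← mul_star y, ← add_star, star_mul, star_star,
    star_add, mul_add, add_mul, add_mul]
  abel

theorem nr_sub (x y : B) : nr (x - y) = nr x + nr y - tr (x * star y) := by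
  rw [sub_eq_add_neg, nr_add, nr_neg, star_neg, mul_neg, tr_neg]; ring

theorem sq_eq (x : B) : x * x = (algebraMap ℚ B) (tr x) * x - (algebraMap ℚ B) (nr x) := by
  have h := mul_star x
  rw [star_eq, mul_sub, ← C_comm] at h
  rw [← h]; abel

theorem mul_eq_zero' {x y : B} (h : x * y = 0) : x = 0 ∨ y = 0 := by
  have h1 := nr_mul x y
  rw [h, nr_zero] at h1
  rcases mul_eq_zero.mp h1.symm with h | h
  · exact Or.inl (nr_eq_zero h)
  · exact Or.inr (nr_eq_zero h)

theorem C_mul_eq_zero {r : ℚ} (hr : r ≠ 0) {x : B} (h : (algebraMap ℚ B) r * x = 0) : x = 0 := by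
  rcases mul_eq_zero' h with h | h
  · exfalso
    apply hr
    apply C_inj (B := B)
    rw [h, map_zero]
  · exact h

/-- elements commuting with `x` -/
theorem comm_eq {x z : B} {k : ℚ} (htx : tr x = 1) (hnx : nr x = k) (h : z * x = x * z) :
    (algebraMap ℚ B) (1 - 4 * k) * z = (algebraMap ℚ B) (2 * tr (z * x) - tr z) * x - (algebraMap ℚ B) (tr (z * x) - tr z + 2 * tr z * k) := by
  have hx2 : x * x = x - (algebraMap ℚ B) k := by
    rw [sq_eq, htx, hnx, map_one, one_mul]
  have h1 := add_star (z * x)
  rw [star_mul, star_eq x, star_eq z, htx] at h1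
  set t := tr z
  set s := tr (z * x)
  have hct := C_comm t x
  have hcs := C_comm s x
  have hck := C_comm k z
  -- z (2x-1) = (s - t) + t x
  have h2 : z * x + z * x - z = (algebraMap ℚ B) s - (algebraMap ℚ B) t + (algebraMap ℚ B) t * x := by
    rw [map_one] at h1
    have h3 : z * x + (1 - x) * ((algebraMap ℚ B) t - z) = z * x + z * x - z + (algebraMap ℚ B) t - (algebraMap ℚ B) t * x := by
      simp only [sub_mul, mul_sub, one_mul]
      rw [← h, ← hct]
      abel
    rw [h3] at h1
    rw [← h1]
    abel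
  -- multiply by (2x - 1) on the right
  have h4 : (z * x + z * x - z) * (x + x - 1) = (algebraMap ℚ B) (1 - 4 * k) * z := by
    have e1 : z * x * x = z * x - z * (algebraMap ℚ B) k := by rw [mul_assoc, hx2, mul_sub]
    have e2 : (algebraMap ℚ B) (1 - 4 * k) = 1 - ((algebraMap ℚ B) k + (algebraMap ℚ B) k + (algebraMap ℚ B) k + (algebraMap ℚ B) k) := by
      rw [map_sub, map_one]
      congr 1
      rw [← map_add, ← map_add, ← map_add]
      congr 1
      ring
    rw [e2]
    simp only [sub_mul, mul_sub, add_mul, mul_add, mul_one, one_mul, e1, hck]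
    abel
  have h5 : ((algebraMap ℚ B) s - (algebraMap ℚ B) t + (algebraMap ℚ B) t * x) * (x + x - 1) =
      (algebraMap ℚ B) (2 * s - t) * x - (algebraMap ℚ B) (s - t + 2 * t * k) := by
    have e1 : (algebraMap ℚ B) t * x * x = (algebraMap ℚ B) t * x - (algebraMap ℚ B) (t * k) := by
      rw [mul_assoc, hx2, mul_sub, map_mul]
    have e2 : (algebraMap ℚ B) (2 * s - t) = (algebraMap ℚ B) s + (algebraMap ℚ B) s - (algebraMap ℚ B) t := by
      rw [← map_add, ← map_sub]; congr 1; ring
    have e3 : (algebraMap ℚ B) (s - t + 2 * t * k) = (algebraMap ℚ B) s - (algebraMap ℚ B) t + ((algebraMap ℚ B) (t * k) + (algebraMap ℚ B) (t * k)) := by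
      rw [← map_add, ← map_sub, ← map_add]; congr 1; ring
    rw [e2, e3]
    simp only [sub_mul, mul_sub, add_mul, mul_add, mul_one, one_mul, e1]
    abel
  rw [← h4, h2, h5]

end QA

end Vale.Agent.P014.H70
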