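import Vale.Agent.P014.H70.Poi

/-!
# Theta series of even lattices of rank four and level 17 (diagonal coordinates)
-/

open Complex Real
open scoped Classical

namespace Vale.Agent.P014.H70

/-! ### residue classes modulo `M` -/

/-- `(ℤ/M)⁴` -/
abbrev Z4 (M : ℕ) := (ZMod M × ZMod M) × (ZMod M × ZMod M)

theorem vext {v w : V} (h1 : v.1.1 = w.1.1) (h2 : v.1.2 = w.1.2) (h3 : v.2.1 = w.2.1)
    (h4 : v.2.2 = w.2.2) : v = w := Prod.ext (Prod.ext h1 h2) (Prod.ext h3 h4)

theorem sm11 (M : ℕ) (k : V) : (M • k).1.1 = M * k.1.1 := by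
  rw [Prod.smul_fst, Prod.smul_fst, nsmul_eq_mul]

theorem sm12 (M : ℕ) (k : V) : (M • k).1.2 = M * k.1.2 := by
  rw [Prod.smul_fst, Prod.smul_snd, nsmul_eq_mul]

theorem sm21 (M : ℕ) (k : V) : (M • k).2.1 = M * k.2.1 := by
  rw [Prod.smul_snd, Prod.smul_fst, nsmul_eq_mul]

theorem sm22 (M : ℕ) (k : V) : (M • k).2.2 = M * k.2.2 := by
  rw [Prod.smul_snd, Prod.smul_snd, nsmul_eq_mul]

section res

variable {M : ℕ} [NeZero M]

/-- representatives -/
def rep (x : Z4 M) : V := (((x.1.1.val : ℤ), (x.1.2.val : ℤ)), ((x.2.1.val : ℤ), (x.2.2.val : ℤ)))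

/-- reduction -/
def prj (v : V) : Z4 M := (((v.1.1 : ZMod M), (v.1.2 : ZMod M)), ((v.2.1 : ZMod M), (v.2.2 : ZMod M)))

theorem prj_rep (x : Z4 M) : prj (rep x) = x := by
  simp [prj, rep]

omit [NeZero M] in
theorem prj_add (v w : V) : (prj (v + w) : Z4 M) = prj v + prj w := by
  simp [prj]

/-- the quotient -/
def quo (M : ℕ) (v : V) : V := ((v.1.1 / M, v.1.2 / M), (v.2.1 / M, v.2.2 / M))

theorem prj_dec (x : Z4 M) (k : V) : (prj (rep x + M • k) : Z4 M) = x := by
  rw [prj_add, prj_rep]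
  have : (prj (M • k) : Z4 M) = 0 := by
    unfold prj
    rw [sm11, sm12, sm21, sm22]
    simp
  rw [this, add_zero]

theorem quo_dec (x : Z4 M) (k : V) : quo M (rep x + M • k) = k := by
  have hM : (M : ℤ) ≠ 0 := by exact_mod_cast NeZero.ne M
  have h : ∀ (a : ZMod M) (b : ℤ), ((a.val : ℤ) + M * b) / M = b := fun a b => by
    rw [Int.add_mul_ediv_left _ _ hM, Int.ediv_eq_zero_of_lt (by positivity)
      (by exact_mod_cast ZMod.val_lt a), zero_add]
  unfold quo
  refine vext ?_ ?_ ?_ ?_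
  · show (rep x + M • k).1.1 / M = _
    rw [Prod.fst_add, Prod.fst_add, sm11]; exact h _ _
  · show (rep x + M • k).1.2 / M = _
    rw [Prod.fst_add, Prod.snd_add, sm12]; exact h _ _
  · show (rep x + M • k).2.1 / M = _
    rw [Prod.snd_add, Prod.fst_add, sm21]; exact h _ _
  · show (rep x + M • k).2.2 / M = _
    rw [Prod.snd_add, Prod.snd_add, sm22]; exact h _ _

theorem dec_quo (v : V) : rep (prj v : Z4 M) + M • quo M v = v := by
  have h : ∀ a : ℤ, (((a : ZMod M).val : ℕ) : ℤ) + M * (a / M) = a := fun a => by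
    rw [ZMod.val_intCast]
    exact Int.emod_add_mul_ediv a M
  refine vext ?_ ?_ ?_ ?_
  · rw [Prod.fst_add, Prod.fst_add, sm11]; exact h _
  · rw [Prod.fst_add, Prod.snd_add, sm12]; exact h _
  · rw [Prod.snd_add, Prod.fst_add, sm21]; exact h _
  · rw [Prod.snd_add, Prod.snd_add, sm22]; exact h _

/-- decomposition of `ℤ⁴` -/
def dec : Z4 M × V ≃ V where
  toFun p := rep p.1 + M • p.2
  invFun v := (prj v, quo M v)
  left_inv p := Prod.ext (prj_dec p.1 p.2) (quo_dec p.1 p.2)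
  right_inv v := dec_quo v

/-- periodic functions -/
def Per (M : ℕ) (φ : V → ℂ) : Prop := ∀ v k : V, φ (v + M • k) = φ v

theorem Per.at_rep {φ : V → ℂ} (h : Per M φ) (v : V) : φ (rep (prj v : Z4 M)) = φ v := by
  conv_rhs => rw [← dec_quo (M := M) v]
  rw [h]

/-- translation invariance of the sum over the residues -/
theorem Per.sum_add {φ : V → ℂ} (h : Per M φ) (u : V) :
    ∑ x : Z4 M, φ (rep x + u) = ∑ x : Z4 M, φ (rep x) := by
  rw [← Equiv.sum_comp (Equiv.addRight (prj u : Z4 M)) (fun x => φ (rep x))]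
  refine Finset.sum_congr rfl fun x _ => ?_
  simp only [Equiv.coe_addRight]
  rw [← h.at_rep (rep x + u), prj_add, prj_rep]

theorem dec_apply (x : Z4 M) (k : V) : dec (x, k) = rep x + M • k := rfl

theorem Per.tsum {φ : V → ℂ} (h : Per M φ) {g : V → ℂ} (hg : Summable fun v => φ v * g v) :
    ∑' v : V, φ v * g v = ∑ x : Z4 M, φ (rep x) * ∑' k : V, g (rep x + M • k) := by
  have hs : Summable ((fun v => φ v * g v) ∘ (dec (M := M))) :=
    (dec (M := M)).summable_iff.mpr hg
  have key : ∀ x : Z4 M, ∑' k : V, φ (dec (x, k)) * g (dec (x, k)) =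
      φ (rep x) * ∑' k : V, g (rep x + M • k) := by
    intro x
    rw [← tsum_mul_left]
    apply tsum_congr
    intro k
    rw [dec_apply, h]
  have h1 := (dec (M := M)).tsum_eq (fun v => φ v * g v)
  have h2 := hs.tsum_prod' (fun x => hs.comp_injective (Prod.mk_right_injective x))
  have h3 : ∑' p : Z4 M × V, φ (dec p) * g (dec p) =
      ∑' (x : Z4 M) (k : V), φ (dec (x, k)) * g (dec (x, k)) := h2
  rw [← h1, h3, tsum_fintype]
  apply Finset.sum_congr rfl
  intro x _
  exact key x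

end res

theorem ip_add_left (u v w : V) : ip (u + v) w = ip u w + ip v w := by
  simp only [ip, Prod.fst_add, Prod.snd_add]; ring

theorem ip_smul_left (M : ℕ) (k w : V) : ip (M • k) w = M * ip k w := by
  unfold ip
  rw [sm11, sm12, sm21, sm22]; ring

theorem ex_eq_one {x : ℝ} (h : ex x = 1) : ∃ n : ℤ, x = n := by
  unfold ex at h
  rw [Complex.exp_eq_one_iff] at h
  obtain ⟨n, hn⟩ := h
  refine ⟨n, ?_⟩
  have hpi : (2 * π * I : ℂ) ≠ 0 := Complex.two_pi_I_ne_zero
  have : (x : ℂ) = n := by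
    apply mul_left_cancel₀ hpi
    rw [hn]; ring
  exact_mod_cast this

theorem ex_ne_one {M : ℕ} (hM : 0 < M) {a : ℤ} (h : ¬ (M : ℤ) ∣ a) : ex ((a : ℝ) / M) ≠ 1 := by
  intro h1
  obtain ⟨n, hn⟩ := ex_eq_one h1
  apply h
  refine ⟨n, ?_⟩
  have hM' : (M : ℝ) ≠ 0 := by exact_mod_cast hM.ne'
  rw [div_eq_iff hM'] at hn
  have : a = n * M := by exact_mod_cast hn
  rw [this]; ring

theorem ex_eq_one_of_dvd {M : ℕ} (hM : 0 < M) {a : ℤ} (h : (M : ℤ) ∣ a) : ex ((a : ℝ) / M) = 1 := by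
  obtain ⟨b, rfl⟩ := h
  have hM' : (M : ℝ) ≠ 0 := by exact_mod_cast hM.ne'
  rw [show (((M : ℤ) * b : ℤ) : ℝ) / M = ((b : ℤ) : ℝ) by push_cast; field_simp, ex_int]

/-- orthogonality for a subgroup containing `M ℤ⁴` -/
theorem orth {M : ℕ} [NeZero M] (S : AddSubgroup V) (hS : ∀ v : V, M • v ∈ S) (w : V) :
    ∑ x : Z4 M, (if rep x ∈ S then (1 : ℂ) else 0) * ex (ip (rep x) w / M) =
      if (∀ v ∈ S, (M : ℤ) ∣ ip v w) then
        ((Finset.univ.filter fun x : Z4 M => rep x ∈ S).card : ℂ) else 0 := by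
  have hM : 0 < M := Nat.pos_of_ne_zero (NeZero.ne M)
  split_ifs with h
  · rw [Finset.card_filter, Nat.cast_sum]
    refine Finset.sum_congr rfl fun x _ => ?_
    by_cases hx : rep x ∈ S
    · rw [if_pos hx, if_pos hx, ex_eq_one_of_dvd hM (h _ hx)]; simp
    · rw [if_neg hx, if_neg hx]; simp
  · push Not at h
    obtain ⟨u, hu, hu2⟩ := h
    set φ : V → ℂ := fun v => (if v ∈ S then (1 : ℂ) else 0) * ex (ip v w / M) with hφ
    have hper : Per M φ := by
      intro v k
      simp only [hφ]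
      have h1 : v + M • k ∈ S ↔ v ∈ S := S.add_mem_cancel_right (hS k)
      have h2 : ex (ip (v + M • k) w / M) = ex (ip v w / M) := by
        rw [ip_add_left, ip_smul_left]
        have hM' : (M : ℝ) ≠ 0 := by exact_mod_cast hM.ne'
        have : (((ip v w + M * ip k w : ℤ)) : ℝ) / M = (ip v w : ℝ) / M + ((ip k w : ℤ) : ℝ) := by
          push_cast; field_simp
        rw [this, ex_add, ex_int, mul_one]
      rw [h2]
      simp only [h1]
    have h3 := hper.sum_add u
    have h4 : ∀ x : Z4 M, φ (rep x + u) = ex (ip u w / M) * φ (rep x) := by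
      intro x
      simp only [hφ]
      have h1 : rep x + u ∈ S ↔ rep x ∈ S := S.add_mem_cancel_right hu
      have h2 : ex (ip (rep x + u) w / M) = ex (ip u w / M) * ex (ip (rep x) w / M) := by
        rw [ip_add_left, ← ex_add]
        congr 1
        push_cast
        ring
      rw [h2]
      simp only [h1]
      ring
    simp only [h4] at h3
    rw [← Finset.mul_sum] at h3
    have h5 := ex_ne_one hM hu2
    have h6 : (ex (ip u w / M) - 1) * ∑ x : Z4 M, φ (rep x) = 0 := by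
      linear_combination h3
    rcases mul_eq_zero.mp h6 with h7 | h7
    · exact absurd (sub_eq_zero.mp h7) h5
    · exact h7

end Vale.Agent.P014.H70
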